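import Vale.Agent.P159.H846.Prof5
import Vale.Agent.P159.H197.Nk13

/-!
P159, FLATSTEP (helper846), part 1: one source torus, one target torus, one mass, in the letters of
LIST P_up (helper972).

* `DrS` : drop at every site momentum.
* `fs_core` : `step` (Prof4) for the kernels `GA`, tori `2 ^ r0` and `2 ^ r`, masses `tn n` and `tn j`.
* `alpha_le` : the stiffness of a flat profile is bounded.
-/

set_option linter.unusedSectionVars false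

namespace Vale.Agent.P159.H846

open Finset
open Vale.Agent.P159.TM.H764 (Gh EE EE_nonneg EE_zero)
open Vale.Agent.P159.TM.Spec (V)
open Vale.Agent.P159.H963 (Pin)
open Vale.Agent.P159.H972 (Par tn tn_pos)
open Vale.Agent.P159.H197 (NKc SEz)
open Vale.Agent.P159.H864 (yt)
open Vale.Agent.P159.H813 (LC LC_pos)

noncomputable section

/-- the drop of the neutral self energy at every site momentum of the torus `2 ^ r` -/
def DrS (b : ℝ) (r : ℕ) (t t' δ : ℝ) : Prop :=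
  ∀ k : V (2 ^ r), k ≠ 0 →
    |Pin (2 ^ r) b t k - Pin (2 ^ r) b t' k| ≤ δ * (1 + EE k / t') * EE k

lemma four_pow (j : ℕ) : (4 : ℝ) ^ j = (2 ^ j) ^ 2 := by
  rw [← pow_mul, mul_comm, pow_mul]
  norm_num

lemma sqrt_tn (j : ℕ) : √(tn j) = 1 / 2 ^ j := by
  unfold H972.tn
  rw [four_pow, Real.sqrt_inv, Real.sqrt_sq (by positivity), one_div]

lemma tn_eq (j : ℕ) : tn j = 1 / ((2 ^ j : ℕ) : ℝ) ^ 2 := by
  unfold H972.tn
  rw [four_pow, one_div]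
  push_cast
  rfl

lemma tn_le_one (j : ℕ) : tn j ≤ 1 := by
  unfold H972.tn
  exact inv_le_one_of_one_le₀ (one_le_pow₀ (by norm_num))

lemma tn_anti {i j : ℕ} (h : i ≤ j) : tn j ≤ tn i := by
  unfold H972.tn
  exact inv_anti₀ (by positivity) (pow_le_pow_right₀ (by norm_num) h)

lemma tn_ratio {n j : ℕ} (h : n ≤ j) : tn n = 4 ^ (j - n) * tn j := by
  unfold H972.tn
  have : (4 : ℝ) ^ j = 4 ^ (j - n) * 4 ^ n := by
    rw [← pow_add, Nat.sub_add_cancel h]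
  rw [this]
  field_simp

/-- **one step** -/
theorem fs_core (nn : ℕ) {b : ℝ} (hb : 0 < b) {n j r0 r : ℕ} (hnj : n ≤ j) (hjr : j + 5 ≤ r0)
    (hrr : r0 ≤ r) {z α η δ T s c₁ C₁ C₀ c₂ κ : ℝ} (hη : 0 ≤ η) (hδ : 0 ≤ δ) (hT : 0 ≤ T)
    (hC₀ : 0 ≤ C₀) (hz0 : 0 ≤ z) (hz : z * ((2 ^ r0 : ℕ) : ℝ) ^ 2 ≤ η)
    (hF : ∀ k : V (2 ^ r0), k ≠ 0 →
      |Pin (2 ^ r0) b (tn n) k - z - α * EE k| ≤ η * EE k ^ 2 / tn n)
    (hd : DrS b r0 (tn n) (tn j) δ)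
    (htop : ∀ k : V (2 ^ r0), k ≠ 0 → Pin (2 ^ r0) b (tn j) k ≤ C₀ * (tn j + EE k))
    (hNK : NKc b (tn j) T r0 r)
    (hP : PMod (gk (2 ^ r) b (tn j)) (tn j) c₁ C₁ C₀ s)
    (hc₁ : 0 < c₁) (hc : 0 < c₂) (hc2 : c₂ ≤ 1)
    (hcc : 8 * C₁ * c₂ ^ 2 ≤ c₁ ^ 2) (hκ : 0 < κ) (hκ4 : κ ≤ 1 / 4)
    (hMt : 4 * Real.pi * (nn + 1) ≤ (2 : ℝ) ^ (r - j) * (κ * c₂)) :
    ∃ α', |α' - α| ≤ Lam nn (κ * c₂) * er nn κ α (stepX (4 ^ (j - n)) (η / 4 ^ (r0 - n)) s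
        ((1 + C₀) ^ 2 * T) δ η) ∧
      FL (tn j) (gk (2 ^ r) b (tn j)) α' (Lam nn (κ * c₂) * er nn κ α (stepX (4 ^ (j - n))
        (η / 4 ^ (r0 - n)) s ((1 + C₀) ^ 2 * T) δ η)) := by
  have htj := tn_pos j
  have htn := tn_pos n
  have hM : (2 : ℕ) ^ r = 2 ^ (r - r0) * 2 ^ r0 := by
    rw [← pow_add, Nat.sub_add_cancel hrr]
  have hN4 : 4 ≤ 2 ^ r0 := by
    calc 4 = 2 ^ 2 := by norm_num
      _ ≤ 2 ^ r0 := Nat.pow_le_pow_right (by norm_num) (by omega)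
  have hNe : Even (2 ^ r0) := by
    rw [Nat.even_pow]
    exact ⟨even_two, by omega⟩
  have e4 : (((2 ^ r0 : ℕ) : ℝ)) ^ 2 = 4 ^ r0 := by
    push_cast
    exact (four_pow r0).symm
  have hr0n : (4 : ℝ) ^ r0 = 4 ^ (r0 - n) * 4 ^ n := by
    rw [← pow_add, Nat.sub_add_cancel (by omega)]
  refine step nn (N := 2 ^ r0) (R := 2 ^ (r - r0)) (M := 2 ^ r) hM (by positivity) hN4 hNe
    (w0 := gk (2 ^ r0) b (tn n)) (w1 := gk (2 ^ r0) b (tn j)) (z := z) htj (tn_le_one j)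
    (tn_ratio hnj) (one_le_pow₀ (by norm_num)) hδ hη (by positivity) hT hC₀ ?_ ?_ ?_
    (gk_pos hb htj) ?_ ?_ hP ?_ hc₁ hc hc2 hcc hκ hκ4 ?_
  · intro k hk
    rw [SE_gk hb.le htn hk]
    refine (hF k hk).trans (le_of_eq ?_)
    ring
  · rw [abs_of_nonneg hz0]
    rw [e4] at hz
    have e5 : η / 4 ^ (r0 - n) * tn n = η / 4 ^ r0 := by
      unfold H972.tn
      rw [hr0n]
      field_simp
    rw [e5, le_div_iff₀ (by positivity)]
    exact hz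
  · intro k hk
    rw [SE_gk hb.le htn hk, SE_gk hb.le htj hk]
    exact hd k hk
  · intro k hk
    rw [SE_gk hb.le htj hk, add_comm]
    exact htop k hk
  · intro p q _ _ hpq
    exact hNK p q hpq
  · rw [e4]
    have e5 : (4 : ℝ) ^ r0 = 4 ^ (r0 - j) * 4 ^ j := by
      rw [← pow_add, Nat.sub_add_cancel (by omega)]
    have e6 : (4 : ℝ) ^ r0 * tn j = 4 ^ (r0 - j) := by
      unfold H972.tn
      rw [e5]
      field_simp
    rw [e6]
    calc (320 : ℝ) ≤ 4 ^ 5 := by norm_num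
      _ ≤ 4 ^ (r0 - j) := pow_le_pow_right₀ (by norm_num) (by omega)
  · rw [sqrt_tn]
    refine hMt.trans (le_of_eq ?_)
    have e5 : (2 : ℝ) ^ r = 2 ^ (r - j) * 2 ^ j := by
      rw [← pow_add, Nat.sub_add_cancel (by omega)]
    push_cast
    rw [e5]
    field_simp

/-- a momentum of the size of the mass -/
lemma exists_mid {n r0 : ℕ} (hn : 1 ≤ n) (hr : n ≤ r0) :
    ∃ k : V (2 ^ r0), k ≠ 0 ∧ 16 * tn n ≤ EE k ∧ EE k ≤ 40 * tn n := by
  have hE : EE ((((2 ^ (r0 - n) : ℕ) : ZMod (2 ^ r0)), ((0 : ℕ) : ZMod (2 ^ r0))) : V (2 ^ r0)) =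
      2 * hh (2 ^ r0) (2 ^ (r0 - n)) + 2 * hh (2 ^ r0) 0 := EE_nat _ _
  have hx : 2 * Real.pi * ((2 ^ (r0 - n) : ℕ) : ℝ) / ((2 ^ r0 : ℕ) : ℝ) = 2 * Real.pi / 2 ^ n := by
    have e5 : (2 : ℝ) ^ r0 = 2 ^ (r0 - n) * 2 ^ n := by
      rw [← pow_add, Nat.sub_add_cancel hr]
    push_cast
    rw [e5]
    field_simp
  have hpi := Real.pi_pos
  have h2n : (2 : ℝ) ≤ 2 ^ n := by
    calc (2 : ℝ) = 2 ^ 1 := by norm_num
      _ ≤ 2 ^ n := pow_le_pow_right₀ (by norm_num) hn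
  have hxp : |2 * Real.pi / 2 ^ n| ≤ Real.pi := by
    rw [abs_of_pos (by positivity), div_le_iff₀ (by positivity)]
    nlinarith
  have hlow := TM.H764.one_sub_cos_low hxp
  have hup := Real.one_sub_sq_div_two_le_cos (x := 2 * Real.pi / 2 ^ n)
  have ht : tn n = 1 / (2 ^ n) ^ 2 := by
    unfold H972.tn
    rw [four_pow, one_div]
  have hhe : hh (2 ^ r0) (2 ^ (r0 - n)) = 1 - Real.cos (2 * Real.pi / 2 ^ n) := by
    unfold hh
    rw [hx]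
  rw [hh_zero, hhe, mul_zero, add_zero] at hE
  have hlo : 16 * tn n ≤ 2 * (1 - Real.cos (2 * Real.pi / 2 ^ n)) := by
    have e1 : 2 / Real.pi ^ 2 * (2 * Real.pi / 2 ^ n) ^ 2 = 8 * tn n := by
      rw [ht]
      field_simp
      norm_num
    rw [e1] at hlow
    linarith
  have hhi : 2 * (1 - Real.cos (2 * Real.pi / 2 ^ n)) ≤ 40 * tn n := by
    have e1 : (2 * Real.pi / 2 ^ n) ^ 2 = 4 * Real.pi ^ 2 * tn n := by
      rw [ht]
      field_simp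
      norm_num
    have h10 : Real.pi ^ 2 ≤ 10 := by
      have := Real.pi_lt_d2
      nlinarith
    have htp := tn_pos n
    nlinarith
  have htn := tn_pos n
  refine ⟨((((2 ^ (r0 - n) : ℕ) : ZMod (2 ^ r0)), ((0 : ℕ) : ZMod (2 ^ r0))) : V (2 ^ r0)),
    fun h0 => ?_, hlo.trans_eq hE.symm, hE.trans_le hhi⟩
  rw [h0, EE_zero] at hE
  linarith

/-- the stiffness of a flat profile is bounded -/
theorem alpha_le {b : ℝ} (hb : 0 < b) {n r0 : ℕ} (hn : 1 ≤ n) (hr : n ≤ r0) {z α η C₀ : ℝ}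
    (hη : 0 ≤ η) (hη1 : η ≤ 1) (hC₀ : 0 ≤ C₀) (hz0 : 0 ≤ z)
    (hz : z * ((2 ^ r0 : ℕ) : ℝ) ^ 2 ≤ η)
    (hF : ∀ k : V (2 ^ r0), k ≠ 0 →
      |Pin (2 ^ r0) b (tn n) k - z - α * EE k| ≤ η * EE k ^ 2 / tn n)
    (htop : ∀ k : V (2 ^ r0), k ≠ 0 → Pin (2 ^ r0) b (tn n) k ≤ C₀ * (tn n + EE k)) :
    |α| ≤ 2 * C₀ + 41 := by
  obtain ⟨k, hk, h1, h2⟩ := exists_mid hn hr
  have ht := tn_pos n
  have hE : 0 < EE k := by linarith
  have hP := H963.Pin_nonneg (N := 2 ^ r0) hb ht hk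
  have hf := hF k hk
  have htp := htop k hk
  have hzE : z ≤ EE k := by
    have e4 : (((2 ^ r0 : ℕ) : ℝ)) ^ 2 = 4 ^ r0 := by
      push_cast
      exact (four_pow r0).symm
    rw [e4] at hz
    have h3 : z ≤ tn n := by
      have h4 : (4 : ℝ) ^ n ≤ 4 ^ r0 := pow_le_pow_right₀ (by norm_num) hr
      unfold H972.tn
      rw [← one_div, le_div_iff₀ (by positivity)]
      have := mul_le_mul_of_nonneg_left h4 hz0
      linarith
    linarith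
  have h5 : η * EE k ^ 2 / tn n ≤ 40 * EE k := by
    rw [div_le_iff₀ ht]
    have h6 : EE k ^ 2 ≤ 40 * tn n * EE k := by nlinarith
    have h7 : η * EE k ^ 2 ≤ 1 * EE k ^ 2 := mul_le_mul_of_nonneg_right hη1 (sq_nonneg _)
    linarith
  have h8 := (abs_le.1 hf).1
  have h9 := (abs_le.1 hf).2
  have hCE : C₀ * tn n ≤ C₀ * EE k := mul_le_mul_of_nonneg_left (by linarith) hC₀
  rw [abs_le]
  constructor
  · have h10 : -(41 * EE k) ≤ α * EE k := by linarith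
    have h11 : -(41 : ℝ) ≤ α := by
      by_contra hcon
      push Not at hcon
      nlinarith
    linarith
  · have h10 : α * EE k ≤ (2 * C₀ + 40) * EE k := by linarith
    have h11 : α ≤ 2 * C₀ + 40 := le_of_mul_le_mul_right h10 hE
    linarith

end

end Vale.Agent.P159.H846
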