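import Vale.Agent.P159.H846.Tp1

/-!
P159, CUT (helper846): helper191's partially cut field as a matrix (helper789's letters, row 9104).

* `TPM = TPM1 + TPM2`, `TPM_mul`, `TPM_const` (constants are killed);
* `en_TPM`   : the energy; `sq_TPM1`, `nrm_TPM2` : the split; `sq_TPM`, `sq_TPMt` : operator norms;
* `tpH_sj`   : the profiles `(j + th i) / n` (`N = n l`), plateau `U (30 L) L`.
-/

set_option linter.unusedSectionVars false

namespace Vale.Agent.P159.H846.Tp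

open Finset Matrix
open Vale.Agent.P159.TM.Spec (V)
open Vale.Agent.P159.H817 (sz gr nrm e1 e2 gr_eq eb GB U sum_edges)
open Vale.Agent.P159.H191 (mn chi a0 TP mn_const th)

noncomputable section

/-- the norm of the transposed matrix -/
theorem sq_tr {m n : Type*} [Fintype m] [Fintype n] {M : Matrix m n ℝ} {k : ℝ} (hk : 0 ≤ k)
    (h : ∀ H : n → ℝ, ∑ x, (M *ᵥ H) x ^ 2 ≤ k * ∑ y, H y ^ 2) (v : m → ℝ) :
    ∑ y, (Mᵀ *ᵥ v) y ^ 2 ≤ k * ∑ x, v x ^ 2 := by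
  set w := Mᵀ *ᵥ v with hw
  have e : ∑ y, w y ^ 2 = ∑ x, (M *ᵥ w) x * v x := by
    have h1 : w ⬝ᵥ (Mᵀ *ᵥ v) = (M *ᵥ w) ⬝ᵥ v := by
      rw [dotProduct_mulVec, vecMul_transpose]
    rw [← hw] at h1
    have h2 : w ⬝ᵥ w = ∑ y, w y ^ 2 := Finset.sum_congr rfl fun y _ => (pow_two _).symm
    rw [← h2, h1]
    rfl
  have h1 : (∑ x, (M *ᵥ w) x * v x) ^ 2 ≤ (∑ x, (M *ᵥ w) x ^ 2) * ∑ x, v x ^ 2 :=
    Finset.sum_mul_sq_le_sq_mul_sq _ _ _
  have hv : 0 ≤ ∑ x, v x ^ 2 := Finset.sum_nonneg fun x _ => sq_nonneg _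
  have h2 := mul_le_mul_of_nonneg_right (h w) hv
  rw [← e] at h1
  have h0 : 0 ≤ ∑ y, w y ^ 2 := Finset.sum_nonneg fun y _ => sq_nonneg _
  rcases h0.eq_or_lt with h3 | h3
  · rw [← h3]
    exact mul_nonneg hk hv
  · have h4 : (∑ y, w y ^ 2) * (∑ y, w y ^ 2) ≤ (k * ∑ x, v x ^ 2) * ∑ y, w y ^ 2 := by
      calc _ = (∑ y, w y ^ 2) ^ 2 := (pow_two _).symm
        _ ≤ _ := h1.trans h2
        _ = _ := by ring
    exact le_of_mul_le_mul_right h4 h3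

variable {N : ℕ} [NeZero N] {l : ℕ} {μ pl θ : V N → ℝ} {Cm A Bp : ℝ}

/-- the local part -/
def TPM1 (l : ℕ) (p q : V N) (θ : V N → ℝ) : Matrix (V N) (V N) ℝ := diagonal (aa l p q θ)

/-- the part of the means -/
def TPM2 (l : ℕ) (pl μ : V N → ℝ) (p q : V N) (θ : V N → ℝ) : Matrix (V N) (V N) ℝ :=
  of fun x y => -(aa l p q θ x * μ (y - p)) + kk l pl q θ x * (μ (y - q) - μ (y - p))

/-- **the partially cut field** -/
def TPM (l : ℕ) (pl μ : V N → ℝ) (p q : V N) (θ : V N → ℝ) : Matrix (V N) (V N) ℝ :=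
  TPM1 l p q θ + TPM2 l pl μ p q θ

lemma TPM1_mul (p q : V N) (H : V N → ℝ) (x : V N) :
    (TPM1 l p q θ *ᵥ H) x = aa l p q θ x * H x := by
  unfold TPM1
  rw [mulVec_diagonal]

lemma TPM2_mul (p q : V N) (H : V N → ℝ) (x : V N) :
    (TPM2 l pl μ p q θ *ᵥ H) x =
      -(aa l p q θ x * mn μ p H) + kk l pl q θ x * (mn μ q H - mn μ p H) := by
  unfold TPM2 mn
  simp only [mulVec, dotProduct, of_apply]
  rw [Finset.mul_sum, ← Finset.sum_neg_distrib, ← Finset.sum_sub_distrib, Finset.mul_sum,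
    ← Finset.sum_add_distrib]
  exact Finset.sum_congr rfl fun y _ => by ring

theorem TPM_mul (p q : V N) (H : V N → ℝ) :
    TPM l pl μ p q θ *ᵥ H = TP l pl μ p q θ H := by
  funext x
  unfold TPM
  rw [add_mulVec, Pi.add_apply, TPM1_mul, TPM2_mul]
  unfold TP aa kk
  ring

/-- constants are killed -/
theorem TPM_const (hμ : ∑ z, μ z = 1) (p q : V N) (c : ℝ) :
    TPM l pl μ p q θ *ᵥ (fun _ => c) = 0 := by
  rw [TPM_mul]
  funext x
  unfold TP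
  rw [mn_const hμ, mn_const hμ, sub_self, Pi.zero_apply]
  ring

/-- **the energy** -/
theorem en_TPM (h : TpH N l pl μ θ Cm A Bp) (p q : V N) {k : ℕ} (hk : N ≤ 2 ^ k * l)
    (H : V N → ℝ) : nrm (gr (TPM l pl μ p q θ *ᵥ H)) ≤
      2 * 10 ^ 8 * Cm ^ 2 * (1 + A ^ 2 + Bp) * (1 + k) ^ 2 * nrm (gr H) := by
  rw [TPM_mul]
  exact nrm_TP h p q hk H

/-- **the local part in `L²`** -/
theorem sq_TPM1 (h : TpH N l pl μ θ Cm A Bp) (p q : V N) (H : V N → ℝ) :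
    ∑ x, (TPM1 l p q θ *ᵥ H) x ^ 2 ≤ 4 * ∑ x, H x ^ 2 := by
  rw [Finset.mul_sum]
  refine Finset.sum_le_sum fun x _ => ?_
  rw [TPM1_mul, mul_pow]
  exact mul_le_mul_of_nonneg_right (aa_sq h p q x) (sq_nonneg _)

/-- the mean in `L²` -/
lemma mn_sq (h : Pf l μ Cm) (c : V N) (H : V N → ℝ) :
    mn μ c H ^ 2 ≤ Cm / (l : ℝ) ^ 2 * ∑ x, H x ^ 2 := by
  have w := h.wt c
  have h1 := (jen (f := H) w.nn w.one).trans (w.sum_le fun z => sq_nonneg (H z))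
  refine h1.trans (mul_le_mul_of_nonneg_left ?_ w.A0)
  exact Finset.sum_le_univ_sum_of_nonneg fun x => sq_nonneg _

/-- **the energy of the part of the means** -/
theorem nrm_TPM2 (h : TpH N l pl μ θ Cm A Bp) (p q : V N) (H : V N → ℝ) :
    (l : ℝ) ^ 2 * nrm (gr (TPM2 l pl μ p q θ *ᵥ H)) ≤
      44400 * Cm * (1 + A ^ 2 + Bp) * ∑ x, H x ^ 2 := by
  have hl1 : (1 : ℝ) ≤ l := by exact_mod_cast h.l0
  have hCm := h.Cm1
  have hB := h.B0
  have hS : 0 ≤ ∑ x, H x ^ 2 := Finset.sum_nonneg fun x _ => sq_nonneg _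
  set P := mn μ p H with hP
  set D := mn μ q H - mn μ p H with hD
  set S := Cm / (l : ℝ) ^ 2 * ∑ x, H x ^ 2 with hSd
  have hP2 : P ^ 2 ≤ S := mn_sq h.pf p H
  have hQ2 : mn μ q H ^ 2 ≤ S := mn_sq h.pf q H
  have hD2 : D ^ 2 ≤ 4 * S := by
    have : D ^ 2 ≤ 2 * mn μ q H ^ 2 + 2 * P ^ 2 := by
      rw [hD, hP]
      nlinarith [sq_nonneg (mn μ q H + mn μ p H)]
    linarith
  have hS0 : 0 ≤ S := (sq_nonneg P).trans hP2
  have hpt : ∀ e : V N × Bool, gr (TPM2 l pl μ p q θ *ᵥ H) e ^ 2 ≤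
      2 * (P ^ 2 * gr (aa l p q θ) e ^ 2) + 2 * (D ^ 2 * gr (kk l pl q θ) e ^ 2) := by
    rintro ⟨x, b⟩
    have e : gr (TPM2 l pl μ p q θ *ᵥ H) (x, b) =
        -(P * gr (aa l p q θ) (x, b)) + D * gr (kk l pl q θ) (x, b) := by
      rw [gr_eq, gr_eq, gr_eq, TPM2_mul, TPM2_mul]
      simp only [hP, hD]
      ring
    rw [e]
    nlinarith [sq_nonneg (P * gr (aa l p q θ) (x, b) + D * gr (kk l pl q θ) (x, b))]
  have hsum : nrm (gr (TPM2 l pl μ p q θ *ᵥ H)) ≤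
      2 * (P ^ 2 * nrm (gr (aa l p q θ))) + 2 * (D ^ 2 * nrm (gr (kk l pl q θ))) := by
    unfold nrm
    refine (Finset.sum_le_sum fun e _ => hpt e).trans (le_of_eq ?_)
    rw [Finset.sum_add_distrib, ← Finset.mul_sum, ← Finset.mul_sum, ← Finset.mul_sum,
      ← Finset.mul_sum]
  have h1 := nrm_aa h p q
  have h2 := nrm_kk h q
  have t1 : P ^ 2 * nrm (gr (aa l p q θ)) ≤ S * (7400 + 4 * A ^ 2) :=
    mul_le_mul hP2 h1 (nrm_nonneg _) hS0
  have t2 : D ^ 2 * nrm (gr (kk l pl q θ)) ≤ 4 * S * (4 * Bp + 3700 + 4 * A ^ 2) :=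
    mul_le_mul hD2 h2 (nrm_nonneg _) (by positivity)
  have t3 : nrm (gr (TPM2 l pl μ p q θ *ᵥ H)) ≤ 44400 * (1 + A ^ 2 + Bp) * S := by
    have a1 : 0 ≤ S * A ^ 2 := mul_nonneg hS0 (sq_nonneg _)
    have a2 : 0 ≤ S * Bp := mul_nonneg hS0 hB
    nlinarith
  have t4 := mul_le_mul_of_nonneg_left t3 (sq_nonneg (l : ℝ))
  refine t4.trans (le_of_eq ?_)
  rw [hSd]
  field_simp

/-- **the operator norm** -/
theorem sq_TPM (h : TpH N l pl μ θ Cm A Bp) (p q : V N) (H : V N → ℝ) :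
    ∑ x, (TPM l pl μ p q θ *ᵥ H) x ^ 2 ≤
      40 * Cm * ((N : ℝ) / l) ^ 2 * ∑ x, H x ^ 2 := by
  have hl0 := h.l0
  have hlN := h.lN
  have hl1 : (1 : ℝ) ≤ l := by exact_mod_cast hl0
  have hCm := h.Cm1
  have hS : 0 ≤ ∑ x, H x ^ 2 := Finset.sum_nonneg fun x _ => sq_nonneg _
  set P := mn μ p H with hP
  set D := mn μ q H - mn μ p H with hD
  set S := Cm / (l : ℝ) ^ 2 * ∑ x, H x ^ 2 with hSd
  have hP2 : P ^ 2 ≤ S := mn_sq h.pf p H
  have hQ2 : mn μ q H ^ 2 ≤ S := mn_sq h.pf q H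
  have hD2 : D ^ 2 ≤ 4 * S := by
    have : D ^ 2 ≤ 2 * mn μ q H ^ 2 + 2 * P ^ 2 := by
      rw [hD, hP]
      nlinarith [sq_nonneg (mn μ q H + mn μ p H)]
    linarith
  have hS0 : 0 ≤ S := (sq_nonneg P).trans hP2
  have hpt : ∀ x, (TPM l pl μ p q θ *ᵥ H) x ^ 2 ≤ 8 * H x ^ 2 + 32 * S := by
    intro x
    unfold TPM
    rw [add_mulVec, Pi.add_apply, TPM1_mul, TPM2_mul]
    have a1 := aa_sq h p q x
    have a2 := kk_sq h q x
    have b1 : (aa l p q θ x * H x) ^ 2 ≤ 4 * H x ^ 2 := by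
      rw [mul_pow]
      exact mul_le_mul_of_nonneg_right a1 (sq_nonneg _)
    have b2 : (aa l p q θ x * P) ^ 2 ≤ 4 * S := by
      rw [mul_pow]
      exact mul_le_mul a1 hP2 (sq_nonneg _) (by norm_num)
    have b3 : (kk l pl q θ x * D) ^ 2 ≤ 1 * (4 * S) := by
      rw [mul_pow]
      exact mul_le_mul a2 hD2 (sq_nonneg _) zero_le_one
    set u := aa l p q θ x * H x with hu
    set v := aa l p q θ x * P with hv
    set w := kk l pl q θ x * D with hw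
    have h3 : (u + (-v + w)) ^ 2 ≤ 2 * u ^ 2 + 4 * v ^ 2 + 4 * w ^ 2 := by
      nlinarith [sq_nonneg (u - (-v + w)), sq_nonneg (v + w)]
    linarith
  refine (Finset.sum_le_sum fun x _ => hpt x).trans ?_
  rw [Finset.sum_add_distrib, ← Finset.mul_sum, sum_const' h]
  have h4 : (N : ℝ) ^ 2 * (32 * S) = 32 * Cm * ((N : ℝ) / l) ^ 2 * ∑ x, H x ^ 2 := by
    rw [hSd]
    field_simp
  rw [h4]
  have h5 : (1 : ℝ) ≤ (N : ℝ) / l := by
    rw [le_div_iff₀ (by linarith), one_mul]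
    exact_mod_cast (by omega : l ≤ N)
  have h6 : (1 : ℝ) ≤ Cm * ((N : ℝ) / l) ^ 2 :=
    one_le_mul_of_one_le_of_one_le hCm (one_le_pow₀ h5)
  nlinarith

theorem sq_TPMt (h : TpH N l pl μ θ Cm A Bp) (p q : V N) (v : V N → ℝ) :
    ∑ x, ((TPM l pl μ p q θ)ᵀ *ᵥ v) x ^ 2 ≤ 40 * Cm * ((N : ℝ) / l) ^ 2 * ∑ x, v x ^ 2 := by
  have hCm := h.Cm1
  exact sq_tr (by positivity) (sq_TPM h p q) v

/-- **the profiles of the sweeps** -/
theorem tpH_sj {n : ℕ} [NeZero n] (hN : N = n * l) (hl : 0 < l) (hn : 64 ≤ n) {Cm : ℝ}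
    (hμ : Pf l μ Cm) (hCm : 1 ≤ Cm) {L : ℕ} (hL : 0 < L) {j : ℕ} (hj : j < n) (i : ℕ) :
    TpH N l (U (30 * L) L) μ (fun x => ((j : ℝ) + th N n l i x) / n) Cm 1 8450 := by
  have hn0 : (0 : ℝ) < n := by exact_mod_cast NeZero.pos n
  have hl1 : (0 : ℝ) < l := by exact_mod_cast hl
  refine ⟨hl, ?_, hμ, hCm, fun x => ?_, fun x => ?_, zero_le_one, ?_, fun x => H817.U_nonneg _ _ _,
    fun x => H817.U_le_one _ _ _, by norm_num, nrm_pla hL⟩
  · rw [hN]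
    exact Nat.mul_le_mul_right _ hn
  · have h2 := H191.th_nonneg (N := N) (n := n) (l := l) i x
    positivity
  · have h1 : (j : ℝ) + 1 ≤ n := by exact_mod_cast hj
    have h2 := H191.th_le_one (N := N) (n := n) (l := l) i x
    rw [div_le_one hn0]
    linarith
  · rintro ⟨x, b⟩
    have h1 := H191.gr_th (n := n) hN hl i (x, b)
    rw [gr_eq] at h1 ⊢
    have e : ((j : ℝ) + th N n l i (x + eb b)) / n - ((j : ℝ) + th N n l i x) / n =
        (th N n l i (x + eb b) - th N n l i x) / n := by ring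
    rw [e, abs_div, abs_of_pos hn0]
    have h2 : (N : ℝ) = n * l := by exact_mod_cast hN
    rw [h2, div_le_div_iff₀ hn0 (by positivity)]
    rw [le_div_iff₀ hl1] at h1
    nlinarith

end

end Vale.Agent.P159.H846.Tp
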