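import Vale.Agent.P159.H789.StM
import Vale.Agent.P159.H846.Tp2

/-!
P159, CUT (helper846): helper191's partially cut field in helper789's letters (row 9444).

* `SM.mono`, `SMF.mono`;
* **`sm_TP`**, **`smf_TP`** : `TP l pl μ p q θ` is in the split class;
* **`sm_sj`**, **`smf_sj`** : the profiles of the sweeps, numbers;
* `nrm_smr`, **`nrm_YP`** : the energy of the smeared path.
-/

set_option linter.unusedSectionVars false

namespace Vale.Agent.P159.H846.Tp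

open Finset Matrix
open Vale.Agent.P159.TM.Spec (V)
open Vale.Agent.P159.H864 (lapM)
open Vale.Agent.P159.H37 (qf)
open Vale.Agent.P159.H789 (SM SMF)
open Vale.Agent.P159.H817 (sz gr nrm e1 e2 gr_eq eb GB U sum_edges)
open Vale.Agent.P159.H191 (mn chi a0 TP YP smr Wts mn_const th)

noncomputable section

variable {N : ℕ} [NeZero N] {l : ℕ} {μ pl θ : V N → ℝ} {Cm A Bp : ℝ}

lemma sqn (H : V N → ℝ) : 0 ≤ ∑ x, H x ^ 2 := Finset.sum_nonneg fun _ _ => sq_nonneg _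

lemma qlap_nonneg (H : V N → ℝ) : 0 ≤ qf lapM H := by
  rw [H817.qf_lap]
  exact nrm_nonneg _

lemma SM_mono {k k₂ kI k' k₂' kI' : ℝ} {M M₁ M₂ : Matrix (V N) (V N) ℝ}
    (h : SM N k k₂ kI M M₁ M₂) (h1 : k ≤ k') (h2 : k₂ ≤ k₂') (h3 : kI ≤ kI') :
    SM N k' k₂' kI' M M₁ M₂ where
  sum := h.sum
  one := h.one
  op H := (h.op H).trans (mul_le_mul_of_nonneg_right h1 (sqn H))
  far H := (h.far H).trans (mul_le_mul_of_nonneg_right h2 (sqn H))
  en H := (h.en H).trans (mul_le_mul_of_nonneg_right h1 (qlap_nonneg H))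
  cr H := (h.cr H).trans (mul_le_mul_of_nonneg_right h3 (sqn H))
  cr2 H := (h.cr2 H).trans (mul_le_mul_of_nonneg_right h3 (sqn H))

lemma SMF_mono {k k₂ kI k' k₂' kI' : ℝ} {f f₁ f₂ : (V N → ℝ) → V N → ℝ}
    (h : SMF N k k₂ kI f f₁ f₂) (h1 : k ≤ k') (h2 : k₂ ≤ k₂') (h3 : kI ≤ kI') :
    SMF N k' k₂' kI' f f₁ f₂ where
  l₁ := h.l₁
  l₂ := h.l₂
  sum := h.sum
  one := h.one
  op H := (h.op H).trans (mul_le_mul_of_nonneg_right h1 (sqn H))
  far H := (h.far H).trans (mul_le_mul_of_nonneg_right h2 (sqn H))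
  en H := (h.en H).trans (mul_le_mul_of_nonneg_right h1 (qlap_nonneg H))
  cr H := (h.cr H).trans (mul_le_mul_of_nonneg_right h3 (sqn H))
  cr2 H := (h.cr2 H).trans (mul_le_mul_of_nonneg_right h3 (sqn H))

lemma Nl_one (h : TpH N l pl μ θ Cm A Bp) : (1 : ℝ) ≤ Cm * ((N : ℝ) / l) ^ 2 := by
  have hl0 := h.l0
  have hlN := h.lN
  have hl1 : (1 : ℝ) ≤ l := by exact_mod_cast hl0
  have h5 : (1 : ℝ) ≤ (N : ℝ) / l := by
    rw [le_div_iff₀ (by linarith), one_mul]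
    exact_mod_cast (by omega : l ≤ N)
  exact one_le_mul_of_one_le_of_one_le h.Cm1 (one_le_pow₀ h5)

/-- the part of the means in `L²` -/
theorem sq_TPM2 (h : TpH N l pl μ θ Cm A Bp) (p q : V N) (H : V N → ℝ) :
    ∑ x, (TPM2 l pl μ p q θ *ᵥ H) x ^ 2 ≤ 40 * Cm * ((N : ℝ) / l) ^ 2 * ∑ x, H x ^ 2 := by
  have hl0 := h.l0
  have hl1 : (1 : ℝ) ≤ l := by exact_mod_cast hl0
  have hS := sqn H
  set P := mn μ p H with hP
  set D := mn μ q H - mn μ p H with hD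
  set S := Cm / (l : ℝ) ^ 2 * ∑ x, H x ^ 2 with hSd
  have hP2 : P ^ 2 ≤ S := mn_sq h.pf p H
  have hQ2 : mn μ q H ^ 2 ≤ S := mn_sq h.pf q H
  have hD2 : D ^ 2 ≤ 4 * S := by
    have : D ^ 2 ≤ 2 * mn μ q H ^ 2 + 2 * P ^ 2 := by
      rw [hD, hP]
      nlinarith [sq_nonneg (mn μ q H + mn μ p H)]
    linarith
  have hS0 : 0 ≤ S := (sq_nonneg P).trans hP2
  have hpt : ∀ x, (TPM2 l pl μ p q θ *ᵥ H) x ^ 2 ≤ 16 * S := by
    intro x
    rw [TPM2_mul]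
    have a1 := aa_sq h p q x
    have a2 := kk_sq h q x
    have b2 : (aa l p q θ x * P) ^ 2 ≤ 4 * S := by
      rw [mul_pow]
      exact mul_le_mul a1 hP2 (sq_nonneg _) (by norm_num)
    have b3 : (kk l pl q θ x * D) ^ 2 ≤ 1 * (4 * S) := by
      rw [mul_pow]
      exact mul_le_mul a2 hD2 (sq_nonneg _) zero_le_one
    set v := aa l p q θ x * P with hv
    set w := kk l pl q θ x * D with hw
    nlinarith [sq_nonneg (v + w)]
  refine (Finset.sum_le_sum fun x _ => hpt x).trans ?_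
  rw [sum_const' h]
  have h4 : (N : ℝ) ^ 2 * (16 * S) = 16 * (Cm * ((N : ℝ) / l) ^ 2) * ∑ x, H x ^ 2 := by
    rw [hSd]
    field_simp
  rw [h4]
  have h6 := Nl_one h
  nlinarith [mul_nonneg (by linarith : 0 ≤ Cm * ((N : ℝ) / l) ^ 2) hS]

/-- **the split class, matrices** -/
theorem sm_TP (h : TpH N l pl μ θ Cm A Bp) (p q : V N) {k : ℕ} (hk : N ≤ 2 ^ k * l) :
    SM N (2 * 10 ^ 8 * Cm ^ 2 * (1 + A ^ 2 + Bp) * (1 + k) ^ 2)
      (44400 * Cm * (1 + A ^ 2 + Bp) / (l : ℝ) ^ 2) (40 * Cm * ((N : ℝ) / l) ^ 2)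
      (TPM l pl μ p q θ) (TPM1 l p q θ) (TPM2 l pl μ p q θ) where
  sum := rfl
  one := TPM_const h.pf.one p q 1
  op H := by
    refine (sq_TPM1 h p q H).trans (mul_le_mul_of_nonneg_right ?_ (sqn H))
    have hCm := h.Cm1
    have hB := h.B0
    have h1 : (1 : ℝ) ≤ Cm ^ 2 := one_le_pow₀ hCm
    have h2 : (1 : ℝ) ≤ 1 + A ^ 2 + Bp := by nlinarith [sq_nonneg A]
    have h3 : (1 : ℝ) ≤ (1 + (k : ℝ)) ^ 2 := one_le_pow₀ (by
      have : (0 : ℝ) ≤ k := Nat.cast_nonneg k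
      linarith)
    have h4 := one_le_mul_of_one_le_of_one_le (one_le_mul_of_one_le_of_one_le h1 h2) h3
    linarith
  far H := by
    rw [H817.qf_lap]
    have hl0 := h.l0
    have hl1 : (0 : ℝ) < (l : ℝ) ^ 2 := by positivity
    have h1 := nrm_TPM2 h p q H
    rw [div_mul_eq_mul_div, le_div_iff₀ hl1, mul_comm]
    exact h1
  en H := by
    rw [H817.qf_lap, H817.qf_lap]
    exact en_TPM h p q hk H
  cr H := sq_TPM h p q H
  cr2 H := sq_TPM2 h p q H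

/-- **the split class, maps** -/
theorem smf_TP (h : TpH N l pl μ θ Cm A Bp) (p q : V N) {k : ℕ} (hk : N ≤ 2 ^ k * l) :
    SMF N (2 * 10 ^ 8 * Cm ^ 2 * (1 + A ^ 2 + Bp) * (1 + k) ^ 2)
      (44400 * Cm * (1 + A ^ 2 + Bp) / (l : ℝ) ^ 2) (40 * Cm * ((N : ℝ) / l) ^ 2)
      (TP l pl μ p q θ) (fun H => TPM1 l p q θ *ᵥ H) (fun H => TPM2 l pl μ p q θ *ᵥ H) := by
  have s := sm_TP h p q hk
  refine ⟨⟨fun x y => Matrix.mulVec_add _ x y, fun c x => Matrix.mulVec_smul _ c x⟩,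
    ⟨fun x y => Matrix.mulVec_add _ x y, fun c x => Matrix.mulVec_smul _ c x⟩, ?_, ?_, s.op, s.far,
    ?_, ?_, s.cr2⟩
  · intro H x
    rw [← TPM_mul, TPM, Matrix.add_mulVec, Pi.add_apply]
  · intro x
    rw [← TPM_mul, TPM_const h.pf.one, Pi.zero_apply]
  · intro H
    rw [← TPM_mul]
    exact s.en H
  · intro H
    rw [← TPM_mul]
    exact s.cr H

/-- **the sweeps, matrices** -/
theorem sm_sj {n : ℕ} [NeZero n] (hN : N = n * l) (hl : 0 < l) (hn : 64 ≤ n) {Cm : ℝ}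
    (hμ : Pf l μ Cm) (hCm : 1 ≤ Cm) {L : ℕ} (hL : 0 < L) {j : ℕ} (hj : j < n) (i : ℕ)
    (p q : V N) {k : ℕ} (hk : n ≤ 2 ^ k) :
    SM N (2 * 10 ^ 12 * Cm ^ 2 * (1 + k) ^ 2) (4 * 10 ^ 8 * Cm / (l : ℝ) ^ 2)
      (40 * Cm * (n : ℝ) ^ 2)
      (TPM l (U (30 * L) L) μ p q fun x => ((j : ℝ) + th N n l i x) / n)
      (TPM1 l p q fun x => ((j : ℝ) + th N n l i x) / n)
      (TPM2 l (U (30 * L) L) μ p q fun x => ((j : ℝ) + th N n l i x) / n) := by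
  have h := tpH_sj hN hl hn hμ hCm hL hj i
  have hk' : N ≤ 2 ^ k * l := by
    rw [hN]
    exact Nat.mul_le_mul_right _ hk
  have hl0 : (0 : ℝ) < l := by exact_mod_cast hl
  have hl1 : (0 : ℝ) < (l : ℝ) ^ 2 := by positivity
  refine SM_mono (sm_TP h p q hk') ?_ ?_ ?_
  · have h1 : 0 ≤ Cm ^ 2 * (1 + (k : ℝ)) ^ 2 := by positivity
    nlinarith
  · rw [div_le_div_iff_of_pos_right hl1]
    nlinarith
  · have e : (N : ℝ) / l = n := by
      rw [hN, Nat.cast_mul, mul_div_assoc, div_self hl0.ne', mul_one]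
    rw [e]

/-- **the sweeps, maps** -/
theorem smf_sj {n : ℕ} [NeZero n] (hN : N = n * l) (hl : 0 < l) (hn : 64 ≤ n) {Cm : ℝ}
    (hμ : Pf l μ Cm) (hCm : 1 ≤ Cm) {L : ℕ} (hL : 0 < L) {j : ℕ} (hj : j < n) (i : ℕ)
    (p q : V N) {k : ℕ} (hk : n ≤ 2 ^ k) :
    SMF N (2 * 10 ^ 12 * Cm ^ 2 * (1 + k) ^ 2) (4 * 10 ^ 8 * Cm / (l : ℝ) ^ 2)
      (40 * Cm * (n : ℝ) ^ 2)
      (TP l (U (30 * L) L) μ p q fun x => ((j : ℝ) + th N n l i x) / n)
      (fun H => TPM1 l p q (fun x => ((j : ℝ) + th N n l i x) / n) *ᵥ H)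
      (fun H => TPM2 l (U (30 * L) L) μ p q (fun x => ((j : ℝ) + th N n l i x) / n) *ᵥ H) := by
  have h := tpH_sj hN hl hn hμ hCm hL hj i
  have hk' : N ≤ 2 ^ k * l := by
    rw [hN]
    exact Nat.mul_le_mul_right _ hk
  have hl0 : (0 : ℝ) < l := by exact_mod_cast hl
  have hl1 : (0 : ℝ) < (l : ℝ) ^ 2 := by positivity
  refine SMF_mono (smf_TP h p q hk') ?_ ?_ ?_
  · have h1 : 0 ≤ Cm ^ 2 * (1 + (k : ℝ)) ^ 2 := by positivity
    nlinarith
  · rw [div_le_div_iff_of_pos_right hl1]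
    nlinarith
  · have e : (N : ℝ) / l = n := by
      rw [hN, Nat.cast_mul, mul_div_assoc, div_self hl0.ne', mul_one]
    rw [e]

/-! ### the smeared path -/

/-- the energy of a smeared operator -/
theorem nrm_smr {w : V N → ℝ} {s : ℕ} (hw : Wts w s) {T : (V N → ℝ) → V N → ℝ} {K : ℝ}
    (hT : ∀ H, nrm (gr (T H)) ≤ K * nrm (gr H)) (H : V N → ℝ) :
    nrm (gr (smr w T H)) ≤ K * nrm (gr H) := by
  have hpt : ∀ e : V N × Bool, gr (smr w T H) e ^ 2 ≤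
      ∑ v, w v * gr (fun x => T (fun y => H (y + v)) (x - v)) e ^ 2 := by
    rintro ⟨x, b⟩
    have e : gr (smr w T H) (x, b) =
        ∑ v, w v * gr (fun x => T (fun y => H (y + v)) (x - v)) (x, b) := by
      rw [gr_eq]
      unfold smr
      rw [← Finset.sum_sub_distrib]
      refine Finset.sum_congr rfl fun v _ => ?_
      rw [gr_eq]
      ring
    rw [e]
    exact jen hw.nn hw.one
  have h1 : nrm (gr (smr w T H)) ≤
      ∑ v, w v * nrm (gr (fun x => T (fun y => H (y + v)) (x - v))) := by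
    unfold nrm
    refine (Finset.sum_le_sum fun e _ => hpt e).trans (le_of_eq ?_)
    rw [Finset.sum_comm]
    refine Finset.sum_congr rfl fun v _ => ?_
    rw [Finset.mul_sum]
  refine h1.trans ?_
  have h2 : ∀ v, w v * nrm (gr (fun x => T (fun y => H (y + v)) (x - v))) ≤
      w v * (K * nrm (gr H)) := by
    intro v
    refine mul_le_mul_of_nonneg_left ?_ (hw.nn v)
    have e1 : nrm (gr (fun x => T (fun y => H (y + v)) (x - v))) =
        nrm (gr (T fun y => H (y + v))) := nrm_shift _ v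
    have e2 : nrm (gr (fun y => H (y + v))) = nrm (gr H) := by
      have := nrm_shift H (-v)
      simpa only [sub_neg_eq_add] using this
    rw [e1]
    have := hT fun y => H (y + v)
    rwa [e2] at this
  refine (Finset.sum_le_sum fun v _ => h2 v).trans (le_of_eq ?_)
  rw [← Finset.sum_mul, hw.one, one_mul]

/-- **the energy of the smeared path** -/
theorem nrm_YP (h : TpH N l pl μ θ Cm A Bp) {w : V N → ℝ} {s : ℕ} (hw : Wts w s) (p q : V N)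
    {k : ℕ} (hk : N ≤ 2 ^ k * l) (H : V N → ℝ) :
    nrm (gr (YP l pl μ w p q θ H)) ≤
      2 * 10 ^ 8 * Cm ^ 2 * (1 + A ^ 2 + Bp) * (1 + k) ^ 2 * nrm (gr H) :=
  nrm_smr hw (fun H => nrm_TP h p q hk H) H

/-- the sweeps -/
theorem nrm_YPsj {n : ℕ} [NeZero n] (hN : N = n * l) (hl : 0 < l) (hn : 64 ≤ n) {Cm : ℝ}
    (hμ : Pf l μ Cm) (hCm : 1 ≤ Cm) {L : ℕ} (hL : 0 < L) {j : ℕ} (hj : j < n) (i : ℕ)
    {w : V N → ℝ} {s : ℕ} (hw : Wts w s) (p q : V N) {k : ℕ} (hk : n ≤ 2 ^ k) (H : V N → ℝ) :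
    nrm (gr (YP l (U (30 * L) L) μ w p q (fun x => ((j : ℝ) + th N n l i x) / n) H)) ≤
      2 * 10 ^ 12 * Cm ^ 2 * (1 + k) ^ 2 * nrm (gr H) := by
  have h := tpH_sj hN hl hn hμ hCm hL hj i
  have hk' : N ≤ 2 ^ k * l := by
    rw [hN]
    exact Nat.mul_le_mul_right _ hk
  refine (nrm_YP h hw p q hk' H).trans (mul_le_mul_of_nonneg_right ?_ (nrm_nonneg _))
  have h1 : 0 ≤ Cm ^ 2 * (1 + (k : ℝ)) ^ 2 := by positivity
  nlinarith

end

end Vale.Agent.P159.H846.Tp
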