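import Mathlib
import Vale.Agent.P159.TM.H764.Hyp

/-!
P159, module PROF (helper846), part 2: interpolation of functions which are concave in
`1 - cos k₁` and in `1 - cos k₂` separately, from a coarse lattice of momenta (torus of side `N`)
to the fine lattice (torus of side `R * N`). Local, no Fourier cut off.
-/

set_option linter.unusedSectionVars false

namespace Vale.Agent.P159.H846

open Finset
open Vale.Agent.P159.TM.H764 (Gh cN sN dt EE)

noncomputable section

/-- `1 - cos (2 π i / N)` -/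
def hh (N i : ℕ) : ℝ := 1 - Real.cos (2 * Real.pi * i / N)

lemma hh_zero (N : ℕ) : hh N 0 = 0 := by simp [hh]

lemma hh_nonneg (N i : ℕ) : 0 ≤ hh N i := by
  unfold hh
  linarith [Real.cos_le_one (2 * Real.pi * i / N)]

lemma hh_lt {N i j : ℕ} (hij : i < j) (hj : 2 * j ≤ N) : hh N i < hh N j := by
  have hN : (0 : ℝ) < N := by
    have : 0 < N := by omega
    exact_mod_cast this
  unfold hh
  have h1 : Real.cos (2 * Real.pi * j / N) < Real.cos (2 * Real.pi * i / N) := by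
    refine Real.cos_lt_cos_of_nonneg_of_le_pi (by positivity) ?_ ?_
    · rw [div_le_iff₀ hN]
      have : (2 : ℝ) * j ≤ N := by exact_mod_cast hj
      nlinarith [Real.pi_pos]
    · have : (i : ℝ) < j := by exact_mod_cast hij
      have := Real.pi_pos
      gcongr
  linarith

lemma hh_mono {N i j : ℕ} (hij : i ≤ j) (hj : 2 * j ≤ N) : hh N i ≤ hh N j := by
  rcases hij.lt_or_eq with h | h
  · exact (hh_lt h hj).le
  · rw [h]

lemma hh_mul {N R : ℕ} (hR : 0 < R) (m : ℕ) : hh (R * N) (m * R) = hh N m := by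
  unfold hh
  have hR' : (R : ℝ) ≠ 0 := by positivity
  have e : 2 * Real.pi * ((m * R : ℕ) : ℝ) / ((R * N : ℕ) : ℝ) = 2 * Real.pi * m / N := by
    push_cast
    rw [show 2 * Real.pi * ((m : ℝ) * R) = R * (2 * Real.pi * m) by ring,
      mul_div_mul_left _ _ hR']
  rw [e]

lemma one_sub_cos_add (a b : ℝ) :
    1 - Real.cos (a + b) ≤ 2 * (1 - Real.cos a) + 2 * (1 - Real.cos b) := by
  rw [Real.cos_add]
  have h1 := Real.sin_sq_add_cos_sq a
  have h2 := Real.sin_sq_add_cos_sq b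
  have h3 := Real.cos_le_one a
  have h4 := Real.cos_le_one b
  have h5 : 0 ≤ (1 - Real.cos a) * (1 - Real.cos b) := mul_nonneg (by linarith) (by linarith)
  nlinarith [sq_nonneg (Real.sin a - Real.sin b), sq_nonneg (1 - Real.cos a),
    sq_nonneg (1 - Real.cos b), sq_nonneg (Real.sin a + Real.sin b)]

lemma hh_succ {N m : ℕ} (hm : 1 ≤ m) (h : 2 * (m + 1) ≤ N) : hh N (m + 1) ≤ 4 * hh N m := by
  have h1 : hh N 1 ≤ hh N m := hh_mono hm (by omega)
  have h2 : hh N (m + 1) ≤ 2 * hh N m + 2 * hh N 1 := by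
    unfold hh
    have := one_sub_cos_add (2 * Real.pi * m / N) (2 * Real.pi * (1 : ℕ) / N)
    have e : 2 * Real.pi * ((m + 1 : ℕ) : ℝ) / N =
        2 * Real.pi * m / N + 2 * Real.pi * (1 : ℕ) / N := by
      push_cast
      ring
    rw [e]
    exact this
  linarith

lemma hh_two {N : ℕ} (hN : 4 ≤ N) : 2 * hh N 1 ≤ hh N 2 ∧ hh N 2 ≤ 4 * hh N 1 := by
  refine ⟨?_, hh_succ le_rfl (by omega)⟩
  have hN0 : (0 : ℝ) < N := by
    have : 0 < N := by omega
    exact_mod_cast this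
  unfold hh
  have e : 2 * Real.pi * ((2 : ℕ) : ℝ) / N = 2 * (2 * Real.pi * ((1 : ℕ) : ℝ) / N) := by
    push_cast
    ring
  rw [e, Real.cos_two_mul]
  have h1 : 0 ≤ Real.cos (2 * Real.pi * ((1 : ℕ) : ℝ) / N) := by
    refine Real.cos_nonneg_of_neg_pi_div_two_le_of_le ?_ ?_
    · have : 0 ≤ 2 * Real.pi * ((1 : ℕ) : ℝ) / N := by positivity
      linarith [Real.pi_pos]
    · rw [div_le_div_iff₀ hN0 two_pos]
      have : (4 : ℝ) ≤ N := by exact_mod_cast hN
      push_cast
      nlinarith [Real.pi_pos]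
  have h2 := Real.cos_le_one (2 * Real.pi * ((1 : ℕ) : ℝ) / N)
  nlinarith

lemma hh_one_le {N : ℕ} (hN : 0 < N) : hh N 1 ≤ 20 / (N : ℝ) ^ 2 := by
  have hN0 : (0 : ℝ) < N := by exact_mod_cast hN
  unfold hh
  have h1 := Real.one_sub_sq_div_two_le_cos (x := 2 * Real.pi * ((1 : ℕ) : ℝ) / N)
  have h2 : (2 * Real.pi * ((1 : ℕ) : ℝ) / N) ^ 2 / 2 ≤ 20 / (N : ℝ) ^ 2 := by
    rw [div_pow, div_div, div_le_div_iff₀ (by positivity) (by positivity)]
    have h3 : Real.pi ^ 2 ≤ 10 := by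
      have := Real.pi_lt_d2
      nlinarith [Real.pi_pos]
    push_cast
    nlinarith [sq_nonneg (N : ℝ)]
  linarith

/-- concavity in `hh` -/
def Conc (N : ℕ) (f : ℕ → ℝ) : Prop := ∀ i₁ i₂ i₃ : ℕ, i₁ < i₂ → i₂ < i₃ → 2 * i₃ ≤ N →
  (hh N i₃ - hh N i₂) * f i₁ + (hh N i₂ - hh N i₁) * f i₃ ≤ (hh N i₃ - hh N i₁) * f i₂

/-- adding an affine function -/
lemma Conc.sub {N : ℕ} {f : ℕ → ℝ} (hf : Conc N f) (a c : ℝ) :
    Conc N fun i => f i - (a * hh N i + c) := by
  intro i₁ i₂ i₃ h12 h23 h3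
  have := hf i₁ i₂ i₃ h12 h23 h3
  have e : (hh N i₃ - hh N i₁) * (f i₂ - (a * hh N i₂ + c)) -
      ((hh N i₃ - hh N i₂) * (f i₁ - (a * hh N i₁ + c)) +
        (hh N i₂ - hh N i₁) * (f i₃ - (a * hh N i₃ + c))) =
      (hh N i₃ - hh N i₁) * f i₂ - ((hh N i₃ - hh N i₂) * f i₁ + (hh N i₂ - hh N i₁) * f i₃) := by
    ring
  linarith

/-- **one variable** -/
lemma interp1 {N R : ℕ} (hR : 0 < R) (hN : 4 ≤ N) (hNe : Even N) {f : ℕ → ℝ}
    (hf : Conc (R * N) f) {B : ℝ → ℝ} (hB : ∀ x y, 0 ≤ x → x ≤ y → B x ≤ B y)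
    (hb : ∀ m, 2 * m ≤ N → |f (m * R)| ≤ B (hh N m)) {j : ℕ} (hj : 2 * j ≤ R * N) :
    |f j| ≤ 9 * B (4 * hh (R * N) j + 4 * hh N 1) := by
  obtain ⟨N2, hN2⟩ := hNe
  set X := 4 * hh (R * N) j + 4 * hh N 1 with hX
  have hj0 := hh_nonneg (R * N) j
  have h10 := hh_nonneg N 1
  have hX0 : 0 ≤ X := by positivity
  have key : ∀ m, 2 * m ≤ N → hh N m ≤ X → |f (m * R)| ≤ B X := fun m hm hx =>
    (hb m hm).trans (hB _ _ (hh_nonneg _ _) hx)
  have hz := key 0 (by omega) (by rw [hh_zero]; exact hX0)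
  rw [zero_mul] at hz
  have hBX : 0 ≤ B X := (abs_nonneg _).trans hz
  set m := j / R with hm
  have hj1 : m * R ≤ j := Nat.div_mul_le_self j R
  have hj2 : j < (m + 1) * R := by
    have := Nat.lt_mul_div_succ j hR
    rw [mul_comm] at this
    exact this
  have hmN : 2 * m ≤ N := by
    by_contra hcon
    push Not at hcon
    have h1 : (N + 1) * R ≤ 2 * m * R := Nat.mul_le_mul_right R hcon
    nlinarith
  rcases hj1.lt_or_eq with hlt | heq
  · -- strictly between
    have hm1 : 2 * (m + 1) ≤ N := by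
      by_contra hcon
      push Not at hcon
      have h1 : N2 ≤ m := by omega
      have h2 : N2 * R ≤ m * R := Nat.mul_le_mul_right R h1
      have h3 : 2 * j ≤ 2 * (N2 * R) := by
        calc 2 * j ≤ R * N := hj
          _ = 2 * (N2 * R) := by rw [hN2]; ring
      omega
    have hm1' : 2 * ((m + 1) * R) ≤ R * N := by
      calc 2 * ((m + 1) * R) = R * (2 * (m + 1)) := by ring
        _ ≤ R * N := Nat.mul_le_mul_left R hm1
    have e1 : hh (R * N) (m * R) = hh N m := hh_mul hR m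
    have e2 : hh (R * N) ((m + 1) * R) = hh N (m + 1) := hh_mul hR (m + 1)
    have l1 : hh N m < hh (R * N) j := by rw [← e1]; exact hh_lt hlt (by omega)
    have l2 : hh (R * N) j < hh N (m + 1) := by rw [← e2]; exact hh_lt hj2 hm1'
    have hmX : hh N m ≤ X := by linarith
    have hm1X : hh N (m + 1) ≤ X := by
      rcases Nat.eq_zero_or_pos m with h0 | h0
      · rw [h0, zero_add]; linarith
      · have := hh_succ h0 hm1; linarith
    have b1 := abs_le.1 (key m hmN hmX)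
    have b2 := abs_le.1 (key (m + 1) hm1 hm1X)
    have c1 := hf (m * R) j ((m + 1) * R) hlt hj2 hm1'
    rw [e1, e2] at c1
    have lower : -(B X) ≤ f j := by
      have h1 : (hh N (m + 1) - hh (R * N) j) * (-(B X)) + (hh (R * N) j - hh N m) * (-(B X)) ≤
          (hh N (m + 1) - hh (R * N) j) * f (m * R) +
            (hh (R * N) j - hh N m) * f ((m + 1) * R) :=
        add_le_add (mul_le_mul_of_nonneg_left b1.1 (by linarith))
          (mul_le_mul_of_nonneg_left b2.1 (by linarith))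
      have h2 : (hh N (m + 1) - hh N m) * (-(B X)) ≤ (hh N (m + 1) - hh N m) * f j := by
        calc _ = (hh N (m + 1) - hh (R * N) j) * (-(B X)) + (hh (R * N) j - hh N m) * (-(B X)) := by
              ring
          _ ≤ _ := h1.trans c1
      exact le_of_mul_le_mul_left h2 (by linarith)
    have upper : f j ≤ 9 * B X := by
      rcases Nat.eq_zero_or_pos m with h0 | h0
      · -- first interval
        rw [h0] at hlt hj2 l1 l2 b1 b2
        simp only [zero_add, one_mul, zero_mul] at hlt hj2 l2 b1 b2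
        have hN4 := hh_two hN
        have e3 : hh (R * N) (2 * R) = hh N 2 := hh_mul hR 2
        have e4 : hh (R * N) R = hh N 1 := by have := hh_mul (N := N) hR 1; rwa [one_mul] at this
        have c2 := hf j R (2 * R) hj2 (by omega) (by
          calc 2 * (2 * R) = R * 4 := by ring
            _ ≤ R * N := Nat.mul_le_mul_left R hN)
        rw [e3, e4] at c2
        have b3 := abs_le.1 (key 2 (by omega) (by linarith))
        have h5 : hh N 2 - hh (R * N) j ≤ 2 * (hh N 2 - hh N 1) := by linarith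
        have h6 : hh N 1 - hh (R * N) j ≤ hh N 2 - hh N 1 := by linarith
        have h7 : 0 < hh N 2 - hh N 1 := by
          have : 0 < hh N 1 := lt_of_le_of_lt hj0 l2
          linarith
        have h8 : (hh N 2 - hh N 1) * f j ≤ (hh N 2 - hh N 1) * (3 * B X) := by
          have a1 : (hh N 2 - hh (R * N) j) * f R ≤ (2 * (hh N 2 - hh N 1)) * B X :=
            (mul_le_mul_of_nonneg_left b2.2 (by linarith)).trans
              (mul_le_mul_of_nonneg_right h5 hBX)
          have a2 : (hh N 1 - hh (R * N) j) * (-(f (2 * R))) ≤ (hh N 2 - hh N 1) * B X :=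
            (mul_le_mul_of_nonneg_left (by linarith [b3.1] : -(f (2 * R)) ≤ B X)
              (by linarith)).trans (mul_le_mul_of_nonneg_right h6 hBX)
          nlinarith
        have := le_of_mul_le_mul_left h8 h7
        linarith
      · have c2 := hf 0 (m * R) j (Nat.mul_pos h0 hR) hlt hj
        rw [e1, hh_zero] at c2
        have h4 := hh_succ h0 hm1
        have hmp : 0 < hh N m := by
          rw [← hh_zero N]
          exact hh_lt h0 hmN
        have hz2 := abs_le.1 hz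
        have h8 : hh N m * f j ≤ hh N m * (7 * B X) := by
          have a1 : hh (R * N) j * f (m * R) ≤ (4 * hh N m) * B X :=
            (mul_le_mul_of_nonneg_left b1.2 hj0).trans
              (mul_le_mul_of_nonneg_right (by linarith) hBX)
          have a2 : (hh (R * N) j - hh N m) * (-(f 0)) ≤ (3 * hh N m) * B X :=
            (mul_le_mul_of_nonneg_left (by linarith [hz2.1] : -(f 0) ≤ B X)
              (by linarith)).trans (mul_le_mul_of_nonneg_right (by linarith) hBX)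
          nlinarith
        have := le_of_mul_le_mul_left h8 hmp
        linarith
    rw [abs_le]
    constructor
    · linarith
    · exact upper
  · -- a lattice point
    have h1 := key m hmN (by
      rw [← hh_mul (N := N) hR m, heq]
      linarith)
    rw [heq] at h1
    linarith

/-- **two variables** -/
theorem interp2 {N R : ℕ} (hR : 0 < R) (hN : 4 ≤ N) (hNe : Even N) {F : ℕ → ℕ → ℝ}
    (h1 : ∀ j, 2 * j ≤ R * N → Conc (R * N) fun i => F i j)
    (h2 : ∀ i, 2 * i ≤ R * N → Conc (R * N) fun j => F i j)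
    {B : ℝ → ℝ} (hB : ∀ x y, 0 ≤ x → x ≤ y → B x ≤ B y)
    (hb : ∀ m n, 2 * m ≤ N → 2 * n ≤ N → |F (m * R) (n * R)| ≤ B (2 * hh N m + 2 * hh N n))
    {i j : ℕ} (hi : 2 * i ≤ R * N) (hj : 2 * j ≤ R * N) :
    |F i j| ≤ 81 * B (4 * (2 * hh (R * N) i + 2 * hh (R * N) j) + 16 * hh N 1) := by
  have hi0 := hh_nonneg (R * N) i
  have hj0 := hh_nonneg (R * N) j
  have h10 := hh_nonneg N 1
  have s1 : ∀ n, 2 * n ≤ N → |F i (n * R)| ≤
      9 * B (2 * (4 * hh (R * N) i + 4 * hh N 1) + 2 * hh N n) := by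
    intro n hn
    have hn' : 2 * (n * R) ≤ R * N := by
      calc 2 * (n * R) = R * (2 * n) := by ring
        _ ≤ R * N := Nat.mul_le_mul_left R hn
    have hn0 := hh_nonneg N n
    exact interp1 hR hN hNe (h1 (n * R) hn') (B := fun h => B (2 * h + 2 * hh N n))
      (fun x y hx hxy => hB _ _ (by linarith) (by linarith)) (fun m hm => hb m n hm hn) hi
  have s2 := interp1 hR hN hNe (h2 i hi)
    (B := fun h => 9 * B (2 * (4 * hh (R * N) i + 4 * hh N 1) + 2 * h))
    (fun x y hx hxy => by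
      have := hB (2 * (4 * hh (R * N) i + 4 * hh N 1) + 2 * x)
        (2 * (4 * hh (R * N) i + 4 * hh N 1) + 2 * y) (by linarith) (by linarith)
      linarith) (fun n hn => s1 n hn) hj
  refine s2.trans (le_of_eq ?_)
  have e : 2 * (4 * hh (R * N) i + 4 * hh N 1) + 2 * (4 * hh (R * N) j + 4 * hh N 1) =
      4 * (2 * hh (R * N) i + 2 * hh (R * N) j) + 16 * hh N 1 := by ring
  simp only [e]
  ring

/-! ### functions on the torus -/

/-- `|k|` as a natural number -/
def ab {M : ℕ} (k : ZMod M) : ℕ := k.valMinAbs.natAbs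

lemma ab_le {M : ℕ} [NeZero M] (k : ZMod M) : 2 * ab k ≤ M := by
  have := ZMod.natAbs_valMinAbs_le k
  unfold ab
  omega

lemma cN_ab {M : ℕ} [NeZero M] (k : ZMod M) : cN k = Real.cos (2 * Real.pi * (ab k : ℝ) / M) := by
  have h2 : k = ((k.valMinAbs : ℤ) : ZMod M) := (ZMod.coe_valMinAbs k).symm
  conv_lhs => rw [h2]
  rw [TM.H764.cN_int]
  unfold ab
  rw [Nat.cast_natAbs, Int.cast_abs]
  rcases abs_cases (k.valMinAbs : ℝ) with ⟨h, _⟩ | ⟨h, _⟩
  · rw [h]
  · rw [h]
    rw [← Real.cos_neg]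
    congr 1
    ring

lemma cN_nat {M : ℕ} [NeZero M] (i : ℕ) : cN ((i : ℕ) : ZMod M) = 1 - hh M i := by
  have := TM.H764.cN_int (N := M) (i : ℤ)
  unfold hh
  push_cast at this
  rw [this]
  ring

lemma one_sub_cN {M : ℕ} [NeZero M] (k : ZMod M) : 1 - cN k = hh M (ab k) := by
  rw [cN_ab]
  rfl

lemma EE_ab {M : ℕ} [NeZero M] (k : ZMod M × ZMod M) :
    EE k = 2 * hh M (ab k.1) + 2 * hh M (ab k.2) := by
  have : EE k = 2 * (1 - cN k.1) + 2 * (1 - cN k.2) := rfl
  rw [this, one_sub_cN, one_sub_cN]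

lemma EE_nat {M : ℕ} [NeZero M] (i j : ℕ) :
    EE (((i : ℕ) : ZMod M), ((j : ℕ) : ZMod M)) = 2 * hh M i + 2 * hh M j := by
  have : EE (((i : ℕ) : ZMod M), ((j : ℕ) : ZMod M)) =
    2 * (1 - cN ((i : ℕ) : ZMod M)) + 2 * (1 - cN ((j : ℕ) : ZMod M)) := rfl
  rw [this, cN_nat, cN_nat]
  ring

lemma ab_cases {M : ℕ} [NeZero M] (k : ZMod M) :
    k = ((ab k : ℕ) : ZMod M) ∨ k = -((ab k : ℕ) : ZMod M) := by
  have h2 : ((k.valMinAbs : ℤ) : ZMod M) = k := ZMod.coe_valMinAbs k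
  unfold ab
  rcases Int.natAbs_eq k.valMinAbs with h | h
  · left
    have h3 : ((k.valMinAbs : ℤ) : ZMod M) = ((k.valMinAbs.natAbs : ℕ) : ZMod M) := by
      rw [congrArg (fun z : ℤ => (z : ZMod M)) h]
      exact Int.cast_natCast _
    rw [← h3, h2]
  · right
    have h3 : ((k.valMinAbs : ℤ) : ZMod M) = -((k.valMinAbs.natAbs : ℕ) : ZMod M) := by
      rw [congrArg (fun z : ℤ => (z : ZMod M)) h]
      rw [Int.cast_neg, Int.cast_natCast]
    rw [← h3, h2]

/-- even functions only depend on `ab` -/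
lemma even_ab {M : ℕ} [NeZero M] {Q : ZMod M × ZMod M → ℝ} (e1 : ∀ a b, Q (-a, b) = Q (a, b))
    (e2 : ∀ a b, Q (a, -b) = Q (a, b)) (k : ZMod M × ZMod M) :
    Q k = Q (((ab k.1 : ℕ) : ZMod M), ((ab k.2 : ℕ) : ZMod M)) := by
  obtain ⟨a, b⟩ := k
  simp only
  rcases ab_cases a with ha | ha <;> rcases ab_cases b with hb | hb
  · rw [← ha, ← hb]
  · conv_lhs => rw [ha, hb, e2]
  · conv_lhs => rw [ha, hb, e1]
  · conv_lhs => rw [ha, hb, e1, e2]

/-- **interpolation on the torus** of side `M = R * N` from the momenta of the torus of side `N` -/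
theorem interp_torus {N R M : ℕ} [NeZero M] (hM : M = R * N) (hR : 0 < R) (hN : 4 ≤ N)
    (hNe : Even N) {Q : ZMod M × ZMod M → ℝ} (e1 : ∀ a b, Q (-a, b) = Q (a, b))
    (e2 : ∀ a b, Q (a, -b) = Q (a, b))
    (h1 : ∀ j : ℕ, 2 * j ≤ M → Conc M fun i => Q ((i : ZMod M), (j : ZMod M)))
    (h2 : ∀ i : ℕ, 2 * i ≤ M → Conc M fun j => Q ((i : ZMod M), (j : ZMod M)))
    {B : ℝ → ℝ} (hB : ∀ x y, 0 ≤ x → x ≤ y → B x ≤ B y)
    (hb : ∀ m n : ℕ, 2 * m ≤ N → 2 * n ≤ N →
      |Q (((m * R : ℕ) : ZMod M), ((n * R : ℕ) : ZMod M))| ≤ B (2 * hh N m + 2 * hh N n))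
    (k : ZMod M × ZMod M) : |Q k| ≤ 81 * B (4 * EE k + 320 / (N : ℝ) ^ 2) := by
  subst hM
  have h := interp2 hR hN hNe (F := fun i j => Q ((i : ZMod (R * N)), (j : ZMod (R * N)))) h1 h2 hB
    hb (ab_le k.1) (ab_le k.2)
  rw [even_ab e1 e2 k]
  refine h.trans ?_
  have h3 : hh N 1 ≤ 20 / (N : ℝ) ^ 2 := hh_one_le (by omega)
  have h4 : B (4 * (2 * hh (R * N) (ab k.1) + 2 * hh (R * N) (ab k.2)) + 16 * hh N 1) ≤
      B (4 * EE k + 320 / (N : ℝ) ^ 2) := by
    refine hB _ _ ?_ ?_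
    · have a1 := hh_nonneg (R * N) (ab k.1)
      have a2 := hh_nonneg (R * N) (ab k.2)
      have a3 := hh_nonneg N 1
      positivity
    · rw [EE_ab]
      have : (320 : ℝ) / (N : ℝ) ^ 2 = 16 * (20 / (N : ℝ) ^ 2) := by ring
      rw [this]
      linarith
  linarith

end

end Vale.Agent.P159.H846
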