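import Vale.Agent.P159.H846.Flat3
import Vale.Agent.P159.H846.Prof2

/-!
P159, module PROF (helper846), part 3: the flat profile.

* `SE t w k = 1 / ŵ(k) - t` : the self energy of the kernel `w` at mass `t`.
* `FL t w a η` : `|SE k - SE 0 - a EE k| ≤ η EE k ^ 2 / t` for every momentum (weight exponent one).
* `small` : if `|SE k - α EE k| ≤ b t + γ EE k + ζ EE k ^ 2 / t` for every `k`, then `FL` holds with
  `η = Lam * er` (kernel decay, analyticity; no loss at large momenta).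
* `step` : one window `t → t'`, from the torus of side `N` to the torus of side `M = R N`.
-/

set_option linter.unusedSectionVars false

namespace Vale.Agent.P159.H846

open Finset
open Vale.Agent.P159.TM.H764 (Gh Gh_zero Gh_prod cN sN dt EE EE_nonneg EE_zero)
open Vale.Agent.P159.H813 (r1 r2 LC LC_pos)

noncomputable section

variable {N : ℕ} [NeZero N]

/-- the self energy of the kernel `w` at mass `t` -/
def SE (t : ℝ) (w : ZMod N × ZMod N → ℝ) (k : ZMod N × ZMod N) : ℝ := (Gh w k)⁻¹ - t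

/-- kernel data -/
structure KD (w : ZMod N × ZMod N → ℝ) (t c₁ C₁ : ℝ) : Prop where
  refl : ∀ z : ZMod N × ZMod N, w (-z.1, z.2) = w z
  swap : ∀ z : ZMod N × ZMod N, w (z.2, z.1) = w z
  mom : ∑ x, |w x| * Real.exp (c₁ * √t * (|r1 x| + |r2 x|)) ≤ C₁ / t
  low : 1 / (2 * t) ≤ Gh w 0

/-- the flat profile, weight exponent one -/
def FL (t : ℝ) (w : ZMod N × ZMod N → ℝ) (a η : ℝ) : Prop :=
  ∀ k, |SE t w k - SE t w 0 - a * EE k| ≤ η * (EE k ^ 2 / t)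

lemma Gh_neg1 {w : ZMod N × ZMod N → ℝ} (hr : ∀ z : ZMod N × ZMod N, w (-z.1, z.2) = w z)
    (a b : ZMod N) : Gh w (-a, b) = Gh w (a, b) := by
  rw [Gh_prod w hr, Gh_prod w hr]
  refine Finset.sum_congr rfl fun x _ => ?_
  simp only [neg_mul, TM.H764.cN_neg]

lemma Gh_neg2 {w : ZMod N × ZMod N → ℝ} (hr : ∀ z : ZMod N × ZMod N, w (-z.1, z.2) = w z)
    (a b : ZMod N) : Gh w (a, -b) = Gh w (a, b) := by
  rw [Gh_prod w hr, Gh_prod w hr]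
  refine Finset.sum_congr rfl fun x _ => ?_
  simp only [neg_mul, TM.H764.cN_neg]

lemma sum_swap (f : ZMod N × ZMod N → ℝ) : ∑ z : ZMod N × ZMod N, f (z.2, z.1) = ∑ z, f z := by
  let e : ZMod N × ZMod N ≃ ZMod N × ZMod N :=
    ⟨fun z => (z.2, z.1), fun z => (z.2, z.1), fun _ => rfl, fun _ => rfl⟩
  exact Equiv.sum_comp e f

lemma Gh_swap {w : ZMod N × ZMod N → ℝ} (hr : ∀ z : ZMod N × ZMod N, w (-z.1, z.2) = w z)
    (hs : ∀ z : ZMod N × ZMod N, w (z.2, z.1) = w z) (a b : ZMod N) :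
    Gh w (a, b) = Gh w (b, a) := by
  rw [Gh_prod w hr, Gh_prod w hr, ← sum_swap]
  refine Finset.sum_congr rfl fun x _ => ?_
  simp only
  rw [hs x]
  ring

/-- the loss in `small` -/
def Lam (n : ℕ) (v : ℝ) : ℝ := 110 * (n + 1) ^ 4 / v ^ 4

/-- the error in `small` -/
def er (n : ℕ) (κ α s : ℝ) : ℝ := (LC n + 1) * (s + 16 * (1 + |α|) * (2 * κ) ^ (n + 1))

lemma er_ge {n : ℕ} {κ α s : ℝ} (hκ : 0 ≤ κ) (hs : 0 ≤ s) : s ≤ er n κ α s := by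
  unfold er
  have h1 := LC_pos n
  have h2 : 0 ≤ 16 * (1 + |α|) * (2 * κ) ^ (n + 1) := by positivity
  nlinarith

lemma er_nonneg {n : ℕ} {κ α s : ℝ} (hκ : 0 ≤ κ) (hs : 0 ≤ s) : 0 ≤ er n κ α s :=
  hs.trans (er_ge hκ hs)

/-- scalar assembly, large momenta -/
lemma asm_big {t v b γ ζ e E A B C : ℝ} (ht : 0 < t) (hv : 0 < v) (hv1 : v ≤ 1) (hb : 0 ≤ b)
    (hγ : 0 ≤ γ) (hζ : 0 ≤ ζ) (he : 2 * b + γ + ζ ≤ e) (hE : 2 * (v ^ 2 * t) ≤ E)
    (hA : |A| ≤ b * t + γ * E + ζ * (E ^ 2 / t)) (hB : |B| ≤ b * t) (hC : |C| ≤ e / v ^ 2) :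
    |A - B - C * E| ≤ 110 / v ^ 4 * e * (E ^ 2 / t) := by
  have hv2 : 0 < v ^ 2 := by positivity
  have hE0 : 0 < E := lt_of_lt_of_le (by positivity) hE
  have he0 : 0 ≤ e := by linarith
  have h1 : t ≤ E / (2 * v ^ 2) := by
    rw [le_div_iff₀ (by positivity)]
    linarith
  have hX : 0 ≤ E ^ 2 / t := by positivity
  -- `t ≤ (E²/t) / (4 v⁴)`
  have h2 : E ≤ 1 / (2 * v ^ 2) * (E ^ 2 / t) := by
    rw [div_mul_div_comm, one_mul, le_div_iff₀ (by positivity)]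
    nlinarith
  have h3 : t ≤ 1 / (4 * v ^ 4) * (E ^ 2 / t) := by
    have h4 : E / (2 * v ^ 2) ≤ 1 / (2 * v ^ 2) * (1 / (2 * v ^ 2) * (E ^ 2 / t)) := by
      rw [div_eq_mul_one_div, mul_comm]
      exact mul_le_mul_of_nonneg_left h2 (by positivity)
    refine (h1.trans h4).trans (le_of_eq ?_)
    field_simp
    ring
  have hv4 : 1 ≤ 1 / v ^ 4 := by
    rw [le_div_iff₀ (by positivity), one_mul]
    exact pow_le_one₀ hv.le hv1
  have hv42 : 1 / (2 * v ^ 2) ≤ 1 / v ^ 4 := by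
    rw [div_le_div_iff₀ (by positivity) (by positivity)]
    have : v ^ 4 = v ^ 2 * v ^ 2 := by ring
    have h5 : v ^ 2 ≤ 1 := pow_le_one₀ hv.le hv1
    nlinarith
  have a1 : b * t ≤ b * (1 / v ^ 4 * (E ^ 2 / t)) := by
    refine mul_le_mul_of_nonneg_left (h3.trans ?_) hb
    refine mul_le_mul_of_nonneg_right ?_ hX
    rw [div_le_div_iff₀ (by positivity) (by positivity)]
    nlinarith [pow_pos hv 4]
  have a2 : γ * E ≤ γ * (1 / v ^ 4 * (E ^ 2 / t)) :=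
    mul_le_mul_of_nonneg_left (h2.trans (mul_le_mul_of_nonneg_right hv42 hX)) hγ
  have a3 : ζ * (E ^ 2 / t) ≤ ζ * (1 / v ^ 4 * (E ^ 2 / t)) :=
    mul_le_mul_of_nonneg_left (le_mul_of_one_le_left hX hv4) hζ
  have a4 : |C| * E ≤ e * (1 / v ^ 4 * (E ^ 2 / t)) := by
    have h5 : |C| * E ≤ e / v ^ 2 * (1 / (2 * v ^ 2) * (E ^ 2 / t)) :=
      mul_le_mul hC h2 hE0.le (by positivity)
    refine h5.trans ?_
    have e1 : e / v ^ 2 * (1 / (2 * v ^ 2) * (E ^ 2 / t)) =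
        e * (1 / v ^ 4 * (E ^ 2 / t)) / 2 := by
      field_simp
    rw [e1]
    have : 0 ≤ e * (1 / v ^ 4 * (E ^ 2 / t)) := by positivity
    linarith
  have hY : 0 ≤ 1 / v ^ 4 * (E ^ 2 / t) := by positivity
  calc |A - B - C * E| ≤ |A - B| + |C * E| := abs_sub _ _
    _ ≤ (|A| + |B|) + |C| * E := by
        refine add_le_add (abs_sub _ _) ?_
        rw [abs_mul, abs_of_pos hE0]
    _ ≤ (2 * b + γ + ζ + e) * (1 / v ^ 4 * (E ^ 2 / t)) := by nlinarith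
    _ ≤ (110 * e) * (1 / v ^ 4 * (E ^ 2 / t)) := mul_le_mul_of_nonneg_right (by linarith) hY
    _ = 110 / v ^ 4 * e * (E ^ 2 / t) := by ring

lemma Lam_ge (n : ℕ) {v : ℝ} (hv : 0 < v) (hv1 : v ≤ 1) :
    110 / v ^ 4 ≤ Lam n v ∧ 1 / v ^ 2 ≤ Lam n v := by
  have hn1 : (1 : ℝ) ≤ ((n : ℝ) + 1) ^ 4 := by
    refine one_le_pow₀ ?_
    have : (0 : ℝ) ≤ n := Nat.cast_nonneg _
    linarith
  have h1 : 110 / v ^ 4 ≤ Lam n v := by
    unfold Lam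
    refine div_le_div_of_nonneg_right ?_ (by positivity)
    linarith
  refine ⟨h1, le_trans ?_ h1⟩
  have hv2 : v ^ 2 ≤ 1 := pow_le_one₀ hv.le hv1
  have hv3 : 0 < v ^ 2 := by positivity
  have e1 : v ^ 4 = v ^ 2 * v ^ 2 := by ring
  rw [div_le_div_iff₀ hv3 (by positivity), e1]
  nlinarith

lemma Lam_pos (n : ℕ) {v : ℝ} (hv : 0 < v) : 0 < Lam n v := by
  unfold Lam
  positivity

/-- scalar: the error of `flat3` -/
lemma E_le (n : ℕ) {t c₂ κ α s : ℝ} (ht : 0 < t) (hc : 0 < c₂) (hc2 : c₂ ≤ 1) (hκ : 0 < κ) :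
    (LC n + 1) * (t * s + 2 * (4 / (1 / (2 * t)) + 8 * |α| * (c₂ * √t) ^ 2) *
      (2 * (κ * c₂ * √t) / (c₂ * √t)) ^ (n + 1)) ≤ t * er n κ α s := by
  have hsq : 0 < √t := Real.sqrt_pos.2 ht
  have hs2 : √t ^ 2 = t := Real.sq_sqrt ht.le
  have hr : 2 * (κ * c₂ * √t) / (c₂ * √t) = 2 * κ := by field_simp
  have hc22 : c₂ ^ 2 ≤ 1 := pow_le_one₀ hc.le hc2
  rw [er, hr, mul_pow, hs2]
  have h1 := LC_pos n
  have h2 : 4 / (1 / (2 * t)) = 8 * t := by field_simp; norm_num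
  rw [h2]
  have h3 : 0 ≤ (2 * κ) ^ (n + 1) := by positivity
  have h4 : 8 * |α| * (c₂ ^ 2 * t) ≤ 8 * |α| * t := by
    have h5 : 0 ≤ 8 * |α| * t := by positivity
    calc 8 * |α| * (c₂ ^ 2 * t) = (8 * |α| * t) * c₂ ^ 2 := by ring
      _ ≤ (8 * |α| * t) * 1 := mul_le_mul_of_nonneg_left hc22 h5
      _ = _ := by ring
  have h5 : 2 * (8 * t + 8 * |α| * (c₂ ^ 2 * t)) * (2 * κ) ^ (n + 1) ≤
      t * (16 * (1 + |α|) * (2 * κ) ^ (n + 1)) := by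
    calc 2 * (8 * t + 8 * |α| * (c₂ ^ 2 * t)) * (2 * κ) ^ (n + 1)
        ≤ 2 * (8 * t + 8 * |α| * t) * (2 * κ) ^ (n + 1) :=
          mul_le_mul_of_nonneg_right (by linarith) h3
      _ = _ := by ring
  calc (LC n + 1) * (t * s + 2 * (8 * t + 8 * |α| * (c₂ ^ 2 * t)) * (2 * κ) ^ (n + 1))
      ≤ (LC n + 1) * (t * s + t * (16 * (1 + |α|) * (2 * κ) ^ (n + 1))) :=
        mul_le_mul_of_nonneg_left (by linarith) (by linarith)
    _ = _ := by ring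

lemma SE_zero_le {w : ZMod N × ZMod N → ℝ} {t b γ ζ α : ℝ}
    (h : ∀ k, |SE t w k - α * EE k| ≤ b * t + γ * EE k + ζ * (EE k ^ 2 / t)) :
    |SE t w 0| ≤ b * t := by
  have := h 0
  rw [EE_zero] at this
  simpa using this

/-- data for `flat3` -/
lemma delta_le {w : ZMod N × ZMod N → ℝ} {t b γ ζ α : ℝ} (ht : 0 < t) (hγ : 0 ≤ γ) (hζ : 0 ≤ ζ)
    (h : ∀ k, |SE t w k - α * EE k| ≤ b * t + γ * EE k + ζ * (EE k ^ 2 / t))
    {k : ZMod N × ZMod N} (hkt : EE k ≤ t) :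
    |(Gh w k)⁻¹ - (Gh w 0)⁻¹ - α * EE k| ≤ t * (2 * b + γ + ζ) := by
  have hz := SE_zero_le h
  have hE0 : 0 ≤ EE k := EE_nonneg k
  have e1 : (Gh w k)⁻¹ - (Gh w 0)⁻¹ - α * EE k = (SE t w k - α * EE k) - SE t w 0 := by
    unfold SE; ring
  rw [e1]
  refine (abs_sub _ _).trans ?_
  have h2 : EE k ^ 2 / t ≤ t := by
    rw [div_le_iff₀ ht]
    nlinarith
  have h3 := h k
  have h4 : γ * EE k ≤ γ * t := mul_le_mul_of_nonneg_left hkt hγ
  have h5 : ζ * (EE k ^ 2 / t) ≤ ζ * t := mul_le_mul_of_nonneg_left h2 hζ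
  have h6 : t * (2 * b + γ + ζ) = b * t + γ * t + ζ * t + b * t := by ring
  linarith

/-- **the profile at small momenta is recovered by analyticity** -/
theorem small (n : ℕ) {w : ZMod N × ZMod N → ℝ} {t c₁ C₁ c₂ κ b γ ζ α : ℝ} (hK : KD w t c₁ C₁)
    (ht : 0 < t) (ht1 : t ≤ 1) (hc₁ : 0 < c₁) (hc : 0 < c₂) (hc2 : c₂ ≤ 1)
    (hcc : 8 * C₁ * c₂ ^ 2 ≤ c₁ ^ 2) (hκ : 0 < κ) (hκ4 : κ ≤ 1 / 4) (hN3 : 3 ≤ N)
    (hN : 4 * Real.pi * (n + 1) ≤ N * (κ * c₂ * √t)) (hb : 0 ≤ b) (hγ : 0 ≤ γ) (hζ : 0 ≤ ζ)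
    (h : ∀ k, |SE t w k - α * EE k| ≤ b * t + γ * EE k + ζ * (EE k ^ 2 / t)) :
    ∃ a, |a - α| ≤ Lam n (κ * c₂) * er n κ α (2 * b + γ + ζ) ∧
      FL t w a (Lam n (κ * c₂) * er n κ α (2 * b + γ + ζ)) := by
  have hsq : 0 < √t := Real.sqrt_pos.2 ht
  have hs2 : √t ^ 2 = t := Real.sq_sqrt ht.le
  have hs1 : √t ≤ 1 := by rw [Real.sqrt_le_one]; exact ht1
  have hs0 : 0 ≤ 2 * b + γ + ζ := by positivity
  have hes : 2 * b + γ + ζ ≤ er n κ α (2 * b + γ + ζ) := er_ge hκ.le hs0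
  have he0 : 0 ≤ er n κ α (2 * b + γ + ζ) := hs0.trans hes
  have hkc0 : 0 < κ * c₂ := by positivity
  have hkc1 : κ * c₂ ≤ 1 / 4 :=
    (mul_le_mul hκ4 hc2 hc.le (by norm_num)).trans (by norm_num)
  have hkc2 : (κ * c₂) ^ 2 ≤ 1 / 16 := by
    have := pow_le_pow_left₀ hkc0.le hkc1 2
    norm_num at this ⊢
    exact this
  have hV0 : 0 < κ * c₂ * √t := by positivity
  have hV2 : (κ * c₂ * √t) ^ 2 = (κ * c₂) ^ 2 * t := by rw [mul_pow, hs2]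
  have hM2 : ∑ x, w x * r2 x ^ 2 = ∑ x, w x * r1 x ^ 2 := by
    rw [← sum_swap]
    refine Finset.sum_congr rfl fun x _ => ?_
    rw [hK.swap x]
    rfl
  have hδ : ∀ k, EE k ≤ 2 * (κ * c₂ * √t) ^ 2 →
      |(Gh w k)⁻¹ - (Gh w 0)⁻¹ - α * EE k| ≤ t * (2 * b + γ + ζ) := by
    intro k hk
    refine delta_le ht hγ hζ h ?_
    rw [hV2] at hk
    nlinarith
  have h4V : 4 * (κ * c₂ * √t) ≤ c₂ * √t := by
    have : 0 < c₂ * √t := by positivity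
    nlinarith
  obtain ⟨m1, m2⟩ := flat3 n (w := w) (S := c₁ * √t) (A := C₁ / t) (c := 1 / (2 * t))
    (V := κ * c₂ * √t) (δ := t * (2 * b + γ + ζ)) (α := α) (ρ := c₂ * √t)
    (M := ∑ x, w x * r1 x ^ 2) (by positivity)
    (by positivity) hK.mom hK.low rfl hM2 hK.refl
    ((mul_le_mul hc2 hs1 hsq.le (by norm_num)).trans (by norm_num)) (by
      rw [mul_pow, mul_pow, hs2]
      have e1 : 4 * (C₁ / t) * (c₂ ^ 2 * t) = 4 * C₁ * c₂ ^ 2 := by field_simp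
      have e2 : 1 / (2 * t) * (c₁ ^ 2 * t) = c₁ ^ 2 / 2 := by field_simp
      rw [e1, e2]
      linarith) hV0 h4V hN3 hN hδ rfl
  have hEe := E_le n (t := t) (c₂ := c₂) (κ := κ) (α := α) (s := 2 * b + γ + ζ) ht hc hc2 hκ
  obtain ⟨hL110, hL1⟩ := Lam_ge n hkc0 (by linarith : κ * c₂ ≤ 1)
  generalize (LC n + 1) * (t * (2 * b + γ + ζ) + 2 * (4 / (1 / (2 * t)) +
    8 * |α| * (c₂ * √t) ^ 2) * (2 * (κ * c₂ * √t) / (c₂ * √t)) ^ (n + 1)) = E at m1 m2 hEe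
  generalize (∑ x, w x * r1 x ^ 2) / (2 * Gh w 0 ^ 2) = a at m1 m2
  generalize er n κ α (2 * b + γ + ζ) = e at hes he0 hEe
  rw [hV2] at m1 m2
  have m1' : |a - α| ≤ e / (κ * c₂) ^ 2 := by
    refine m1.trans ?_
    rw [div_le_div_iff₀ (by positivity) (by positivity)]
    have h2 : 0 < (κ * c₂) ^ 2 := by positivity
    calc E * (κ * c₂) ^ 2 ≤ (t * e) * (κ * c₂) ^ 2 := mul_le_mul_of_nonneg_right hEe h2.le
      _ = _ := by ring
  refine ⟨a, ?_, fun k => ?_⟩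
  · refine m1'.trans ?_
    have : e / (κ * c₂) ^ 2 = 1 / (κ * c₂) ^ 2 * e := by ring
    rw [this]
    exact mul_le_mul_of_nonneg_right hL1 he0
  · by_cases hk : EE k ≤ 2 * ((κ * c₂) ^ 2 * t)
    · have h1 := m2 k hk
      have e1 : SE t w k - SE t w 0 - a * EE k = (Gh w k)⁻¹ - (Gh w 0)⁻¹ - a * EE k := by
        unfold SE; ring
      rw [e1]
      refine h1.trans ?_
      have h2 : 110 * ((n : ℝ) + 1) ^ 4 * E * (EE k / ((κ * c₂) ^ 2 * t)) ^ 2 ≤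
          110 * ((n : ℝ) + 1) ^ 4 * (t * e) * (EE k / ((κ * c₂) ^ 2 * t)) ^ 2 := by
        refine mul_le_mul_of_nonneg_right ?_ (sq_nonneg _)
        exact mul_le_mul_of_nonneg_left hEe (by positivity)
      refine h2.trans (le_of_eq ?_)
      unfold Lam
      field_simp
    · have hk' : 2 * ((κ * c₂) ^ 2 * t) ≤ EE k := (not_le.1 hk).le
      have h1 := asm_big (A := SE t w k - α * EE k) (B := SE t w 0) (C := a - α) ht hkc0
        (by linarith) hb hγ hζ hes hk' (h k) (SE_zero_le h) m1'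
      have e1 : SE t w k - SE t w 0 - a * EE k =
          SE t w k - α * EE k - SE t w 0 - (a - α) * EE k := by ring
      rw [e1]
      refine h1.trans ?_
      have hX : 0 ≤ EE k ^ 2 / t := by positivity
      exact mul_le_mul_of_nonneg_right (mul_le_mul_of_nonneg_right hL110 he0) hX

end

end Vale.Agent.P159.H846
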