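import Vale.Agent.P159.H846.Ev2

/-!
P159, MASTER (helper846): **two sets of parameters inside one master**, helper801's form (row 6527):
`P` for the main run, `P'` with its own `W, ys, X0, x1` (these may depend on `x1` of `P`) and with
`thp' = thp / 8`, `th' = th`, `C0' = C0`, `es' ≤ es`, for a second run whose steps are made inside
the windows of the first one.

* `Two.Ev2`, `Two.PQ` (what is common), `Two.Ev2.and`, `Two.Ev2.mono`, `Two.Ev2.of_forall`;
* `Two.Ev.to2`, `Two.Ev.to2'`, `Two.Ev.to2x` : properties of one of the two sets;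
* `Two.Ev2.x1_le`, `Two.Ev2.exists`.
-/

set_option linter.unusedSectionVars false

namespace Vale.Agent.P159.H846.Two

open Filter Topology
open Vale.Agent.P159.H972 (Par lg)
open Vale.Agent.P159.H801 (Ev PS ev_le ps_exists)

/-- what is common to the two sets of parameters -/
structure PQ (b1 b2 pf : ℝ) (P P' : Par) : Prop where
  adm : P.Adm
  adm' : P'.Adm
  epf : P.pf = pf
  epf' : P'.pf = pf
  eb1 : P.b1 = b1
  eb1' : P'.b1 = b1
  eb2 : P.b2 = b2
  eb2' : P'.b2 = b2
  x1 : 0 < P.x1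
  x1' : 0 < P'.x1
  th : P'.th = P.th
  thp : P'.thp = P.thp / 8
  C0 : P'.C0 = P.C0
  es : P'.es ≤ P.es

/-- the order of constants for two sets of parameters -/
def Ev2 (b1 b2 pf : ℝ) (Q : ℕ) (F : Par → Par → ℝ → Prop) : Prop :=
  ∀ᶠ W in (atTop : Filter ℝ), ∀ᶠ ys in 𝓝[>] (0 : ℝ), ∀ᶠ X0 in (atTop : Filter ℕ),
    ∀ᶠ x1 in 𝓝[>] (0 : ℝ), ∀ᶠ W' in (atTop : Filter ℝ), ∀ᶠ ys' in 𝓝[>] (0 : ℝ),
    ∀ᶠ X0' in (atTop : Filter ℕ), ∀ᶠ x1' in 𝓝[>] (0 : ℝ), ∀ᶠ thp in 𝓝[>] (0 : ℝ),
    ∀ᶠ th in 𝓝[>] (0 : ℝ), ∀ᶠ C0 in (atTop : Filter ℝ), ∀ᶠ c1 in 𝓝[>] (0 : ℝ),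
    ∀ᶠ E in 𝓝[>] (0 : ℝ), ∀ P P' : Par, PS b1 b2 pf Q W ys X0 x1 thp th C0 E P →
      PS b1 b2 pf Q W' ys' X0' x1' (thp / 8) th C0 E P' → P'.es ≤ P.es → F P P' c1

variable {b1 b2 pf : ℝ} {Q : ℕ} {F G : Par → Par → ℝ → Prop}

theorem Ev2.and (hF : Ev2 b1 b2 pf Q F) (hG : Ev2 b1 b2 pf Q G) :
    Ev2 b1 b2 pf Q fun P P' c1 => F P P' c1 ∧ G P P' c1 := by
  unfold Ev2 at *
  filter_upwards [hF, hG] with W hF hG
  filter_upwards [hF, hG] with ys hF hG
  filter_upwards [hF, hG] with X0 hF hG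
  filter_upwards [hF, hG] with x1 hF hG
  filter_upwards [hF, hG] with W' hF hG
  filter_upwards [hF, hG] with ys' hF hG
  filter_upwards [hF, hG] with X0' hF hG
  filter_upwards [hF, hG] with x1' hF hG
  filter_upwards [hF, hG] with thp hF hG
  filter_upwards [hF, hG] with th hF hG
  filter_upwards [hF, hG] with C0 hF hG
  filter_upwards [hF, hG] with c1 hF hG
  filter_upwards [hF, hG] with E hF hG P P' h1 h2 h3
  exact ⟨hF P P' h1 h2 h3, hG P P' h1 h2 h3⟩

/-- consequences, with everything which is common (`PQ`) -/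
theorem Ev2.mono (hF : Ev2 b1 b2 pf Q F)
    (h : ∀ P P' c1, PQ b1 b2 pf P P' → 0 < c1 → F P P' c1 → G P P' c1) : Ev2 b1 b2 pf Q G := by
  unfold Ev2 at *
  filter_upwards [hF] with W hF
  filter_upwards [hF] with ys hF
  filter_upwards [hF] with X0 hF
  filter_upwards [hF, self_mem_nhdsWithin] with x1 hF hx1
  filter_upwards [hF] with W' hF
  filter_upwards [hF] with ys' hF
  filter_upwards [hF] with X0' hF
  filter_upwards [hF, self_mem_nhdsWithin] with x1' hF hx1'
  filter_upwards [hF] with thp hF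
  filter_upwards [hF] with th hF
  filter_upwards [hF] with C0 hF
  filter_upwards [hF, self_mem_nhdsWithin] with c1 hF hc1
  filter_upwards [hF] with E hF P P' h1 h2 h3
  exact h P P' c1 ⟨h1.adm, h2.adm, h1.epf, h2.epf, h1.eb1, h2.eb1, h1.eb2, h2.eb2,
    by rw [h1.ex1]; exact hx1, by rw [h2.ex1]; exact hx1', by rw [h2.eth, h1.eth],
    by rw [h2.ethp, h1.ethp], by rw [h2.eC0, h1.eC0], h3⟩ hc1 (hF P P' h1 h2 h3)

/-- the constant property -/
theorem Ev2.of_forall (h : ∀ P P' c1, PQ b1 b2 pf P P' → 0 < c1 → F P P' c1) :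
    Ev2 b1 b2 pf Q F := by
  have h0 : Ev2 b1 b2 pf Q fun _ _ _ => True := by
    unfold Ev2
    exact Eventually.of_forall fun W => Eventually.of_forall fun ys =>
      Eventually.of_forall fun X0 => Eventually.of_forall fun x1 =>
      Eventually.of_forall fun W' => Eventually.of_forall fun ys' =>
      Eventually.of_forall fun X0' => Eventually.of_forall fun x1' =>
      Eventually.of_forall fun thp => Eventually.of_forall fun th =>
      Eventually.of_forall fun C0 => Eventually.of_forall fun c1 =>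
      Eventually.of_forall fun E => fun P P' _ _ _ => trivial
  exact h0.mono fun P P' c1 h1 h2 _ => h P P' c1 h1 h2

/-- a property of the first set -/
theorem Ev.to2 {F : Par → ℝ → Prop} (h : Ev b1 b2 pf Q F) :
    Ev2 b1 b2 pf Q fun P _ c1 => F P c1 := by
  unfold H801.Ev at h
  unfold Ev2
  filter_upwards [h] with W h
  filter_upwards [h] with ys h
  filter_upwards [h] with X0 h
  filter_upwards [h] with x1 h
  refine Eventually.of_forall fun W' => Eventually.of_forall fun ys' =>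
    Eventually.of_forall fun X0' => Eventually.of_forall fun x1' => ?_
  filter_upwards [h] with thp h
  filter_upwards [h] with th h
  filter_upwards [h] with C0 h
  filter_upwards [h] with c1 h
  filter_upwards [h] with E h P P' h1 _ _
  exact h P h1

lemma tendsto_div8 : Tendsto (fun t : ℝ => t / 8) (𝓝[>] 0) (𝓝[>] 0) := by
  have h := tendsto_kmul (k := 1 / 8) (by norm_num)
  refine h.congr fun t => ?_
  ring

/-- a property of the second set, which may depend on `x1` of the first one -/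
theorem Ev.to2x {F : ℝ → Par → ℝ → Prop} (h : ∀ x1, 0 < x1 → Ev b1 b2 pf Q (F x1)) :
    Ev2 b1 b2 pf Q fun P P' c1 => F P.x1 P' c1 := by
  unfold Ev2
  refine Eventually.of_forall fun W => Eventually.of_forall fun ys =>
    Eventually.of_forall fun X0 => ?_
  filter_upwards [self_mem_nhdsWithin] with x1 hx1
  have h := h x1 hx1
  unfold H801.Ev at h
  filter_upwards [h] with W' h
  filter_upwards [h] with ys' h
  filter_upwards [h] with X0' h
  filter_upwards [h] with x1' h
  filter_upwards [tendsto_div8.eventually h] with thp h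
  filter_upwards [h] with th h
  filter_upwards [h] with C0 h
  filter_upwards [h] with c1 h
  filter_upwards [h] with E h P P' h1 h2 _
  rw [h1.ex1]
  exact h P' h2

/-- the same for `sg' = x1 / 100` -/
theorem Ev.to2' {F : ℝ → Par → ℝ → Prop} (h : ∀ sg, 0 < sg → Ev b1 b2 pf Q (F sg)) :
    Ev2 b1 b2 pf Q fun P P' c1 => F (P.x1 / 100) P' c1 :=
  Ev.to2x (F := fun x1 => F (x1 / 100)) fun x1 hx1 => h (x1 / 100) (by positivity)

/-- the same for `sg' = x1 / 100` when the property is known for small `sg'` only -/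
theorem Ev.to2'_le {F : ℝ → Par → ℝ → Prop} {s0 : ℝ} (hs0 : 0 < s0)
    (h : ∀ sg, 0 < sg → sg ≤ s0 → Ev b1 b2 pf Q (F sg)) :
    Ev2 b1 b2 pf Q fun P P' c1 => F (P.x1 / 100) P' c1 := by
  unfold Ev2
  refine Eventually.of_forall fun W => Eventually.of_forall fun ys =>
    Eventually.of_forall fun X0 => ?_
  filter_upwards [ev_le (show 0 < 100 * s0 by positivity)] with x1 hx1
  have h := h (x1 / 100) (by linarith [hx1.1]) (by linarith [hx1.2])
  unfold H801.Ev at h
  filter_upwards [h] with W' h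
  filter_upwards [h] with ys' h
  filter_upwards [h] with X0' h
  filter_upwards [h] with x1' h
  filter_upwards [tendsto_div8.eventually h] with thp h
  filter_upwards [h] with th h
  filter_upwards [h] with C0 h
  filter_upwards [h] with c1 h
  filter_upwards [h] with E h P P' h1 h2 _
  rw [h1.ex1]
  exact h P' h2

/-- the second exponent is as small as wanted against the first one, and the first one is small -/
theorem Ev2.x1_le {g : ℝ → ℝ} {r : ℝ} (hr : 0 < r) (hg : ∀ x, 0 < x → 0 < g x) :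
    Ev2 b1 b2 pf Q fun P P' _ => P.x1 ≤ r ∧ P'.x1 ≤ g P.x1 := by
  unfold Ev2
  refine Eventually.of_forall fun W => Eventually.of_forall fun ys =>
    Eventually.of_forall fun X0 => ?_
  filter_upwards [ev_le hr] with x1 hx1
  refine Eventually.of_forall fun W' => Eventually.of_forall fun ys' =>
    Eventually.of_forall fun X0' => ?_
  filter_upwards [ev_le (hg x1 hx1.1)] with x1' hx1'
  refine Eventually.of_forall fun thp => Eventually.of_forall fun th =>
    Eventually.of_forall fun C0 => Eventually.of_forall fun c1 =>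
    Eventually.of_forall fun E => fun P P' h1 h2 h3 => ?_
  rw [h1.ex1, h2.ex1]
  exact ⟨hx1.2, hx1'.2⟩

/-- **smallness of the later constants** against the two exponents : `thp` small against `x1, x1'`,
`th` small against `thp`, `C0` large and `c1` small against `th`, `es` small against all of them -/
theorem Ev2.order {g1 : ℝ → ℝ → ℝ} {g2 : ℝ → ℝ} {g3 g4 : ℝ → ℝ} {g5 : ℝ → ℝ → ℝ}
    (h1 : ∀ x x', 0 < x → 0 < x' → 0 < g1 x x') (h2 : ∀ x, 0 < x → 0 < g2 x)
    (h4 : ∀ x, 0 < x → 0 < g4 x) (h5 : ∀ x y, 0 < x → 0 < y → 0 < g5 x y) :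
    Ev2 b1 b2 pf Q fun P P' c1 => P.thp ≤ g1 P.x1 P'.x1 ∧ P.th ≤ g2 P.thp ∧ g3 P.th ≤ P.C0 ∧
      0 < P.C0 ∧ c1 ≤ g4 P.th ∧ P.es ≤ g5 c1 P.C0 := by
  unfold Ev2
  refine Eventually.of_forall fun W => Eventually.of_forall fun ys =>
    Eventually.of_forall fun X0 => ?_
  filter_upwards [self_mem_nhdsWithin] with x1 hx1
  refine Eventually.of_forall fun W' => Eventually.of_forall fun ys' =>
    Eventually.of_forall fun X0' => ?_
  filter_upwards [self_mem_nhdsWithin] with x1' hx1'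
  filter_upwards [ev_le (h1 x1 x1' hx1 hx1')] with thp hthp
  filter_upwards [ev_le (h2 thp hthp.1)] with th hth
  filter_upwards [eventually_ge_atTop (max (g3 th) 1)] with C0 hC0
  filter_upwards [ev_le (h4 th hth.1)] with c1 hc1
  have hC : 0 < C0 := lt_of_lt_of_le one_pos ((le_max_right _ _).trans hC0)
  filter_upwards [ev_le (h5 c1 C0 hc1.1 hC)] with E hE P P' k1 k2 _
  rw [k1.ex1, k2.ex1, k1.ethp, k1.eth, k1.eC0]
  exact ⟨hthp.2, hth.2, (le_max_left _ _).trans hC0, hC, hc1.2, k1.ees.trans hE.2⟩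

/-- **a pair of parameters exists** -/
theorem Ev2.exists (h : Ev2 b1 b2 pf Q F) (hpf : 0 < pf) (hpf1 : pf ≤ 1) :
    ∃ (P P' : Par) (c1 : ℝ), PQ b1 b2 pf P P' ∧ 0 < c1 ∧ F P P' c1 := by
  unfold Ev2 at h
  obtain ⟨W, h⟩ := Filter.Eventually.exists h
  obtain ⟨ys, h⟩ := h.exists
  obtain ⟨X0, h⟩ := h.exists
  obtain ⟨x1, h, hx0, hx1⟩ := (h.and (ev_le one_pos)).exists
  obtain ⟨W', h⟩ := Filter.Eventually.exists h
  obtain ⟨ys', h⟩ := h.exists
  obtain ⟨X0', h⟩ := h.exists
  obtain ⟨x1', h, hx0', hx1'⟩ := (h.and (ev_le one_pos)).exists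
  obtain ⟨thp, h, ht0, ht1⟩ := (h.and (ev_le (show 0 < min x1 x1' / 200 by positivity))).exists
  obtain ⟨th, h, hs0, hs1⟩ := (h.and (ev_le (show 0 < thp / 8 by positivity))).exists
  obtain ⟨C0, h, hC⟩ := (h.and (eventually_ge_atTop (1 : ℝ))).exists
  obtain ⟨c1, h, hc0, -⟩ := (h.and (ev_le one_pos)).exists
  obtain ⟨E, h, hE, -⟩ := (h.and (ev_le one_pos)).exists
  have hm1 : min x1 x1' ≤ x1 := min_le_left _ _
  have hm2 : min x1 x1' ≤ x1' := min_le_right _ _
  obtain ⟨P, hP⟩ := ps_exists (b1 := b1) (b2 := b2) (pf := pf) (Q := Q) (W := W) (ys := ys)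
    (X0 := X0) (thp := thp) hpf hpf1 hs0 (by linarith) (by linarith) hx1 (by linarith)
    (by linarith : 0 < C0) hE
  obtain ⟨P', hP'⟩ := ps_exists (b1 := b1) (b2 := b2) (pf := pf) (Q := Q) (W := W')
    (ys := ys') (X0 := X0') hpf hpf1 hs0 hs1 (by linarith) hx1' (by linarith)
    (by linarith : 0 < C0) hE
  have hQ' := PS.cut' hP' P.es0
  have hes : (P'.cut P.es P.es0).es ≤ P.es := by
    rw [H972.cut_es]
    exact min_le_right _ _
  exact ⟨P, P'.cut P.es P.es0, c1, ⟨hP.adm, hQ'.adm, hP.epf, hQ'.epf, hP.eb1, hQ'.eb1, hP.eb2,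
    hQ'.eb2, by rw [hP.ex1]; exact hx0, by rw [hQ'.ex1]; exact hx0', by rw [hQ'.eth, hP.eth],
    by rw [hQ'.ethp, hP.ethp], by rw [hQ'.eC0, hP.eC0], hes⟩, hc0, h _ _ hP hQ' hes⟩

end Vale.Agent.P159.H846.Two
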