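import Vale.Agent.P159.H846.Fs4

/-!
P159, FLATSTEP (helper846), part 5: the family of helper239.
-/

set_option linter.unusedSectionVars false

namespace Vale.Agent.P159.H846

open Finset Filter Topology
open Vale.Agent.P159.TM.H764 (Gh EE EE_nonneg EE_zero)
open Vale.Agent.P159.TM.Spec (V Rng)
open Vale.Agent.P159.H963 (Pin)
open Vale.Agent.P159.H972 (Par tn tn_pos SI en FLs RNGs RNG lg Good GP Drop')
open Vale.Agent.P159.H239 (Fam Sel)
open Vale.Agent.P159.H864 (yt)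

noncomputable section

variable {b b1 b2 pf sg q : ℝ}

/-- finitely many thresholds -/
lemma exists_E {S : ℕ → ℝ → Prop} (hmono : ∀ k E E', E' ≤ E → S k E → S k E') (B : ℕ)
    (h : ∀ k, k ≤ B → ∃ E : ℝ, 0 < E ∧ S k E) : ∃ E : ℝ, 0 < E ∧ ∀ k, k ≤ B → S k E := by
  induction B with
  | zero =>
    obtain ⟨E, h1, h2⟩ := h 0 le_rfl
    exact ⟨E, h1, fun k hk => by obtain rfl := Nat.le_zero.1 hk; exact h2⟩
  | succ B ih =>
    obtain ⟨E, h1, h2⟩ := ih fun k hk => h k (by omega)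
    obtain ⟨E', h3, h4⟩ := h (B + 1) le_rfl
    refine ⟨min E E', lt_min h1 h3, fun k hk => ?_⟩
    rcases Nat.lt_or_ge k (B + 1) with h5 | h5
    · exact hmono k E _ (min_le_left _ _) (h2 k (by omega))
    · obtain rfl : k = B + 1 := by omega
      exact hmono _ E' _ (min_le_right _ _) h4

lemma exists_tn {t1 : ℝ} (h : 0 < t1) : ∃ n, 1 ≤ n ∧ tn n ≤ t1 := by
  obtain ⟨n, hn⟩ := exists_pow_lt_of_lt_one h (show (1 / 4 : ℝ) < 1 by norm_num)
  refine ⟨max 1 n, le_max_left _ _, (tn_anti (le_max_right 1 n)).trans ?_⟩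
  unfold H972.tn
  rw [one_div, inv_pow] at hn
  exact hn.le

/-- TOP at all late masses -/
lemma top_late (hb : 0 < b) (hY : helicity b = 2 / Real.pi) :
    ∃ C₀ : ℝ, ∃ n0 : ℕ, 1 ≤ C₀ ∧ 1 ≤ n0 ∧ ∀ (N : ℕ) [NeZero N] (t : ℝ), 0 < t → t ≤ tn n0 →
      ∀ k : V N, k ≠ 0 → Pin N b t k ≤ C₀ * (t + EE k) := by
  have hpi := Real.pi_pos
  have hpi2 := Real.pi_lt_d2
  obtain ⟨C, t1, hC, ht1, h⟩ := H280.top1 hb (by rw [hY]; positivity) (by
    rw [hY, one_div, inv_div, div_lt_div_iff₀ (by norm_num) (by norm_num)]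
    linarith)
  obtain ⟨n0, hn0, hn1⟩ := exists_tn ht1
  refine ⟨max 1 C, n0, le_max_left _ _, hn0, fun N _ t ht htn k hk => ?_⟩
  refine (H963.Pin_le_Pik hb ht hk).trans ((h N t ht (htn.trans hn1) k hk).trans ?_)
  exact mul_le_mul_of_nonneg_right (le_max_right _ _) (by have := EE_nonneg k; linarith)

/-- **FLATSTEP as a family**, the drop as a hypothesis for the same parameters -/
theorem fam_flatI (hb1 : 0 < b1) (h1 : b1 ≤ b) (hY : helicity b = 2 / Real.pi)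
    (hpf : 1 / 4 ≤ pf) (hpf1 : pf < 1) (hq : pf < q) (hsg : 0 < sg) (hsg1 : sg ≤ 1) :
    Fam b1 b2 pf fun P N0 => DropS P b q N0 → FlatStep' P b sg N0 := by
  have hb : 0 < b := hb1.trans_le h1
  obtain ⟨C₀, n0, hC₀, hn0, htop⟩ := top_late hb hY
  set g : ℝ := min (1 - pf) (q - pf) with hg
  have hg0 : 0 < g := lt_min (by linarith) (by linarith)
  have hg1 : g ≤ 1 - pf := min_le_left _ _
  have hg2 : g ≤ q - pf := min_le_right _ _
  obtain ⟨W₀, h⟩ := flat_one hb1 b2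
  refine ⟨W₀, fun W hW => ?_⟩
  obtain ⟨ys0, X00, hys0, h⟩ := h W hW
  refine ⟨ys0, hys0, fun ys hy1 hy2 => ⟨X00, fun X0 hX0 => ?_⟩⟩
  refine ⟨g / 64, by positivity, fun x1 hx1 hx1' => ⟨0, fun Q _ => ?_⟩⟩
  refine ⟨min (g / (64 * (Q + 4))) (min (sg / 16) (1 / 2)), by positivity, fun thp ht1 ht2 => ?_⟩
  have ht3 : thp ≤ g / (64 * (Q + 4)) := ht2.trans (min_le_left _ _)
  have ht4 : thp ≤ sg / 16 := ht2.trans ((min_le_right _ _).trans (min_le_left _ _))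
  have ht5 : thp ≤ 1 / 2 := ht2.trans ((min_le_right _ _).trans (min_le_right _ _))
  have ht6 : ((Q : ℝ) + 4) * thp ≤ g / 64 := by
    rw [le_div_iff₀ (by positivity)] at ht3
    linarith
  refine ⟨g / 64, by positivity, fun th hth1 hth2 => ⟨0, fun C0 _ _ => ?_⟩⟩
  set B : ℕ := ⌈x1 / thp + Q + 3⌉₊ with hB
  have hBt : (B : ℝ) * thp ≤ g / 32 := by
    have h3 : (B : ℝ) ≤ x1 / thp + Q + 3 + 1 := (Nat.ceil_lt_add_one (by positivity)).le
    have h4 : (B : ℝ) * thp ≤ (x1 / thp + Q + 3 + 1) * thp := mul_le_mul_of_nonneg_right h3 ht1.le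
    have h5 : (x1 / thp + Q + 3 + 1) * thp = x1 + ((Q : ℝ) + 4) * thp := by
      rw [add_mul, add_mul, add_mul, div_mul_cancel₀ _ ht1.ne']
      ring
    rw [h5] at h4
    linarith
  obtain ⟨E, hE, hall⟩ := exists_E (S := fun k E => ∀ P : Par, P.Adm → P.b1 = b1 → P.b2 = b2 →
      P.W = W → P.ys ≤ ys0 → X00 ≤ P.X0 → P.th = th → P.thp = thp → P.q0 = k → P.pf = pf →
      P.es ≤ E → ∀ (b : ℝ) (N0 : ℕ), 1 ≤ N0 →
      (∀ (N : ℕ) [NeZero N] (t : ℝ), 0 < t → t ≤ tn N0 → ∀ k : V N, k ≠ 0 →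
        Pin N b t k ≤ C₀ * (t + EE k)) → DropS P b q N0 → FlatStep' P b sg N0)
    (fun k E E' hEE h3 P a1 a2 a3 a4 a5 a6 a7 a8 a9 a10 a11 => h3 P a1 a2 a3 a4 a5 a6 a7 a8 a9 a10
      (a11.trans hEE)) B (fun k hk => by
      have hkt : (k : ℝ) * thp ≤ g / 32 := by
        have h3 : (k : ℝ) ≤ B := by exact_mod_cast hk
        exact (mul_le_mul_of_nonneg_right h3 ht1.le).trans hBt
      exact h th thp sg pf q C₀ k hth1 ht1 ht5 (by linarith) hpf (by linarith) (by linarith)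
        (by linarith) hsg1 hC₀)
  refine ⟨E, hE, fun P hP hPe => ⟨n0, fun N0 hN0 hD => ?_⟩⟩
  have hqB : P.q0 ≤ B := by
    have h3 := hP.hq
    rw [hP.hthp] at h3
    have h4 : (P.q0 : ℝ) ≤ x1 / thp + Q + 3 := by
      have h5 : (P.q0 : ℝ) * thp ≤ (x1 / thp + Q + 3) * thp := by
        have h6 : (x1 / thp + Q + 3) * thp = x1 + (Q + 3) * thp := by
          rw [add_mul, add_mul, div_mul_cancel₀ _ ht1.ne']
          ring
        rw [h6]
        exact h3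
      exact le_of_mul_le_mul_right h5 ht1
    have h5 : (P.q0 : ℝ) ≤ B := h4.trans (Nat.le_ceil _)
    exact_mod_cast h5
  exact hall P.q0 hqB P hP.adm hP.hb1 hP.hb2 hP.hW (by rw [hP.hys]; exact hy2)
    (by rw [hP.hX0]; exact hX0) hP.hth hP.hthp rfl hP.hpf hPe b N0 (hn0.trans hN0)
    (fun N _ t ht htn => htop N t ht (htn.trans (tn_anti hN0))) hD

/-- **FLATSTEP as a family** -/
theorem fam_flat' (hb1 : 0 < b1) (h1 : b1 ≤ b) (hY : helicity b = 2 / Real.pi)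
    (hpf : 1 / 4 ≤ pf) (hpf1 : pf < 1) (hq : pf < q) (hsg : 0 < sg) (hsg1 : sg ≤ 1)
    (hD : Fam b1 b2 pf fun P N0 => DropS P b q N0) :
    Fam b1 b2 pf fun P N0 => FlatStep' P b sg N0 :=
  ((fam_flatI hb1 h1 hY hpf hpf1 hq hsg hsg1).and hD).imp fun _ _ _ _ _ _ h => h.1 h.2

/-- the drop at low momenta -/
lemma DropS.drop' {P : Par} {p2 : ℝ} {N0 : ℕ} (h : DropS P b q N0) (hpq : p2 < q)
    (hes : 2 * P.es ^ (q - p2) ≤ 1) : Drop' P b p2 N0 := by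
  intro n m ε Y hS r hr hkr k hk hE
  have h1 := h n m ε Y hS r hr hkr m le_rfl (by omega) k hk
  have hε := hS.εpos
  have hE0 := EE_nonneg k
  have ht := tn_pos m
  refine h1.trans ?_
  have h2 : EE k / tn m ≤ 1 := by rwa [div_le_one ht]
  have h3 : ε ^ q * (1 + EE k / tn m) * EE k ≤ ε ^ q * 2 * EE k := by
    have : 0 < ε ^ q := Real.rpow_pos_of_pos hε _
    exact mul_le_mul_of_nonneg_right (mul_le_mul_of_nonneg_left (by linarith) this.le) hE0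
  refine h3.trans (mul_le_mul_of_nonneg_right ?_ hE0)
  have h4 : ε ^ q = ε ^ (q - p2) * ε ^ p2 := by
    rw [← Real.rpow_add hε]
    congr 1
    ring
  have h5 : ε ^ (q - p2) ≤ P.es ^ (q - p2) := Real.rpow_le_rpow hε.le hS.εes (by linarith)
  have h6 : 0 < ε ^ p2 := Real.rpow_pos_of_pos hε _
  rw [h4]
  nlinarith

theorem fam_drop' {p2 : ℝ} (hpq : p2 < q) (hD : Fam b1 b2 pf fun P N0 => DropS P b q N0) :
    Fam b1 b2 pf fun P N0 => Drop' P b p2 N0 := by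
  have hS : Fam b1 b2 pf fun P _ => 2 * P.es ^ (q - p2) ≤ 1 := by
    obtain ⟨E, hE, h⟩ := H37.small_rpow (s := q - p2) (A := 2) (B := 1) (by linarith) one_pos
    exact ⟨0, fun _ _ => ⟨1, one_pos, fun _ _ _ => ⟨0, fun _ _ => ⟨1, one_pos, fun _ _ _ =>
      ⟨0, fun _ _ => ⟨1, one_pos, fun _ _ _ => ⟨1, one_pos, fun _ _ _ => ⟨0, fun _ _ _ =>
      ⟨E, hE, fun P _ hPe => ⟨0, fun _ _ => h P.es P.es0 hPe⟩⟩⟩⟩⟩⟩⟩⟩⟩⟩
  exact (hD.and hS).imp fun P N0 _ _ _ _ h => h.1.drop' hpq h.2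

end

end Vale.Agent.P159.H846
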