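import Vale.Agent.P159.H846.La1

/-!
P159, P6 / SD.tor, item (A) of helper462's row 7015 (helper846), second part: `law_x`.
-/

set_option linter.unusedSectionVars false

namespace Vale.Agent.P159.H846.La

open MeasureTheory ProbabilityTheory Finset Matrix
open Vale.Agent.P159.H37 (gau)
open Vale.Agent.P159.H552 (gau_int_eq gau_integrable_iff meas_mulVec hs_l2)

noncomputable section

variable {I I₁ I₂ J : Type*} [Fintype I] [Fintype I₁] [Fintype I₂] [Fintype J]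

lemma mul_mul_tr {K L : Type*} [Fintype L] (A : Matrix K L ℝ) (M : Matrix L L ℝ) (a b : K) :
    (A * M * Aᵀ) a b = A a ⬝ᵥ (M *ᵥ A b) := by
  rw [Matrix.mul_assoc, Matrix.mul_apply]
  rfl

/-- the change of the covariance of the augmented window -/
def Ha (H : Matrix I I ℝ) (w : I → ℝ) (c : ℝ) : Matrix (I ⊕ Unit) (I ⊕ Unit) ℝ :=
  fromBlocks H (Matrix.of fun x _ => -((H *ᵥ w) x / c)) (Matrix.of fun _ y => -((H *ᵥ w) y / c))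
    (Matrix.of fun _ _ => w ⬝ᵥ (H *ᵥ w) / c ^ 2)

lemma Ha_symm {H : Matrix I I ℝ} (hH : Hᵀ = H) (w : I → ℝ) (c : ℝ) : (Ha H w c)ᵀ = Ha H w c := by
  unfold Ha
  rw [fromBlocks_transpose, hH]
  rfl

/-- action of `Ha` -/
lemma Ha_mulVec {H : Matrix I I ℝ} (hH : Hᵀ = H) (w u : I → ℝ) (c d : ℝ) :
    Ha H w c *ᵥ exw u d =
      exw (H *ᵥ u - (d / c) • (H *ᵥ w)) (-(w ⬝ᵥ (H *ᵥ u) / c) + d * (w ⬝ᵥ (H *ᵥ w)) / c ^ 2) := by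
  have hs : (H *ᵥ w) ⬝ᵥ u = w ⬝ᵥ (H *ᵥ u) := by
    rw [dotProduct_mulVec, ← mulVec_transpose, hH]
  funext a
  rcases a with a | a
  · simp only [mulVec, dotProduct, Ha, exw, Fintype.sum_sum_type, fromBlocks_apply₁₁,
      fromBlocks_apply₁₂, of_apply, Sum.elim_inl, Sum.elim_inr, Finset.univ_unique,
      Finset.sum_singleton, Pi.sub_apply, Pi.smul_apply, smul_eq_mul]
    ring
  · simp only [Ha, exw, mulVec, dotProduct, Fintype.sum_sum_type, fromBlocks_apply₂₁,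
      fromBlocks_apply₂₂, of_apply, Sum.elim_inl, Sum.elim_inr, Finset.univ_unique,
      Finset.sum_singleton] at hs ⊢
    have e : ∑ x, -((∑ x_1, H x x_1 * w x_1) / c) * u x =
        -((∑ x, (∑ x_1, H x x_1 * w x_1) * u x) / c) := by
      rw [Finset.sum_div, ← Finset.sum_neg_distrib]
      exact Finset.sum_congr rfl fun _ _ => by ring
    rw [e, hs]
    ring

lemma aug_inl (B : Matrix J I ℝ) (w : I → ℝ) (c : ℝ) (j : J) :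
    aug (ex0 B) (exw w c) (Sum.inl j) = exw (B j) 0 := by
  funext x
  rcases x with x | x <;> rfl

lemma aug_inr (B : Matrix J I ℝ) (w : I → ℝ) (c : ℝ) (j : Unit) :
    aug (ex0 B) (exw w c) (Sum.inr j) = exw w c := rfl

/-- the covariance of the augmented window -/
lemma aug_Ha {B₁ : Matrix J I₁ ℝ} {B₂ : Matrix J I₂ ℝ} [DecidableEq I₁] {H : Matrix I₁ I₁ ℝ}
    (hH : Hᵀ = H) (h : B₂ * B₂ᵀ = B₁ * (1 + H) * B₁ᵀ) {w₁ : I₁ → ℝ} {w₂ : I₂ → ℝ} {c₁ c₂ : ℝ}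
    (hc : c₁ ≠ 0) (hw : B₁ *ᵥ w₁ = B₂ *ᵥ w₂) (hv : w₁ ⬝ᵥ w₁ + c₁ * c₁ = w₂ ⬝ᵥ w₂ + c₂ * c₂) :
    aug (ex0 B₂) (exw w₂ c₂) * (aug (ex0 B₂) (exw w₂ c₂))ᵀ =
      aug (ex0 B₁) (exw w₁ c₁) * (1 + Ha H w₁ c₁) * (aug (ex0 B₁) (exw w₁ c₁))ᵀ := by
  have h0 : ∀ a b, (aug (ex0 B₂) (exw w₂ c₂) * (aug (ex0 B₂) (exw w₂ c₂))ᵀ) a b =
      aug (ex0 B₂) (exw w₂ c₂) a ⬝ᵥ aug (ex0 B₂) (exw w₂ c₂) b := fun a b => rfl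
  ext a b
  rw [h0, mul_mul_tr, add_mulVec, one_mulVec, dotProduct_add]
  have hij : ∀ i j, B₂ i ⬝ᵥ B₂ j = B₁ i ⬝ᵥ B₁ j + B₁ i ⬝ᵥ (H *ᵥ B₁ j) := fun i j => by
    have h1 := congrFun (congrFun h i) j
    rw [mul_mul_tr, add_mulVec, one_mulVec, dotProduct_add] at h1
    exact h1
  rcases a with a | a <;> rcases b with b | b
  · rw [aug_inl, aug_inl, aug_inl, aug_inl, Ha_mulVec hH, exw_dot, exw_dot, exw_dot, hij]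
    simp
  · rw [aug_inl, aug_inr, aug_inl, aug_inr, Ha_mulVec hH, exw_dot, exw_dot, exw_dot,
      div_self hc, one_smul, sub_self, dotProduct_zero]
    have h1 := congrFun hw a
    have h2 : B₁ a ⬝ᵥ w₁ = B₂ a ⬝ᵥ w₂ := h1
    rw [h2]
    ring
  · rw [aug_inl, aug_inr, aug_inl, aug_inr, Ha_mulVec hH, exw_dot, exw_dot, exw_dot]
    have h1 := congrFun hw b
    have h2 : w₁ ⬝ᵥ B₁ b = w₂ ⬝ᵥ B₂ b := by
      rw [dotProduct_comm w₁, dotProduct_comm w₂]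
      exact h1
    rw [h2, zero_div, zero_smul, sub_zero]
    field_simp
    ring
  · rw [aug_inr, aug_inr, Ha_mulVec hH, exw_dot, exw_dot, exw_dot, div_self hc, one_smul,
      sub_self, dotProduct_zero, ← hv]
    field_simp
    ring

/-- its Hilbert-Schmidt norm -/
lemma Ha_hs {H : Matrix I I ℝ} {w : I → ℝ} {c η : ℝ} (hc : 0 < c) (hw : w ⬝ᵥ w ≤ c ^ 2)
    (hHS : ∑ x, ∑ y, H x y ^ 2 ≤ η ^ 2) : ∑ x, ∑ y, Ha H w c x y ^ 2 ≤ (2 * η) ^ 2 := by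
  have e1 : ∑ x, ∑ y, Ha H w c x y ^ 2 =
      (∑ x, ∑ y, H x y ^ 2) + 2 * ((∑ x, (H *ᵥ w) x ^ 2) / c ^ 2) +
        (w ⬝ᵥ (H *ᵥ w)) ^ 2 / c ^ 4 := by
    simp only [Ha, Fintype.sum_sum_type, fromBlocks_apply₁₁, fromBlocks_apply₁₂,
      fromBlocks_apply₂₁, fromBlocks_apply₂₂, of_apply, Finset.univ_unique,
      Finset.sum_singleton, Finset.sum_add_distrib]
    have e2 : ∑ x, (-((H *ᵥ w) x / c)) ^ 2 = (∑ x, (H *ᵥ w) x ^ 2) / c ^ 2 := by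
      rw [Finset.sum_div]
      exact Finset.sum_congr rfl fun _ _ => by ring
    rw [e2]
    ring
  have hww : 0 ≤ w ⬝ᵥ w := by
    simp only [dotProduct]
    exact Finset.sum_nonneg fun _ _ => mul_self_nonneg _
  have hsq : ∑ i, w i ^ 2 = w ⬝ᵥ w := by
    simp only [dotProduct, sq]
  set S := ∑ x, ∑ y, H x y ^ 2 with hS
  have hS0 : 0 ≤ S := Finset.sum_nonneg fun _ _ => Finset.sum_nonneg fun _ _ => sq_nonneg _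
  have e3 : ∑ x, (H *ᵥ w) x ^ 2 ≤ S * (w ⬝ᵥ w) := by
    rw [hS, Finset.sum_mul]
    refine Finset.sum_le_sum fun x _ => ?_
    rw [← hsq]
    exact Finset.sum_mul_sq_le_sq_mul_sq _ _ _
  have e4 : (w ⬝ᵥ (H *ᵥ w)) ^ 2 ≤ (w ⬝ᵥ w) * ∑ x, (H *ᵥ w) x ^ 2 := by
    rw [← hsq]
    exact Finset.sum_mul_sq_le_sq_mul_sq _ _ _
  rw [e1]
  set T := ∑ x, (H *ᵥ w) x ^ 2
  have hT0 : 0 ≤ T := Finset.sum_nonneg fun _ _ => sq_nonneg _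
  have hc2 : 0 < c ^ 2 := by positivity
  have h1 : T / c ^ 2 ≤ S := by
    rw [div_le_iff₀ hc2]
    exact e3.trans (mul_le_mul_of_nonneg_left hw hS0)
  have h2 : (w ⬝ᵥ (H *ᵥ w)) ^ 2 / c ^ 4 ≤ S := by
    rw [div_le_iff₀ (by positivity)]
    calc (w ⬝ᵥ (H *ᵥ w)) ^ 2 ≤ (w ⬝ᵥ w) * T := e4
      _ ≤ c ^ 2 * (S * c ^ 2) :=
        mul_le_mul hw (e3.trans (mul_le_mul_of_nonneg_left hw hS0)) hT0 hc2.le
      _ = S * c ^ 4 := by ring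
  nlinarith

/-- **(A) of 7015, constant 4** -/
theorem law_x4 [DecidableEq I₁] {B₁ : Matrix J I₁ ℝ} {B₂ : Matrix J I₂ ℝ} {H : Matrix I₁ I₁ ℝ}
    (hH : Hᵀ = H) (h : B₂ * B₂ᵀ = B₁ * (1 + H) * B₁ᵀ) {η : ℝ} (hη : 0 ≤ η) (hη4 : 4 * η ≤ 1)
    (hHS : ∑ x, ∑ y, H x y ^ 2 ≤ η ^ 2) {w₁ : I₁ → ℝ} {w₂ : I₂ → ℝ}
    (hw : B₁ *ᵥ w₁ = B₂ *ᵥ w₂) {f : (J → ℝ) → ℝ} (hf : Measurable f) {lam : ℝ}
    (hl : ∀ u, |f u| ≤ lam) {v : ℝ} (hv : 0 < v) (hv2 : 2 * (w₁ ⬝ᵥ w₁ + w₂ ⬝ᵥ w₂) ≤ v ^ 2)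
    (L : ℝ) :
    |∫ g, f (B₂ *ᵥ g) * (w₂ ⬝ᵥ g) ∂(gau I₂) - ∫ g, f (B₁ *ᵥ g) * (w₁ ⬝ᵥ g) ∂(gau I₁)| ≤
      4 * η * v * √(L ^ 2 * ∫ g, f (B₁ *ᵥ g) ^ 2 ∂(gau I₁) + 64 * lam ^ 2 * Real.exp (-L)) := by
  have n1 : 0 ≤ w₁ ⬝ᵥ w₁ := by
    simp only [dotProduct]
    exact Finset.sum_nonneg fun _ _ => mul_self_nonneg _
  have n2 : 0 ≤ w₂ ⬝ᵥ w₂ := by
    simp only [dotProduct]
    exact Finset.sum_nonneg fun _ _ => mul_self_nonneg _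
  have hv0 : 0 < v ^ 2 := by positivity
  set c₁ := √(v ^ 2 - w₁ ⬝ᵥ w₁) with hc1
  set c₂ := √(v ^ 2 - w₂ ⬝ᵥ w₂) with hc2
  have p1 : 0 < v ^ 2 - w₁ ⬝ᵥ w₁ := by linarith
  have p2 : 0 < v ^ 2 - w₂ ⬝ᵥ w₂ := by linarith
  have s1 : c₁ * c₁ = v ^ 2 - w₁ ⬝ᵥ w₁ := Real.mul_self_sqrt p1.le
  have s2 : c₂ * c₂ = v ^ 2 - w₂ ⬝ᵥ w₂ := Real.mul_self_sqrt p2.le
  have hc0 : 0 < c₁ := Real.sqrt_pos.2 p1
  have hcov := aug_Ha (c₂ := c₂) hH h hc0.ne' hw (by rw [s1, s2]; ring)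
  have hHa := Ha_hs (c := c₁) hc0 (by rw [sq, s1]; linarith) hHS
  have hm := mom2 (B := ex0 B₁) (w := exw w₁ c₁) (L := L) hf hl hv
    (by rw [exw_dot, s1]; linarith)
  have key := hs_l2 (Ha_symm hH w₁ c₁) hcov (by linarith : 0 ≤ 2 * η) (by linarith) hHa
    (measurable_fx hf) (by simpa only [fx_aug] using hm.1)
  have k2 := key.2
  simp only [fx_aug] at k2
  rw [int_ex hf hl, int_ex hf hl] at k2
  set X := ∫ g, f (B₂ *ᵥ g) * (w₂ ⬝ᵥ g) ∂(gau I₂)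
  set Y := ∫ g, f (B₁ *ᵥ g) * (w₁ ⬝ᵥ g) ∂(gau I₁)
  have hF : ∫ g, f (ex0 B₁ *ᵥ g) ^ 2 ∂(gau (I₁ ⊕ Unit)) = ∫ g, f (B₁ *ᵥ g) ^ 2 ∂(gau I₁) :=
    gau_int_eq (f := fun u => f u ^ 2) (ex0_cov B₁) (hf.pow_const 2)
  have m2 := hm.2
  rw [hF] at m2
  set S := L ^ 2 * ∫ g, f (B₁ *ᵥ g) ^ 2 ∂(gau I₁) + 64 * lam ^ 2 * Real.exp (-L) with hS
  have hI0 : 0 ≤ ∫ g, f (B₁ *ᵥ g) ^ 2 ∂(gau I₁) := integral_nonneg fun g => sq_nonneg _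
  have hS0 : 0 ≤ S := by positivity
  refine abs_le_of_sq_le_sq ?_ (by positivity)
  have e : (4 * η * v * √S) ^ 2 = 4 * (2 * η) ^ 2 * (v ^ 2 * S) := by
    rw [mul_pow, Real.sq_sqrt hS0]
    ring
  rw [e]
  exact k2.trans (mul_le_mul_of_nonneg_left m2 (by positivity))

/-- **(A) of helper462's row 7015** -/
theorem law_x [DecidableEq I₁] {B₁ : Matrix J I₁ ℝ} {B₂ : Matrix J I₂ ℝ} {H : Matrix I₁ I₁ ℝ}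
    (hH : Hᵀ = H) (h : B₂ * B₂ᵀ = B₁ * (1 + H) * B₁ᵀ) {η : ℝ} (hη : 0 ≤ η) (hη8 : 8 * η ≤ 1)
    (hHS : ∑ x, ∑ y, H x y ^ 2 ≤ η ^ 2) {w₁ : I₁ → ℝ} {w₂ : I₂ → ℝ}
    (hw : B₁ *ᵥ w₁ = B₂ *ᵥ w₂) {f : (J → ℝ) → ℝ} (hf : Measurable f) {lam : ℝ}
    (hl : ∀ u, |f u| ≤ lam) {v : ℝ} (hv : 0 < v) (hv2 : 2 * (w₁ ⬝ᵥ w₁ + w₂ ⬝ᵥ w₂) ≤ v ^ 2)
    {L : ℝ} (_hL : 0 ≤ L) :
    |∫ g, f (B₂ *ᵥ g) * (w₂ ⬝ᵥ g) ∂(gau I₂) - ∫ g, f (B₁ *ᵥ g) * (w₁ ⬝ᵥ g) ∂(gau I₁)| ≤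
      8 * η * v * √(L ^ 2 * ∫ g, f (B₁ *ᵥ g) ^ 2 ∂(gau I₁) + 64 * lam ^ 2 * Real.exp (-L)) := by
  refine (law_x4 hH h hη (by linarith) hHS hw hf hl hv hv2 L).trans ?_
  refine mul_le_mul_of_nonneg_right ?_ (Real.sqrt_nonneg _)
  have : 0 ≤ η * v := by positivity
  linarith

end

end Vale.Agent.P159.H846.La
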