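import Vale.Agent.P159.H846.Ra1
import Vale.Agent.P159.H846.Ev3
import Vale.Agent.P159.H358.Un8
import Vale.Agent.P159.H816.Rf2
import Vale.Agent.P159.H801.Sp1

/-!
P159, P6 at a state `SS` (helper846): the field `typ` of helper462's `P6h` in the letters of
helper801's `Base`, from helper816's strong typicality `RfV` of the second run.
-/

set_option linter.unusedSectionVars false

namespace Vale.Agent.P159.H846.Ra

open Finset MeasureTheory Matrix Filter Topology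
open Vale.Agent.P159.H37 (gau qf Rs)
open Vale.Agent.P159.H363 (acl Rcl pin Nf)
open Vale.Agent.P159.TM.Spec (V)
open Vale.Agent.P159.H963 (nwt)
open Vale.Agent.P159.H239 (TypE)
open Vale.Agent.P159.H972 (Par tn tn_pos GP FL)
open Vale.Agent.P159.H801 (Ev Base)
open Vale.Agent.P159.H816 (RfV ev_rf)

noncomputable section

section gen

variable {N l : ℕ} [NeZero N] [NeZero (N / l)] {b T : ℝ}

lemma Rcl_srcF (F : V (N / l) → ℝ) :
    Rcl N l b T T F = Rs (nwt N b T 0) (H896.srcF N l T T F) := by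
  unfold H363.Rcl H896.srcF
  rw [H963.nMC_self]

/-- typical sources at all prior masses: `R` is typically small in the typical law -/
theorem typ_prob (hb : 0 < b) (hl : l ∣ N) (hT : 0 < T) {ρ p : ℝ} (hρ : ρ ≤ 1) (hp : p ≤ 1 / 2)
    (h : ∀ a, 0 < a → a < T → TypE N l b T a 1 ρ p) :
    (gau (V (N / l))).real {g | ρ < Rcl N l b T T (pin (acl N l b T T) *ᵥ g)} ≤ 6 * p := by
  have h1 := H358.gau_typ hb hl hT le_rfl hρ hp h
  simp only [one_smul] at h1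
  simp only [Rcl_srcF]
  exact h1

end gen

/-! ### numbers -/

/-- the numbers of the field `typ` -/
structure Nt (x1 th CW y : ℝ) : Prop where
  y0 : 0 < y
  y1 : y ≤ 1
  n1 : 7200 * y ^ (9 / 10 : ℝ) ≤ 1
  n2 : Real.exp (-(y ^ (-(th / 40)))) ≤ 1 / 2
  n3 : y ^ (4 - x1) + 200000 * (y ^ (-CW)) ^ 2 * √(6 * Real.exp (-(y ^ (-(th / 40))))) ≤
    (y ^ (2 - x1)) ^ 2

theorem nt_ex {x1 th : ℝ} (hx : 0 < x1) (hth : 0 < th) (CW : ℝ) :
    ∃ E : ℝ, 0 < E ∧ ∀ y, 0 < y → y ≤ E → Nt x1 th CW y := by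
  have hev : ∀ᶠ y in 𝓝[>] (0 : ℝ), Nt x1 th CW y := by
    filter_upwards [H816.ev_pos, H816.ev_le one_pos,
      H816.ev_pow (show (-(9 / 10 : ℝ)) < 0 by norm_num) 7200,
      H816.ev_ge (show (0 : ℝ) < th / 40 by positivity) 1,
      H816.ev_pow (show (-x1) < 0 by linarith) 2,
      H816.ev_exp (show (0 : ℝ) < th / 40 by positivity) (2 * CW + 4) (2 * (200000 * √6))
        (show (0 : ℝ) < 2 by norm_num)] with y y0 y1 h1 h2 h3 h4
    have e0 : y ^ (-(0 : ℝ)) = 1 := by rw [neg_zero, Real.rpow_zero]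
    rw [e0, neg_neg] at h1 h3
    set u : ℝ := y ^ (-(th / 40)) with hu
    refine ⟨y0, y1, h1, ?_, ?_⟩
    · have h5 : Real.exp (-u) ≤ Real.exp (-1) := Real.exp_le_exp.2 (by linarith)
      have h6 := Real.exp_neg_one_lt_d9
      linarith
    · have e1 : √(6 * Real.exp (-u)) = √6 * Real.exp (-(u / 2)) := by
        rw [Real.sqrt_mul (by norm_num)]
        congr 1
        rw [Real.sqrt_eq_iff_mul_self_eq (Real.exp_pos _).le (Real.exp_pos _).le, ← Real.exp_add]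
        ring_nf
      have e2 : (y ^ (-CW)) ^ 2 = y ^ (-(2 * CW)) := by
        rw [← Real.rpow_natCast, ← Real.rpow_mul y0.le]
        congr 1
        push_cast
        ring
      have e3 : (y ^ (2 - x1)) ^ 2 = y ^ (4 - 2 * x1) := by
        rw [← Real.rpow_natCast, ← Real.rpow_mul y0.le]
        congr 1
        push_cast
        ring
      have e4 : y ^ (4 - x1) = y ^ x1 * y ^ (4 - 2 * x1) := by
        rw [← Real.rpow_add y0]
        congr 1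
        ring
      have p0 : 0 < y ^ (4 - 2 * x1) := Real.rpow_pos_of_pos y0 _
      have h5 : y ^ (4 - x1) ≤ 1 / 2 * y ^ (4 - 2 * x1) := by
        rw [e4]
        exact mul_le_mul_of_nonneg_right (by linarith) p0.le
      have h6 : 200000 * y ^ (-(2 * CW)) * (√6 * Real.exp (-(u / 2))) ≤ 1 / 2 * y ^ (4 : ℝ) := by
        have e5 : y ^ (-(2 * CW + 4)) = y ^ (-(2 * CW)) * y ^ (-(4 : ℝ)) := by
          rw [← Real.rpow_add y0]
          congr 1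
          ring
        have p4 : 0 < y ^ (4 : ℝ) := Real.rpow_pos_of_pos y0 _
        have e6 : y ^ (-(4 : ℝ)) * y ^ (4 : ℝ) = 1 := by
          rw [← Real.rpow_add y0, neg_add_cancel, Real.rpow_zero]
        rw [e5] at h4
        have h7 := mul_le_mul_of_nonneg_right h4 (mul_nonneg p4.le (Real.exp_pos (-(u / 2))).le)
        have e7 : Real.exp (u / 2) * (y ^ (4 : ℝ) * Real.exp (-(u / 2))) = y ^ (4 : ℝ) := by
          rw [mul_left_comm, ← Real.exp_add, add_neg_cancel, Real.exp_zero, mul_one]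
        rw [e7] at h7
        have e8 : 2 * (200000 * √6) * (y ^ (-(2 * CW)) * y ^ (-(4 : ℝ))) *
            (y ^ (4 : ℝ) * Real.exp (-(u / 2))) =
            2 * (200000 * y ^ (-(2 * CW)) * (√6 * Real.exp (-(u / 2)))) *
              (y ^ (-(4 : ℝ)) * y ^ (4 : ℝ)) := by ring
        rw [e8, e6, mul_one] at h7
        linarith
      have h7 : y ^ (4 : ℝ) ≤ y ^ (4 - 2 * x1) :=
        Real.rpow_le_rpow_of_exponent_ge y0 y1 (by linarith)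
      rw [e1, e2, e3]
      linarith
  obtain ⟨E, hE, h⟩ := (mem_nhdsGT_iff_exists_Ioc_subset.1 hev)
  exact ⟨E, hE, fun y h1 h2 => h ⟨h1, h2⟩⟩

/-- the size of the typical value -/
lemma del_le {x1 y e1 : ℝ} (hx : 0 < x1) (hx1 : x1 ≤ 1) (hy : 0 < y) (hy1 : y ≤ 1) (he : 0 < e1)
    (h : e1 ≤ y ^ (2 - x1 / 10)) : e1 ^ (1 - x1 / 8) ≤ y ^ (2 - x1 / 2) := by
  calc e1 ^ (1 - x1 / 8) ≤ (y ^ (2 - x1 / 10)) ^ (1 - x1 / 8) :=
        Real.rpow_le_rpow he.le h (by linarith)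
    _ = y ^ ((2 - x1 / 10) * (1 - x1 / 8)) := by rw [← Real.rpow_mul hy.le]
    _ ≤ y ^ (2 - x1 / 2) := Real.rpow_le_rpow_of_exponent_ge hy hy1 (by nlinarith)

/-- **the field `typ` of `P6h`** at a state, from `RfV` of the second run -/
theorem typ_st {P P' : Par} {b an c c1 : ℝ} {n : ℕ} {ε y e1 : ℝ} {r1 j : ℕ}
    [NeZero (2 ^ r1 / 2 ^ j)] (hb : 0 < b) (hR : RfV P' b c1 (P.x1 / 8)) (hx : 0 < P.x1)
    (hx1 : P.x1 ≤ 1) (hpf : P.pf = 9 / 10) (hc1 : 0 < c1)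
    (h : Base P P' b an c n ε y e1 r1) {CW : ℝ} (hN : Nt P.x1 P'.th CW y) (hεy : ε ≤ y)
    (ha1 : 11 / 10 ≤ an) (ha2 : an ≤ 159 / 100) (he1 : e1 ≤ y ^ (2 - P.x1 / 10))
    (hj : j ≤ P'.sE n e1) (hnj : n ≤ 2 * j) (hnj2 : ((n : ℝ) - j) ≤ ε ^ (-(2 * c1)))
    (hW : ((2 ^ r1 / 2 ^ j : ℕ) : ℝ) ^ 2 ≤ y ^ (-CW)) :
    ∀ G : V (2 ^ r1 / 2 ^ j) → ℝ, tn n * ((2 ^ j : ℕ) : ℝ) ^ 2 * ∑ x, G x ^ 2 ≤ 1 →
      ∫ g, Rcl (2 ^ r1) (2 ^ j) b (tn n) (tn n)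
        (pin (acl (2 ^ r1) (2 ^ j) b (tn n) (tn n)) *ᵥ g + G) ^ 2
          ∂(gau (V (2 ^ r1 / 2 ^ j))) ≤ (y ^ (2 - P.x1)) ^ 2 := by
  obtain ⟨τ, a', t1, t2, hd, hG⟩ := h.gp
  have hGP := hG e1 le_rfl h.e1es
  have hy := h.y0
  have hy1 := h.y1
  have he0 := h.e10
  have hT : 0 < tn n := tn_pos n
  -- the stiffness
  have k1 : 72 * ε ^ P.pf ≤ 1 / 100 := by
    rw [hpf]
    have h1 : ε ^ (9 / 10 : ℝ) ≤ y ^ (9 / 10 : ℝ) :=
      Real.rpow_le_rpow h.ε0.le hεy (by norm_num)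
    have h2 := hN.n1
    linarith
  have k2 := abs_le.1 hd
  have hF : H972.FL b (tn n) a' (17 * e1 ^ P'.pf) (2 ^ r1) := by
    refine H972.FL.mono hT (hGP.flat r1 h.tt').1 ?_
    rw [sub_self, abs_zero, zero_add]
    have := Real.rpow_pos_of_pos he0 P'.pf
    linarith
  have hns : ((n : ℝ) - j) ≤ e1 ^ (-(2 * c1)) :=
    hnj2.trans (Real.rpow_le_rpow_of_nonpos he0 h.e1ε (by linarith))
  have hjr : j ≤ r1 := by
    have h1 : P'.sE n e1 = n - H972.lg P'.C0 e1 := rfl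
    have h2 := h.er1
    omega
  have hTy := fun a (ha : 0 < a) (haT : a < tn n) =>
    hR n e1 τ a' he0 h.e1es t1 t2 hGP a' (by linarith) (by linarith) r1 h.tt' hF j hj hnj hns a ha
      haT
  -- the probability
  have hu : Real.exp (-(e1 ^ (-(P'.th / 40)))) ≤ Real.exp (-(y ^ (-(P'.th / 40)))) := by
    refine Real.exp_le_exp.2 (neg_le_neg ?_)
    refine Real.rpow_le_rpow_of_nonpos he0 ?_ (by linarith [P'.th0])
    refine he1.trans ?_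
    calc y ^ (2 - P.x1 / 10) ≤ y ^ (1 : ℝ) :=
          Real.rpow_le_rpow_of_exponent_ge hy hy1 (by linarith)
      _ = y := Real.rpow_one y
  have hδ := del_le hx hx1 hy hy1 he0 he1
  have hδ0 : 0 < e1 ^ (1 - P.x1 / 8) := Real.rpow_pos_of_pos he0 _
  have hδ1 : e1 ^ (1 - P.x1 / 8) ≤ 1 :=
    hδ.trans (Real.rpow_le_one hy.le hy1 (by linarith))
  have hl : 2 ^ j ∣ 2 ^ r1 := pow_dvd_pow 2 hjr
  have hq := typ_prob (N := 2 ^ r1) (l := 2 ^ j) hb hl hT hδ1 (hu.trans hN.n2) hTy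
  have hW1 : 1 ≤ y ^ (-CW) := by
    refine le_trans ?_ hW
    have h1 : (1 : ℝ) ≤ ((2 ^ r1 / 2 ^ j : ℕ) : ℝ) := by
      exact_mod_cast Nat.one_le_iff_ne_zero.2 (NeZero.ne (2 ^ r1 / 2 ^ j))
    nlinarith
  refine typ_of hb.le hl hT (H358.nf_aclT hb hl hT) hδ0.le hW1 hW
    (hq.trans (mul_le_mul_of_nonneg_left hu (by norm_num))) ?_
  refine le_trans ?_ hN.n3
  have h1 : (e1 ^ (1 - P.x1 / 8)) ^ 2 ≤ y ^ (4 - P.x1) := by
    have h2 := pow_le_pow_left₀ hδ0.le hδ 2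
    refine h2.trans (le_of_eq ?_)
    rw [← Real.rpow_natCast, ← Real.rpow_mul hy.le]
    congr 1
    push_cast
    ring
  linarith

/-- **the field `typ` of `P6h`, final form** -/
theorem typ_ev {b b1 b2 : ℝ} (hb1 : 0 < b1) (h1 : b1 ≤ b) (Q : ℕ) :
    Two.Ev2 b1 b2 (9 / 10) Q fun P P' c1 => ∀ CW : ℝ, ∃ E : ℝ, 0 < E ∧
      ∀ (an c : ℝ) (n : ℕ) (ε y e1 : ℝ) (r1 j : ℕ) [NeZero (2 ^ r1 / 2 ^ j)],
        Base P P' b an c n ε y e1 r1 → y ≤ E → ε ≤ y → 11 / 10 ≤ an → an ≤ 159 / 100 →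
        e1 ≤ y ^ (2 - P.x1 / 10) → j ≤ P'.sE n e1 → n ≤ 2 * j → ((n : ℝ) - j) ≤ ε ^ (-(2 * c1)) →
        ((2 ^ r1 / 2 ^ j : ℕ) : ℝ) ^ 2 ≤ y ^ (-CW) →
        ∀ G : V (2 ^ r1 / 2 ^ j) → ℝ, tn n * ((2 ^ j : ℕ) : ℝ) ^ 2 * ∑ x, G x ^ 2 ≤ 1 →
          ∫ g, Rcl (2 ^ r1) (2 ^ j) b (tn n) (tn n)
            (pin (acl (2 ^ r1) (2 ^ j) b (tn n) (tn n)) *ᵥ g + G) ^ 2
              ∂(gau (V (2 ^ r1 / 2 ^ j))) ≤ (y ^ (2 - P.x1)) ^ 2 := by
  have hb : 0 < b := hb1.trans_le h1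
  have hA : Two.Ev2 b1 b2 (9 / 10) Q fun P P' c1 => RfV P' b c1 (P.x1 / 8) :=
    Two.Ev.to2x (F := fun x1 P c1 => RfV P b c1 (x1 / 8)) fun x1 hx1 =>
      ev_rf hb1 h1 (by norm_num) Q (by positivity)
  have hB : Two.Ev2 b1 b2 (9 / 10) Q fun P P' _ => P.x1 ≤ 1 ∧ P'.x1 ≤ 1 :=
    Two.Ev2.x1_le (g := fun _ => 1) one_pos fun _ _ => one_pos
  refine (hA.and hB).mono fun P P' c1 hPQ hc1 hT CW => ?_
  obtain ⟨E, hE, hN⟩ := nt_ex hPQ.x1 P'.th0 CW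
  refine ⟨E, hE, fun an c n ε y e1 r1 j _ hBs hyE hεy ha1 ha2 he1 hj hnj hns hW => ?_⟩
  exact typ_st hb hT.1 hPQ.x1 hT.2.1 hPQ.epf hc1 hBs (hN y hBs.y0 hyE) hεy ha1 ha2 he1 hj hnj hns hW

end

end Vale.Agent.P159.H846.Ra
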