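import Vale.Agent.P159.H801.ParEv

/-!
P159, MASTER (helper846): **two sets of parameters at once** (helper462's row 6187, helper801's
order of constants). `Ev2` : first `W, ys, X0, x1` of `P`, then `W, ys, X0, x1` of `P'` (these may
depend on `x1` of `P`), then common `thp, th, C0, c1, E` with `thp' = k thp`, `th' = k th`,
`C0' = k C0` and `es = es' ^ k`. Then all scales of `P` at the size `e ^ k` are the scales of `P'`
at the size `e`.

* `Ev2.left`, `Ev2.right` : properties of one of the two sets;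
* `Ev2.and`, `Ev2.mono`, `Ev2.exists`;
* `PP.kE`, `PP.w`, `PP.sE` : the dictionary.
-/

set_option linter.unusedSectionVars false

namespace Vale.Agent.P159.H846

open Filter Topology
open Vale.Agent.P159.H972 (Par lg)
open Vale.Agent.P159.H801 (Ev PS ev_le ps_exists)

/-- a pair of parameters with the same scales, `e ^ k` for `P`, `e` for `P'` -/
structure PP (k : ℝ) (P P' : Par) : Prop where
  adm : P.Adm
  adm' : P'.Adm
  th : P'.th = k * P.th
  thp : P'.thp = k * P.thp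
  C0 : P'.C0 = k * P.C0
  es : P.es = P'.es ^ k

/-- the order of constants for two sets of parameters -/
def Ev2 (b1 b2 pf pf' : ℝ) (Q Q' : ℕ) (k : ℝ) (F : Par → Par → ℝ → Prop) : Prop :=
  ∀ᶠ W in (atTop : Filter ℝ), ∀ᶠ ys in 𝓝[>] (0 : ℝ), ∀ᶠ X0 in (atTop : Filter ℕ),
    ∀ᶠ x1 in 𝓝[>] (0 : ℝ), ∀ᶠ W' in (atTop : Filter ℝ), ∀ᶠ ys' in 𝓝[>] (0 : ℝ),
    ∀ᶠ X0' in (atTop : Filter ℕ), ∀ᶠ x1' in 𝓝[>] (0 : ℝ), ∀ᶠ thp in 𝓝[>] (0 : ℝ),
    ∀ᶠ th in 𝓝[>] (0 : ℝ), ∀ᶠ C0 in (atTop : Filter ℝ), ∀ᶠ c1 in 𝓝[>] (0 : ℝ),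
    ∀ᶠ E in 𝓝[>] (0 : ℝ), ∀ P P' : Par, PS b1 b2 pf Q W ys X0 x1 thp th C0 E P →
      PS b1 b2 pf' Q' W' ys' X0' x1' (k * thp) (k * th) (k * C0) E P' → P.es = P'.es ^ k →
      F P P' c1

variable {b1 b2 pf pf' k : ℝ} {Q Q' : ℕ} {F G : Par → Par → ℝ → Prop}

theorem Ev2.and (hF : Ev2 b1 b2 pf pf' Q Q' k F) (hG : Ev2 b1 b2 pf pf' Q Q' k G) :
    Ev2 b1 b2 pf pf' Q Q' k fun P P' c1 => F P P' c1 ∧ G P P' c1 := by
  unfold Ev2 at *
  filter_upwards [hF, hG] with W hF hG
  filter_upwards [hF, hG] with ys hF hG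
  filter_upwards [hF, hG] with X0 hF hG
  filter_upwards [hF, hG] with x1 hF hG
  filter_upwards [hF, hG] with W' hF hG
  filter_upwards [hF, hG] with ys' hF hG
  filter_upwards [hF, hG] with X0' hF hG
  filter_upwards [hF, hG] with x1' hF hG
  filter_upwards [hF, hG] with thp hF hG
  filter_upwards [hF, hG] with th hF hG
  filter_upwards [hF, hG] with C0 hF hG
  filter_upwards [hF, hG] with c1 hF hG
  filter_upwards [hF, hG] with E hF hG P P' h1 h2 h3
  exact ⟨hF P P' h1 h2 h3, hG P P' h1 h2 h3⟩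

/-- consequences -/
theorem Ev2.mono (hF : Ev2 b1 b2 pf pf' Q Q' k F)
    (h : ∀ P P' c1, PP k P P' → P.b1 = b1 → P.b2 = b2 → P'.b1 = b1 → P'.b2 = b2 → P.pf = pf →
      P'.pf = pf' → F P P' c1 → G P P' c1) : Ev2 b1 b2 pf pf' Q Q' k G := by
  unfold Ev2 at *
  filter_upwards [hF] with W hF
  filter_upwards [hF] with ys hF
  filter_upwards [hF] with X0 hF
  filter_upwards [hF] with x1 hF
  filter_upwards [hF] with W' hF
  filter_upwards [hF] with ys' hF
  filter_upwards [hF] with X0' hF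
  filter_upwards [hF] with x1' hF
  filter_upwards [hF] with thp hF
  filter_upwards [hF] with th hF
  filter_upwards [hF] with C0 hF
  filter_upwards [hF] with c1 hF
  filter_upwards [hF] with E hF P P' h1 h2 h3
  exact h P P' c1 ⟨h1.adm, h2.adm, by rw [h2.eth, h1.eth], by rw [h2.ethp, h1.ethp],
    by rw [h2.eC0, h1.eC0], h3⟩ h1.eb1 h1.eb2 h2.eb1 h2.eb2 h1.epf h2.epf (hF P P' h1 h2 h3)

/-- a property of the first set -/
theorem Ev2.left {F : Par → ℝ → Prop} (h : Ev b1 b2 pf Q F) :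
    Ev2 b1 b2 pf pf' Q Q' k fun P _ c1 => F P c1 := by
  unfold Ev at h
  unfold Ev2
  filter_upwards [h] with W h
  filter_upwards [h] with ys h
  filter_upwards [h] with X0 h
  filter_upwards [h] with x1 h
  refine Eventually.of_forall fun W' => Eventually.of_forall fun ys' =>
    Eventually.of_forall fun X0' => Eventually.of_forall fun x1' => ?_
  filter_upwards [h] with thp h
  filter_upwards [h] with th h
  filter_upwards [h] with C0 h
  filter_upwards [h] with c1 h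
  filter_upwards [h] with E h P P' h1 _ _
  exact h P h1

lemma tendsto_kmul (hk : 0 < k) : Tendsto (fun t : ℝ => k * t) (𝓝[>] 0) (𝓝[>] 0) := by
  rw [tendsto_nhdsWithin_iff]
  constructor
  · have h1 : Tendsto (fun t : ℝ => k * t) (𝓝 0) (𝓝 (k * 0)) := tendsto_id.const_mul k
    rw [mul_zero] at h1
    exact h1.mono_left nhdsWithin_le_nhds
  · filter_upwards [self_mem_nhdsWithin] with t ht
    exact mul_pos hk ht

/-- a property of the second set, depending on `x1` of the first one -/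
theorem Ev2.right (hk : 0 < k) {F : ℝ → Par → ℝ → Prop}
    (h : ∀ x1, 0 < x1 → Ev b1 b2 pf' Q' (F x1)) :
    Ev2 b1 b2 pf pf' Q Q' k fun P P' c1 => F P.x1 P' c1 := by
  unfold Ev2
  refine Eventually.of_forall fun W => Eventually.of_forall fun ys =>
    Eventually.of_forall fun X0 => ?_
  filter_upwards [self_mem_nhdsWithin] with x1 hx1
  have h := h x1 hx1
  unfold Ev at h
  have hkC : Tendsto (fun C : ℝ => k * C) atTop atTop := tendsto_id.const_mul_atTop hk
  filter_upwards [h] with W' h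
  filter_upwards [h] with ys' h
  filter_upwards [h] with X0' h
  filter_upwards [h] with x1' h
  filter_upwards [(tendsto_kmul hk).eventually h] with thp h
  filter_upwards [(tendsto_kmul hk).eventually h] with th h
  filter_upwards [hkC.eventually h] with C0 h
  filter_upwards [h] with c1 h
  filter_upwards [h] with E h P P' h1 h2 _
  rw [h1.ex1]
  exact h P' h2

/-- the constant property -/
theorem Ev2.of_forall (h : ∀ P P' c1, PP k P P' → F P P' c1) : Ev2 b1 b2 pf pf' Q Q' k F := by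
  unfold Ev2
  refine Eventually.of_forall fun W => Eventually.of_forall fun ys =>
    Eventually.of_forall fun X0 => Eventually.of_forall fun x1 =>
    Eventually.of_forall fun W' => Eventually.of_forall fun ys' =>
    Eventually.of_forall fun X0' => Eventually.of_forall fun x1' =>
    Eventually.of_forall fun thp => Eventually.of_forall fun th =>
    Eventually.of_forall fun C0 => Eventually.of_forall fun c1 =>
    Eventually.of_forall fun E => fun P P' h1 h2 h3 => ?_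
  exact h P P' c1 ⟨h1.adm, h2.adm, by rw [h2.eth, h1.eth], by rw [h2.ethp, h1.ethp],
    by rw [h2.eC0, h1.eC0], h3⟩

/-- the second exponent is as small as wanted against the first one -/
theorem Ev2.x1_le {g : ℝ → ℝ} (hg : ∀ x, 0 < x → 0 < g x) :
    Ev2 b1 b2 pf pf' Q Q' k fun P P' _ => P'.x1 ≤ g P.x1 ∧ 0 < P.x1 ∧ 0 < P'.x1 := by
  unfold Ev2
  refine Eventually.of_forall fun W => Eventually.of_forall fun ys =>
    Eventually.of_forall fun X0 => ?_
  filter_upwards [self_mem_nhdsWithin] with x1 hx1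
  refine Eventually.of_forall fun W' => Eventually.of_forall fun ys' =>
    Eventually.of_forall fun X0' => ?_
  filter_upwards [ev_le (hg x1 hx1)] with x1' hx1'
  refine Eventually.of_forall fun thp => Eventually.of_forall fun th =>
    Eventually.of_forall fun C0 => Eventually.of_forall fun c1 =>
    Eventually.of_forall fun E => fun P P' h1 h2 h3 => ?_
  rw [h1.ex1, h2.ex1]
  exact ⟨hx1'.2, hx1, hx1'.1⟩

lemma PS.cut' {b1 b2 pf W ys x1 thp th C0 E E' : ℝ} {Q X0 : ℕ} {P : Par}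
    (h : PS b1 b2 pf Q W ys X0 x1 thp th C0 E P) (hE : 0 < E') :
    PS b1 b2 pf Q W ys X0 x1 thp th C0 E (P.cut E' hE) where
  adm := h.adm.cut hE
  eth := h.eth
  ethp := h.ethp
  ex1 := h.ex1
  eC0 := h.eC0
  epf := h.epf
  eb1 := h.eb1
  eb2 := h.eb2
  eW := h.eW
  eys := h.eys
  eX0 := h.eX0
  eq0 := h.eq0
  ees := (min_le_left _ _).trans h.ees

/-- **a pair of parameters exists** -/
theorem Ev2.exists (h : Ev2 b1 b2 pf pf' Q Q' k F) (hk : 0 < k) (hk1 : k ≤ 1) (hpf : 0 < pf)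
    (hpf1 : pf ≤ 1) (hpf' : 0 < pf') (hpf1' : pf' ≤ 1) :
    ∃ (P P' : Par) (c1 : ℝ), PP k P P' ∧ P.pf = pf ∧ P'.pf = pf' ∧ P.b1 = b1 ∧ P.b2 = b2 ∧
      P'.b1 = b1 ∧ P'.b2 = b2 ∧ 0 < c1 ∧ F P P' c1 := by
  unfold Ev2 at h
  obtain ⟨W, h⟩ := Filter.Eventually.exists h
  obtain ⟨ys, h⟩ := h.exists
  obtain ⟨X0, h⟩ := h.exists
  obtain ⟨x1, h, hx0, hx1⟩ := (h.and (ev_le one_pos)).exists
  obtain ⟨W', h⟩ := Filter.Eventually.exists h
  obtain ⟨ys', h⟩ := h.exists
  obtain ⟨X0', h⟩ := h.exists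
  obtain ⟨x1', h, hx0', hx1'⟩ := (h.and (ev_le one_pos)).exists
  obtain ⟨thp, h, ht0, ht1⟩ := (h.and (ev_le (show 0 < min x1 x1' / 200 by positivity))).exists
  obtain ⟨th, h, hs0, hs1⟩ := (h.and (ev_le ht0)).exists
  obtain ⟨C0, h, hC⟩ := (h.and (eventually_ge_atTop (1 : ℝ))).exists
  obtain ⟨c1, h, hc0, -⟩ := (h.and (ev_le one_pos)).exists
  obtain ⟨E, h, hE, -⟩ := (h.and (ev_le one_pos)).exists
  have hm1 : min x1 x1' ≤ x1 := min_le_left _ _
  have hm2 : min x1 x1' ≤ x1' := min_le_right _ _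
  obtain ⟨P, hP⟩ := ps_exists (b1 := b1) (b2 := b2) (pf := pf) (Q := Q) (W := W) (ys := ys)
    (X0 := X0) hpf hpf1 hs0 hs1 (by linarith) hx1 (by linarith) (by linarith : 0 < C0) hE
  have hkt : k * thp ≤ thp := by nlinarith
  have hks : k * th ≤ k * thp := mul_le_mul_of_nonneg_left hs1 hk.le
  obtain ⟨P', hP'⟩ := ps_exists (b1 := b1) (b2 := b2) (pf := pf') (Q := Q') (W := W')
    (ys := ys') (X0 := X0') hpf' hpf1' (mul_pos hk hs0) hks (by linarith) hx1' (by linarith)
    (mul_pos hk (by linarith : 0 < C0)) hE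
  have he0 : 0 < P.es ^ (1 / k) := Real.rpow_pos_of_pos P.es0 _
  set e' : ℝ := min P'.es (P.es ^ (1 / k)) with he'
  have he1 : 0 < e' := lt_min P'.es0 he0
  have he2 : 0 < e' ^ k := Real.rpow_pos_of_pos he1 _
  have he3 : e' ^ k ≤ P.es := by
    calc e' ^ k ≤ (P.es ^ (1 / k)) ^ k := Real.rpow_le_rpow he1.le (min_le_right _ _) hk.le
      _ = P.es := by
          rw [← Real.rpow_mul P.es0.le, one_div_mul_cancel hk.ne', Real.rpow_one]
  have hQ := PS.cut' hP he2
  have hQ' := PS.cut' hP' he1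
  have hes : (P.cut (e' ^ k) he2).es = (P'.cut e' he1).es ^ k := by
    rw [H972.cut_es, H972.cut_es, min_eq_right he3, min_eq_right (min_le_left _ _)]
  exact ⟨P.cut (e' ^ k) he2, P'.cut e' he1, c1,
    ⟨hQ.adm, hQ'.adm, by rw [hQ'.eth, hQ.eth], by rw [hQ'.ethp, hQ.ethp],
      by rw [hQ'.eC0, hQ.eC0], hes⟩, hQ.epf, hQ'.epf, hQ.eb1, hQ.eb2, hQ'.eb1, hQ'.eb2, hc0,
    h _ _ hQ hQ' hes⟩

/-! ### the dictionary -/

lemma lg_pow {c e : ℝ} (he : 0 < e) : lg c (e ^ k) = lg (k * c) e := by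
  unfold H972.lg
  have h1 : 1 / e ^ k = (1 / e) ^ k := by
    rw [Real.div_rpow zero_le_one he.le, Real.one_rpow]
  rw [h1, Real.logb_rpow_eq_mul_logb_of_pos (by positivity)]
  congr 1
  ring

section dict

variable {P P' : Par} {e : ℝ}

lemma PP.kE (h : PP k P P') (he : 0 < e) : P.kE (e ^ k) = P'.kE e := by
  unfold H972.Par.kE
  rw [lg_pow he, h.th]

lemma PP.w (h : PP k P P') (he : 0 < e) : P.w (e ^ k) = P'.w e := by
  unfold H972.Par.w
  rw [lg_pow he, h.thp]

lemma PP.lgC0 (h : PP k P P') (he : 0 < e) : lg P.C0 (e ^ k) = lg P'.C0 e := by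
  rw [lg_pow he, h.C0]

lemma PP.sE (h : PP k P P') (he : 0 < e) (n : ℕ) : P.sE n (e ^ k) = P'.sE n e := by
  unfold H972.Par.sE
  rw [h.lgC0 he]

/-- the sizes of the two states -/
lemma PP.es_iff (h : PP k P P') (hk : 0 < k) (he : 0 < e) : e ^ k ≤ P.es ↔ e ≤ P'.es := by
  rw [h.es]
  exact Real.rpow_le_rpow_iff he.le P'.es0.le hk

end dict

end Vale.Agent.P159.H846
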