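import Vale.Agent.P159.H813.Flat2

/-!
P159, module PROF (helper846): helper813's `flat2` for kernels with the reflection symmetry. The
transform along a line is written with product cosines, so that no mixed second moment appears
(for even `N` the mixed moment of a reflection symmetric kernel does not vanish: antipodal row).
Everything else is helper813's proof.
-/

set_option linter.unusedSectionVars false

namespace Vale.Agent.P159.H846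

open Finset
open Vale.Agent.P159.TM.H764
open Vale.Agent.P159.H813

noncomputable section

variable {N : ℕ} [NeZero N]

/-- the transform along the line `t θ`, product form -/
def Gp (w : ZMod N × ZMod N → ℝ) (θ : ℝ × ℝ) (t : ℂ) : ℂ :=
  ∑ x, (w x : ℂ) * (Complex.cos (t * ((θ.1 * r1 x : ℝ) : ℂ)) *
    Complex.cos (t * ((θ.2 * r2 x : ℝ) : ℂ)))

/-- real version -/
def gP (w : ZMod N × ZMod N → ℝ) (θ : ℝ × ℝ) (t : ℝ) : ℝ :=
  ∑ x, w x * (Real.cos (t * (θ.1 * r1 x)) * Real.cos (t * (θ.2 * r2 x)))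

lemma Gp_ofReal (w : ZMod N × ZMod N → ℝ) (θ : ℝ × ℝ) (t : ℝ) :
    Gp w θ (t : ℂ) = ((gP w θ t : ℝ) : ℂ) := by
  unfold Gp gP
  rw [Complex.ofReal_sum]
  refine sum_congr rfl fun x _ => ?_
  push_cast
  rfl

lemma Gp_even (w : ZMod N × ZMod N → ℝ) (θ : ℝ × ℝ) (t : ℂ) : Gp w θ (-t) = Gp w θ t := by
  unfold Gp
  refine sum_congr rfl fun x _ => ?_
  rw [neg_mul, Complex.cos_neg, neg_mul, Complex.cos_neg]

lemma Gp_diff (w : ZMod N × ZMod N → ℝ) (θ : ℝ × ℝ) : Differentiable ℂ (Gp w θ) := by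
  unfold Gp
  refine Differentiable.fun_sum fun x _ => ?_
  fun_prop

lemma gP_zero (w : ZMod N × ZMod N → ℝ) (θ : ℝ × ℝ) : gP w θ 0 = Gh w 0 := by
  unfold gP
  rw [Gh_zero]
  refine sum_congr rfl fun x _ => ?_
  simp

lemma cN_mul_nat (m : ℕ) (a z : ZMod N) :
    cN ((m : ZMod N) * a * z) = Real.cos (m * (pw a * (z.valMinAbs : ℝ))) := by
  have h : (m : ZMod N) * a * z = (((m : ℤ) * (a.valMinAbs * z.valMinAbs) : ℤ) : ZMod N) := by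
    push_cast
    ring
  rw [h, cN_int]
  congr 1
  unfold pw
  push_cast
  ring

lemma gP_nk {w : ZMod N × ZMod N → ℝ} (hr : ∀ z : ZMod N × ZMod N, w (-z.1, z.2) = w z) (m : ℕ)
    (p : ZMod N × ZMod N) : gP w (pv p) m = Gh w (nk m p) := by
  rw [Gh_prod w hr]
  unfold gP
  refine sum_congr rfl fun x _ => ?_
  have e1 : cN ((nk m p).1 * x.1) = Real.cos (m * ((pv p).1 * r1 x)) := cN_mul_nat m p.1 x.1
  have e2 : cN ((nk m p).2 * x.2) = Real.cos (m * ((pv p).2 * r2 x)) := cN_mul_nat m p.2 x.2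
  rw [e1, e2]

lemma Gp_bound {w : ZMod N × ZMod N → ℝ} {S A ϑ : ℝ} {θ : ℝ × ℝ}
    (hA : ∑ x, |w x| * Real.exp (S * (|r1 x| + |r2 x|)) ≤ A)
    (h1 : |θ.1| ≤ ϑ) (h2 : |θ.2| ≤ ϑ) {t : ℂ} (ht : ‖t‖ * ϑ ≤ S) : ‖Gp w θ t‖ ≤ A := by
  refine le_trans ?_ hA
  unfold Gp
  refine (norm_sum_le _ _).trans (sum_le_sum fun x _ => ?_)
  rw [norm_mul, Complex.norm_real, Real.norm_eq_abs, norm_mul]
  refine mul_le_mul_of_nonneg_left ?_ (abs_nonneg _)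
  have key : ∀ a r : ℝ, |a| ≤ ϑ → ‖Complex.cos (t * ((a * r : ℝ) : ℂ))‖ ≤ Real.exp (S * |r|) := by
    intro a r ha
    refine (norm_cos_le _).trans (Real.exp_le_exp.2 ?_)
    refine (Complex.abs_im_le_norm _).trans ?_
    rw [norm_mul, Complex.norm_real, Real.norm_eq_abs, abs_mul]
    calc ‖t‖ * (|a| * |r|) ≤ ‖t‖ * (ϑ * |r|) :=
          mul_le_mul_of_nonneg_left (mul_le_mul_of_nonneg_right ha (abs_nonneg _)) (norm_nonneg _)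
      _ = (‖t‖ * ϑ) * |r| := by ring
      _ ≤ S * |r| := mul_le_mul_of_nonneg_right ht (abs_nonneg _)
  calc _ ≤ Real.exp (S * |r1 x|) * Real.exp (S * |r2 x|) :=
        mul_le_mul (key _ _ h1) (key _ _ h2) (norm_nonneg _) (Real.exp_pos _).le
    _ = Real.exp (S * (|r1 x| + |r2 x|)) := by rw [← Real.exp_add]; congr 1; ring

/-- no zero in a disc -/
lemma Gp_low {w : ZMod N × ZMod N → ℝ} {S A ϑ c ρ : ℝ} {θ : ℝ × ℝ} (hS : 0 < S) (hc : 0 < c)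
    (hA : ∑ x, |w x| * Real.exp (S * (|r1 x| + |r2 x|)) ≤ A) (h0 : c ≤ Gh w 0)
    (hϑ : 0 < ϑ) (h1 : |θ.1| ≤ ϑ) (h2 : |θ.2| ≤ ϑ) (_hρ0 : 0 < ρ)
    (hρ : 4 * A * ρ ^ 2 ≤ c * S ^ 2) {t : ℂ} (ht : ‖t‖ * ϑ ≤ ρ) : c / 2 ≤ ‖Gp w θ t‖ := by
  have hG0 : Gp w θ 0 = ((Gh w 0 : ℝ) : ℂ) := by
    have := Gp_ofReal w θ 0
    rw [Complex.ofReal_zero, gP_zero] at this
    exact this
  have hcA : c ≤ A := by
    have h3 : ‖Gp w θ 0‖ ≤ A := Gp_bound hA h1 h2 (by simpa using hS.le)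
    rw [hG0, Complex.norm_real] at h3
    exact h0.trans ((le_abs_self _).trans h3)
  have hA0 : 0 < A := by linarith
  have hρS : ρ ≤ S / 2 := by
    have h3 : (2 * ρ) ^ 2 ≤ S ^ 2 := by
      have : A * (2 * ρ) ^ 2 ≤ A * S ^ 2 := by nlinarith [sq_nonneg S]
      exact le_of_mul_le_mul_left this hA0
    have h4 := abs_le_of_sq_le_sq h3 hS.le
    have := abs_le.1 (abs_le_of_sq_le_sq h3 hS.le)
    linarith [le_abs_self (2 * ρ)]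
  have htS : ‖t‖ ≤ (S / ϑ) / 2 := by
    rw [div_div, le_div_iff₀ (by positivity)]
    linarith
  have hd : DifferentiableOn ℂ (fun z => Gp w θ z - Gp w θ 0) (Metric.ball 0 (2 * (S / ϑ))) :=
    ((Gp_diff w θ).sub (differentiable_const _)).differentiableOn
  have h3 : ∀ z : ℂ, ‖z‖ ≤ S / ϑ → ‖Gp w θ z‖ ≤ A := by
    intro z hz
    refine Gp_bound hA h1 h2 ?_
    rwa [le_div_iff₀ hϑ] at hz
  have h := taylor_tail (F := Gp w θ) (r := 2 * (S / ϑ)) (ρ := S / ϑ) (B := A) (by positivity)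
    (by have : 0 < S / ϑ := by positivity
        linarith) (Gp_diff w θ).differentiableOn h3 2 htS
  have hodd : tc (Gp w θ) 1 = 0 := tc_odd (Gp_even w θ) (by decide)
  rw [Finset.sum_range_succ, Finset.sum_range_one, tc_zero, hodd] at h
  simp only [pow_zero, mul_one, pow_one, zero_mul, add_zero] at h
  have h5 : 2 * A * (‖t‖ / (S / ϑ)) ^ 2 ≤ c / 2 := by
    have e : ‖t‖ / (S / ϑ) = (‖t‖ * ϑ) / S := by field_simp
    rw [e, div_pow, mul_div_assoc', div_le_iff₀ (by positivity)]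
    have h6 : (‖t‖ * ϑ) ^ 2 ≤ ρ ^ 2 := pow_le_pow_left₀ (by positivity) ht 2
    nlinarith
  have h7 : ‖Gp w θ 0‖ ≤ ‖Gp w θ t‖ + ‖Gp w θ t - Gp w θ 0‖ := by
    have : Gp w θ 0 = Gp w θ t - (Gp w θ t - Gp w θ 0) := by ring
    conv_lhs => rw [this]
    exact norm_sub_le _ _
  rw [hG0] at h7 h
  rw [Complex.norm_real, Real.norm_eq_abs] at h7
  have h8 := le_abs_self (Gh w 0)
  linarith

/-! ### the second order coefficient -/

/-- weight of the second order -/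
def l2 (θ : ℝ × ℝ) (x : ZMod N × ZMod N) : ℝ := (θ.1 * r1 x) ^ 2 + (θ.2 * r2 x) ^ 2

omit [NeZero N] in
lemma cos_prod4 (u v : ℝ) :
    |Real.cos u * Real.cos v - 1 + (u ^ 2 + v ^ 2) / 2| ≤ (u ^ 2 + v ^ 2) ^ 2 / 2 := by
  have h1 := abs_le.1 (cos4 u)
  have h2 := abs_le.1 (cos4 v)
  have h3 := (sq_cos u).1
  have h4 := (sq_cos v).1
  have h5 : 0 ≤ 1 - Real.cos u := by linarith [Real.cos_le_one u]
  have h6 : 0 ≤ 1 - Real.cos v := by linarith [Real.cos_le_one v]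
  have h7 : 0 ≤ (1 - Real.cos u) * (1 - Real.cos v) := mul_nonneg h5 h6
  have h8 : (1 - Real.cos u) * (1 - Real.cos v) ≤ (u ^ 2 / 2) * (v ^ 2 / 2) :=
    mul_le_mul (by linarith) (by linarith) h6 (by positivity)
  have e : Real.cos u * Real.cos v - 1 + (u ^ 2 + v ^ 2) / 2 = (Real.cos u - 1 + u ^ 2 / 2) +
      (Real.cos v - 1 + v ^ 2 / 2) + (1 - Real.cos u) * (1 - Real.cos v) := by ring
  have e2 : (u ^ 2 + v ^ 2) ^ 2 / 2 = u ^ 4 / 2 + v ^ 4 / 2 + u ^ 2 * v ^ 2 := by ring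
  rw [e, e2, abs_le]
  have h9 : 0 ≤ u ^ 2 * v ^ 2 := by positivity
  constructor
  · linarith [h1.1, h2.1]
  · have : (u ^ 2 / 2) * (v ^ 2 / 2) = u ^ 2 * v ^ 2 / 4 := by ring
    linarith [h1.2, h2.2]

lemma gP_quart (w : ZMod N × ZMod N → ℝ) (θ : ℝ × ℝ) (t : ℝ) :
    |gP w θ t - Gh w 0 + (∑ x, w x * l2 θ x) / 2 * t ^ 2| ≤
      (∑ x, |w x| * l2 θ x ^ 2) / 2 * t ^ 4 := by
  have e : gP w θ t - Gh w 0 + (∑ x, w x * l2 θ x) / 2 * t ^ 2 =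
      ∑ x, w x * (Real.cos (t * (θ.1 * r1 x)) * Real.cos (t * (θ.2 * r2 x)) - 1 +
        ((t * (θ.1 * r1 x)) ^ 2 + (t * (θ.2 * r2 x)) ^ 2) / 2) := by
    unfold gP l2
    rw [Gh_zero, sum_div, sum_mul, ← sum_sub_distrib, ← sum_add_distrib]
    refine sum_congr rfl fun x _ => ?_
    ring
  rw [e, sum_div, sum_mul]
  refine (abs_sum_le_sum_abs _ _).trans (sum_le_sum fun x _ => ?_)
  rw [abs_mul]
  calc _ ≤ |w x| * (((t * (θ.1 * r1 x)) ^ 2 + (t * (θ.2 * r2 x)) ^ 2) ^ 2 / 2) :=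
        mul_le_mul_of_nonneg_left (cos_prod4 _ _) (abs_nonneg _)
    _ = _ := by unfold l2; ring

/-! ### the main estimate along a line -/

/-- mass of the second moment along a line -/
lemma l2_sum {w : ZMod N × ZMod N → ℝ} {M : ℝ} (hM1 : ∑ x, w x * r1 x ^ 2 = M)
    (hM2 : ∑ x, w x * r2 x ^ 2 = M) (θ : ℝ × ℝ) : ∑ x, w x * l2 θ x = nsq θ * M := by
  have e : ∀ x, w x * l2 θ x = θ.1 ^ 2 * (w x * r1 x ^ 2) + θ.2 ^ 2 * (w x * r2 x ^ 2) := by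
    intro x; unfold l2; ring
  rw [sum_congr rfl fun x _ => e x, sum_add_distrib, ← mul_sum, ← mul_sum, hM1, hM2]
  unfold nsq
  ring

/-- the deviation along a line -/
def Fp (w : ZMod N × ZMod N → ℝ) (θ : ℝ × ℝ) (α : ℝ) (t : ℂ) : ℂ :=
  (Gp w θ t)⁻¹ - (Gp w θ 0)⁻¹ - (α : ℂ) * Ec θ t

lemma Fp_even (w : ZMod N × ZMod N → ℝ) (θ : ℝ × ℝ) (α : ℝ) (t : ℂ) :
    Fp w θ α (-t) = Fp w θ α t := by
  unfold Fp; rw [Gp_even, Ec_even]

lemma Fp_real (w : ZMod N × ZMod N → ℝ) (θ : ℝ × ℝ) (α : ℝ) (t : ℝ) :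
    Fp w θ α (t : ℂ) = (((gP w θ t)⁻¹ - (Gh w 0)⁻¹ - α * eR θ t : ℝ) : ℂ) := by
  unfold Fp
  have h := Gp_ofReal w θ 0
  rw [Complex.ofReal_zero, gP_zero] at h
  rw [h, Gp_ofReal, Ec_ofReal]
  push_cast
  rfl

lemma Fp_zero (w : ZMod N × ZMod N → ℝ) (θ : ℝ × ℝ) (α : ℝ) : Fp w θ α 0 = 0 := by
  unfold Fp Ec; simp

/-- **one line.** -/
theorem line_main' (n : ℕ) {w : ZMod N × ZMod N → ℝ} {S A c V δ α ρ E M : ℝ} (hS : 0 < S)
    (hc : 0 < c) (hA : ∑ x, |w x| * Real.exp (S * (|r1 x| + |r2 x|)) ≤ A) (h0 : c ≤ Gh w 0)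
    (hM1 : ∑ x, w x * r1 x ^ 2 = M) (hM2 : ∑ x, w x * r2 x ^ 2 = M)
    (hr : ∀ z : ZMod N × ZMod N, w (-z.1, z.2) = w z) (hρ1 : ρ ≤ 1)
    (hρ : 4 * A * ρ ^ 2 ≤ c * S ^ 2) (hV : 0 < V) (hVρ : 4 * V ≤ ρ)
    (hδ : ∀ k, EE k ≤ 2 * V ^ 2 → |(Gh w k)⁻¹ - (Gh w 0)⁻¹ - α * EE k| ≤ δ)
    (hE : E = (LC n + 1) * (δ + 2 * (4 / c + 8 * |α| * ρ ^ 2) * (2 * V / ρ) ^ (n + 1)))
    {p : ZMod N × ZMod N} {ϑ : ℝ} (hϑ : ϑ = max |(pv p).1| |(pv p).2|) (hϑ0 : 0 < ϑ)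
    (hϑV : 2 * (n + 1) * ϑ ≤ V) :
    |M / (2 * Gh w 0 ^ 2) - α| * nsq (pv p) ≤ E * (ϑ / V) ^ 2 ∧
    |(Gh w p)⁻¹ - (Gh w 0)⁻¹ - α * EE p - (M / (2 * Gh w 0 ^ 2) - α) * nsq (pv p)| ≤
      2 * E * (ϑ / V) ^ 4 := by
  have hρ0 : 0 < ρ := by linarith
  have h1 : |(pv p).1| ≤ ϑ := by rw [hϑ]; exact le_max_left _ _
  have h2 : |(pv p).2| ≤ ϑ := by rw [hϑ]; exact le_max_right _ _
  have hlow : ∀ z : ℂ, ‖z‖ < ρ / ϑ → c / 2 ≤ ‖Gp w (pv p) z‖ := by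
    intro z hz
    rw [lt_div_iff₀ hϑ0] at hz
    exact Gp_low hS hc hA h0 hϑ0 h1 h2 hρ0 hρ hz.le
  have hne : ∀ z : ℂ, ‖z‖ < ρ / ϑ → Gp w (pv p) z ≠ 0 := by
    intro z hz h
    have := hlow z hz
    rw [h, norm_zero] at this
    linarith
  have hr0 : 0 < ρ / ϑ := by positivity
  have hFd : DifferentiableOn ℂ (Fp w (pv p) α) (Metric.ball 0 (ρ / ϑ)) := by
    unfold Fp
    refine DifferentiableOn.sub (DifferentiableOn.sub ?_ (differentiableOn_const _)) ?_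
    · refine DifferentiableOn.fun_inv (Gp_diff w _).differentiableOn fun z hz => ?_
      exact hne z (by rwa [mem_ball_zero_iff] at hz)
    · exact (differentiableOn_const _).mul (Ec_diff _).differentiableOn
  have hinv : ∀ z : ℂ, ‖z‖ < ρ / ϑ → ‖(Gp w (pv p) z)⁻¹‖ ≤ 2 / c := by
    intro z hz
    rw [norm_inv, inv_le_comm₀ (lt_of_lt_of_le (by positivity) (hlow z hz)) (by positivity),
      inv_div]
    exact hlow z hz
  have hFB : ∀ z : ℂ, ‖z‖ < ρ / ϑ → ‖Fp w (pv p) α z‖ ≤ 4 / c + 8 * |α| * ρ ^ 2 := by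
    intro z hz
    have e1 := hinv z hz
    have e2 := hinv 0 (by simpa using hr0)
    have e3 : ‖(α : ℂ) * Ec (pv p) z‖ ≤ |α| * (8 * ρ ^ 2) := by
      rw [norm_mul, Complex.norm_real, Real.norm_eq_abs]
      refine mul_le_mul_of_nonneg_left ?_ (abs_nonneg _)
      rw [lt_div_iff₀ hϑ0] at hz
      exact Ec_bound h1 h2 hρ1 hz.le
    unfold Fp
    calc ‖(Gp w (pv p) z)⁻¹ - (Gp w (pv p) 0)⁻¹ - (α : ℂ) * Ec (pv p) z‖
        ≤ ‖(Gp w (pv p) z)⁻¹ - (Gp w (pv p) 0)⁻¹‖ + ‖(α : ℂ) * Ec (pv p) z‖ := norm_sub_le _ _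
      _ ≤ (‖(Gp w (pv p) z)⁻¹‖ + ‖(Gp w (pv p) 0)⁻¹‖) + ‖(α : ℂ) * Ec (pv p) z‖ := by
          gcongr; exact norm_sub_le _ _
      _ ≤ 4 / c + 8 * |α| * ρ ^ 2 := by
          have : 4 / c = 2 / c + 2 / c := by ring
          linarith
  -- nodes
  have hT0 : 0 < V / ϑ := by positivity
  have hT2 : 2 * ((n : ℝ) + 1) ≤ V / ϑ := by rw [le_div_iff₀ hϑ0]; exact hϑV
  obtain ⟨v, hv1, hv2⟩ := nodes n hT2
  have h4T : 4 * (V / ϑ) ≤ ρ / ϑ := by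
    rw [mul_div_assoc', div_le_div_iff_of_pos_right hϑ0]; exact hVρ
  have hnsq : nsq (pv p) ≤ 2 * ϑ ^ 2 := by
    unfold nsq
    have a1 : (pv p).1 ^ 2 ≤ ϑ ^ 2 := by
      rw [← sq_abs]; exact pow_le_pow_left₀ (abs_nonneg _) h1 2
    have a2 : (pv p).2 ^ 2 ≤ ϑ ^ 2 := by
      rw [← sq_abs]; exact pow_le_pow_left₀ (abs_nonneg _) h2 2
    linarith
  have hdata : ∀ m : ℕ, (m : ℝ) ≤ V / ϑ → ‖Fp w (pv p) α ((m : ℝ) : ℂ)‖ ≤ δ := by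
    intro m hm
    rw [Fp_real, Complex.norm_real, Real.norm_eq_abs, gP_nk hr, eR_nk]
    refine hδ _ ?_
    rw [← eR_nk]
    refine (eR_le _ _).trans ?_
    rw [le_div_iff₀ hϑ0] at hm
    have h3 : ((m : ℝ) * ϑ) ^ 2 ≤ V ^ 2 := pow_le_pow_left₀ (by positivity) hm 2
    have h4 : nsq (pv p) * (m : ℝ) ^ 2 ≤ 2 * ϑ ^ 2 * (m : ℝ) ^ 2 :=
      mul_le_mul_of_nonneg_right hnsq (by positivity)
    nlinarith
  obtain ⟨hI, -, -⟩ := interp n hFd hFB hT0 h4T (fun i => (v i : ℝ)) (fun i => Nat.cast_nonneg _)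
    hv1 hv2 (δ := δ) (fun i => hdata _ (hv1 i))
  have hratio : 2 * (V / ϑ) / (ρ / ϑ) = 2 * V / ρ := by field_simp
  rw [hratio, ← hE] at hI
  have hTr : V / ϑ < ρ / ϑ := by
    have : 0 < V / ϑ := hT0
    linarith
  have hev := even_rem hT0 hTr hFd hI (Fp_even w _ α) (Fp_zero w _ α)
  -- identification of the coefficient
  have hG0 : 0 < Gh w 0 := by linarith
  have hgcont : ∃ t0 : ℝ, 0 < t0 ∧ t0 ≤ 1 ∧ ∀ t : ℝ, 0 < t → t ≤ t0 → c / 2 ≤ gP w (pv p) t := by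
    have hcont : Continuous fun t : ℝ => gP w (pv p) t := by unfold gP; fun_prop
    have h6 : c / 2 < gP w (pv p) 0 := by rw [gP_zero]; linarith
    have h5 : ∀ᶠ t in nhds (0 : ℝ), c / 2 < gP w (pv p) t :=
      Filter.Tendsto.eventually_const_lt h6 (hcont.tendsto 0)
    obtain ⟨ε, hε, hε2⟩ := Metric.eventually_nhds_iff.1 h5
    refine ⟨min 1 (ε / 2), by positivity, min_le_left _ _, fun t ht htt => (hε2 ?_).le⟩
    rw [Real.dist_eq, sub_zero, abs_of_pos ht]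
    have := htt.trans (min_le_right _ _)
    linarith
  obtain ⟨t0, ht0, ht01, hgt⟩ := hgcont
  have hcoef : tc (Fp w (pv p) α) 2 =
      (((M / (2 * Gh w 0 ^ 2) - α) * nsq (pv p) : ℝ) : ℂ) := by
    refine tc2_eq hT0 hTr hFd hI (Fp_even w _ α) (Fp_zero w _ α) (t0 := t0)
      (K := (2 / c ^ 2 * ((∑ x, |w x| * l2 (pv p) x ^ 2) / 2) +
        2 / c ^ 3 * (|(∑ x, w x * l2 (pv p) x) / 2| * (|(∑ x, w x * l2 (pv p) x) / 2| +
          (∑ x, |w x| * l2 (pv p) x ^ 2) / 2))) + |α| * (2 * ϑ ^ 4)) ht0 ?_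
    intro t ht htt
    have e1 := gP_quart w (pv p) t
    have hK : 0 ≤ (∑ x, |w x| * l2 (pv p) x ^ 2) / 2 := by positivity
    have e2 := inv_second hc h0 (hgt t ht htt) (by nlinarith) hK e1
    have e3 := eR_quart h1 h2 t
    rw [Fp_real]
    have e4 : ((((gP w (pv p) t)⁻¹ - (Gh w 0)⁻¹ - α * eR (pv p) t : ℝ) : ℂ) -
        (((M / (2 * Gh w 0 ^ 2) - α) * nsq (pv p) : ℝ) : ℂ) * (t : ℂ) ^ 2) =
        ((((gP w (pv p) t)⁻¹ - (Gh w 0)⁻¹ - (∑ x, w x * l2 (pv p) x) / 2 / Gh w 0 ^ 2 *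
          t ^ 2) - α * (eR (pv p) t - nsq (pv p) * t ^ 2) : ℝ) : ℂ) := by
      rw [l2_sum hM1 hM2]
      push_cast
      ring
    rw [e4, Complex.norm_real, Real.norm_eq_abs]
    refine (abs_sub _ _).trans ?_
    rw [abs_mul]
    have e5 : |α| * |eR (pv p) t - nsq (pv p) * t ^ 2| ≤ |α| * (2 * ϑ ^ 4 * t ^ 4) :=
      mul_le_mul_of_nonneg_left e3 (abs_nonneg _)
    calc _ ≤ (2 / c ^ 2 * ((∑ x, |w x| * l2 (pv p) x ^ 2) / 2) +
        2 / c ^ 3 * (|(∑ x, w x * l2 (pv p) x) / 2| * (|(∑ x, w x * l2 (pv p) x) / 2| +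
          (∑ x, |w x| * l2 (pv p) x ^ 2) / 2))) * t ^ 4 + |α| * (2 * ϑ ^ 4 * t ^ 4) :=
          add_le_add e2 e5
      _ = _ := by ring
  rw [hcoef] at hev
  have hnsq0 : 0 ≤ nsq (pv p) := by unfold nsq; positivity
  constructor
  · have h3 := hev.1
    rw [Complex.norm_real, Real.norm_eq_abs, abs_mul, abs_of_nonneg hnsq0] at h3
    refine h3.trans (le_of_eq ?_)
    rw [div_pow, div_pow]
    field_simp
  · have h1T : (1 : ℝ) ≤ V / ϑ / 2 := by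
      have : (0 : ℝ) ≤ n := Nat.cast_nonneg _
      linarith
    have h3 := hev.2 1 (by rw [norm_one]; exact h1T)
    have e1 : Fp w (pv p) α 1 = (((Gh w p)⁻¹ - (Gh w 0)⁻¹ - α * EE p : ℝ) : ℂ) := by
      have h4 := Fp_real w (pv p) α ((1 : ℕ) : ℝ)
      rw [gP_nk hr, eR_nk, nk_one] at h4
      rw [← h4]
      simp
    rw [e1, one_pow, mul_one, ← Complex.ofReal_sub, Complex.norm_real, Real.norm_eq_abs,
      norm_one] at h3
    refine h3.trans (le_of_eq ?_)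
    rw [one_div, inv_div]

/-- every momentum -/
theorem flat3 (n : ℕ) {w : ZMod N × ZMod N → ℝ} {S A c V δ α ρ E M : ℝ} (hS : 0 < S)
    (hc : 0 < c) (hA : ∑ x, |w x| * Real.exp (S * (|r1 x| + |r2 x|)) ≤ A) (h0 : c ≤ Gh w 0)
    (hM1 : ∑ x, w x * r1 x ^ 2 = M) (hM2 : ∑ x, w x * r2 x ^ 2 = M)
    (hr : ∀ z : ZMod N × ZMod N, w (-z.1, z.2) = w z) (hρ1 : ρ ≤ 1)
    (hρ : 4 * A * ρ ^ 2 ≤ c * S ^ 2) (hV : 0 < V) (hVρ : 4 * V ≤ ρ) (hN3 : 3 ≤ N)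
    (hN : 4 * Real.pi * (n + 1) ≤ N * V)
    (hδ : ∀ k, EE k ≤ 2 * V ^ 2 → |(Gh w k)⁻¹ - (Gh w 0)⁻¹ - α * EE k| ≤ δ)
    (hE : E = (LC n + 1) * (δ + 2 * (4 / c + 8 * |α| * ρ ^ 2) * (2 * V / ρ) ^ (n + 1))) :
    |M / (2 * Gh w 0 ^ 2) - α| ≤ E / V ^ 2 ∧ ∀ k, EE k ≤ 2 * V ^ 2 →
      |(Gh w k)⁻¹ - (Gh w 0)⁻¹ - M / (2 * Gh w 0 ^ 2) * EE k| ≤
        110 * (n + 1) ^ 4 * E * (EE k / V ^ 2) ^ 2 := by
  have hNr : (0 : ℝ) < N := by exact_mod_cast NeZero.pos N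
  have hpi := Real.pi_pos
  have hρ0 : 0 < ρ := by linarith
  have hV1 : V ≤ 1 := by linarith
  have hδ0 : 0 ≤ δ := by
    refine (abs_nonneg _).trans (hδ 0 ?_)
    have : EE (0 : ZMod N × ZMod N) = 0 := by unfold EE; simp [cN_zero]
    rw [this]; positivity
  have hLC := LC_pos n
  have hδE : δ ≤ E := by
    rw [hE]
    have h1 : 0 ≤ 2 * (4 / c + 8 * |α| * ρ ^ 2) * (2 * V / ρ) ^ (n + 1) := by positivity
    nlinarith
  have hE0 : 0 ≤ E := hδ0.trans hδE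
  -- the coefficient
  have hα : |M / (2 * Gh w 0 ^ 2) - α| ≤ E / V ^ 2 := by
    obtain ⟨hmax, hns⟩ := pv_unit hN3
    have h := (line_main' n hS hc hA h0 hM1 hM2 hr hρ1 hρ hV hVρ hδ hE
      (p := ((1 : ZMod N), (0 : ZMod N))) (ϑ := 2 * Real.pi / N) hmax (by positivity) (by
        rw [mul_div_assoc', div_le_iff₀ hNr]; linarith)).1
    rw [hns] at h
    have e2 : E * (2 * Real.pi / N / V) ^ 2 = E / V ^ 2 * (2 * Real.pi / N) ^ 2 := by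
      rw [div_pow (2 * Real.pi / N) V]; ring
    rw [e2] at h
    exact le_of_mul_le_mul_right h (by positivity)
  refine ⟨hα, fun k hk => ?_⟩
  obtain ⟨ϑ, hϑ⟩ : ∃ ϑ : ℝ, ϑ = max |(pv k).1| |(pv k).2| := ⟨_, rfl⟩
  have h1 : |(pv k).1| ≤ ϑ := by rw [hϑ]; exact le_max_left _ _
  have h2 : |(pv k).2| ≤ ϑ := by rw [hϑ]; exact le_max_right _ _
  have hϑ0 : 0 ≤ ϑ := (abs_nonneg _).trans h1
  have hEE : 2 / 5 * ϑ ^ 2 ≤ EE k := EE_ge_pv hϑ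
  have hEE0 : 0 ≤ EE k := le_trans (by positivity) hEE
  have hn1 : (1 : ℝ) ≤ (n + 1) := by
    have : (0 : ℝ) ≤ n := Nat.cast_nonneg _
    linarith
  by_cases hs : 2 * (n + 1) * ϑ ≤ V
  · rcases eq_or_lt_of_le hϑ0 with hz | hz
    · have hk0 : k = 0 := pv_zero
        (abs_eq_zero.1 (le_antisymm (by rw [← hz] at h1; exact h1) (abs_nonneg _)))
        (abs_eq_zero.1 (le_antisymm (by rw [← hz] at h2; exact h2) (abs_nonneg _)))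
      have hE0' : EE (0 : ZMod N × ZMod N) = 0 := by unfold EE; simp [cN_zero]
      rw [hk0, hE0']
      simp
    · obtain ⟨-, h3⟩ := line_main' n hS hc hA h0 hM1 hM2 hr hρ1 hρ hV hVρ hδ hE hϑ hz hs
      have h4 := eR_quart h1 h2 1
      rw [← EE_pv] at h4
      simp only [one_pow, mul_one] at h4
      have e : (Gh w k)⁻¹ - (Gh w 0)⁻¹ - M / (2 * Gh w 0 ^ 2) * EE k =
          ((Gh w k)⁻¹ - (Gh w 0)⁻¹ - α * EE k - (M / (2 * Gh w 0 ^ 2) - α) * nsq (pv k)) -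
            (M / (2 * Gh w 0 ^ 2) - α) * (EE k - nsq (pv k)) := by ring
      rw [e]
      exact asm_small hE0 hV hV1 (one_le_pow₀ hn1) hEE h3 hα h4
  · have hs' : V < 2 * (n + 1) * ϑ := not_le.1 hs
    have e : (Gh w k)⁻¹ - (Gh w 0)⁻¹ - M / (2 * Gh w 0 ^ 2) * EE k =
        ((Gh w k)⁻¹ - (Gh w 0)⁻¹ - α * EE k) - (M / (2 * Gh w 0 ^ 2) - α) * EE k := by ring
    rw [e]
    have h4 : V ^ 2 ≤ (2 * (n + 1) * ϑ) ^ 2 := pow_le_pow_left₀ hV.le hs'.le 2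
    have h5 : 1 ≤ 10 * ((n : ℝ) + 1) ^ 2 * (EE k / V ^ 2) := by
      rw [mul_div_assoc', le_div_iff₀ (by positivity)]
      have h6 : (2 * ((n : ℝ) + 1) * ϑ) ^ 2 = 10 * ((n : ℝ) + 1) ^ 2 * (2 / 5 * ϑ ^ 2) := by ring
      have h7 : 10 * ((n : ℝ) + 1) ^ 2 * (2 / 5 * ϑ ^ 2) ≤ 10 * ((n : ℝ) + 1) ^ 2 * EE k :=
        mul_le_mul_of_nonneg_left hEE (by positivity)
      linarith
    have h6 := asm_large (m := ((n : ℝ) + 1) ^ 2) hE0 hEE0 (one_le_pow₀ hn1) h5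
      ((hδ k hk).trans hδE) hα
    have e2 : (((n : ℝ) + 1) ^ 2) ^ 2 = ((n : ℝ) + 1) ^ 4 := by ring
    rw [e2] at h6
    exact h6

end

end Vale.Agent.P159.H846
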