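import Vale.Agent.P159.H846.Fs1
import Vale.Agent.P159.H239.FamR

/-!
P159, FLATSTEP (helper846), part 2: numbers; all tori, all sizes, both masses.

`DropS P b q N0` : the drop over one step at every site momentum, size `ε ^ q`.
`FlatStep' P b sg N0` : the flat profile at level `m` from the range of the cluster theorems at
level `m`.
`fam_flat` : `DropS` with an exponent `q > pf` gives `FlatStep'`, in the order of constants of
helper239.
-/

set_option linter.unusedSectionVars false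

namespace Vale.Agent.P159.H846

open Finset
open Vale.Agent.P159.TM.H764 (Gh EE EE_nonneg EE_zero)
open Vale.Agent.P159.TM.Spec (V)
open Vale.Agent.P159.H963 (Pin)
open Vale.Agent.P159.H972 (Par tn tn_pos SI en FLs RNGs RNG lg Good GP)
open Vale.Agent.P159.H197 (NKc SEz)
open Vale.Agent.P159.H864 (yt)
open Vale.Agent.P159.H813 (LC LC_pos)
open Vale.Agent.P159.H37 (small_rpow lg_lo lg_hi)

noncomputable section

/-- the drop of one step at every site momentum -/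
def DropS (P : Par) (b q : ℝ) (N0 : ℕ) : Prop :=
  ∀ n m ε Y, SI P b N0 n m ε Y → ∀ r, P.TT n ε r → m + P.kE P.es ≤ r → ∀ j, j ≤ m → m ≤ j + 1 →
    DrS b r (tn n) (tn j) (ε ^ q)

/-- the flat profile at level `m`, from the range at level `m` -/
def FlatStep' (P : Par) (b sg : ℝ) (N0 : ℕ) : Prop :=
  ∀ n m ε Y, SI P b N0 n m ε Y → RNGs P b m (en sg ε Y) → ∃ a, FLs P b m (en sg ε Y) a

/-- the product of the two losses -/
lemma fs_num {nn : ℕ} {th pf e c₂ α A₁ X B₂ : ℝ} (he : 0 < e) (he1 : e ≤ 1) (hc : 0 < c₂)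
    (hα : |α| ≤ A₁) (hX : X ≤ B₂ * e ^ (pf + 2 * th))
    (hnn : pf + 2 * th ≤ (nn + 1) * (th / 4))
    (hK : 110 * ((nn : ℝ) + 1) ^ 4 / c₂ ^ 4 * (LC nn + 1) * (B₂ + 16 * (1 + A₁) * 2 ^ (nn + 1)) *
      e ^ th ≤ 1 / 100) :
    Lam nn (e ^ (th / 4) * c₂) * er nn (e ^ (th / 4)) α X ≤ e ^ pf / 100 := by
  have hL := LC_pos nn
  have h1 : (e ^ (th / 4) * c₂) ^ 4 = e ^ th * c₂ ^ 4 := by
    rw [mul_pow, ← Real.rpow_natCast (e ^ (th / 4)), ← Real.rpow_mul he.le]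
    congr 2
    push_cast
    ring
  have h2 : Lam nn (e ^ (th / 4) * c₂) = 110 * ((nn : ℝ) + 1) ^ 4 / c₂ ^ 4 * e ^ (-th) := by
    unfold Lam
    rw [h1, Real.rpow_neg he.le]
    have := Real.rpow_pos_of_pos he th
    field_simp
  have h3 : (2 * e ^ (th / 4)) ^ (nn + 1) ≤ 2 ^ (nn + 1) * e ^ (pf + 2 * th) := by
    rw [mul_pow, ← Real.rpow_natCast (e ^ (th / 4)), ← Real.rpow_mul he.le]
    refine mul_le_mul_of_nonneg_left ?_ (by positivity)
    refine Real.rpow_le_rpow_of_exponent_ge he he1 ?_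
    push_cast
    linarith
  have h4 : er nn (e ^ (th / 4)) α X ≤
      (LC nn + 1) * ((B₂ + 16 * (1 + A₁) * 2 ^ (nn + 1)) * e ^ (pf + 2 * th)) := by
    unfold er
    refine mul_le_mul_of_nonneg_left ?_ (by linarith)
    have h5 : 16 * (1 + |α|) * (2 * e ^ (th / 4)) ^ (nn + 1) ≤
        16 * (1 + A₁) * (2 ^ (nn + 1) * e ^ (pf + 2 * th)) :=
      mul_le_mul (by linarith) h3 (by positivity) (by have := abs_nonneg α; linarith)
    linarith
  have h6 : e ^ (pf + 2 * th) = e ^ th * e ^ th * e ^ pf := by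
    rw [← Real.rpow_add he, ← Real.rpow_add he]
    congr 1
    ring
  have h7 : e ^ (-th) * e ^ th = 1 := by
    rw [← Real.rpow_add he, neg_add_cancel, Real.rpow_zero]
  have hpf : 0 < e ^ pf := Real.rpow_pos_of_pos he pf
  have h8 : 0 ≤ Lam nn (e ^ (th / 4) * c₂) :=
    (Lam_pos nn (by have := Real.rpow_pos_of_pos he (th / 4); positivity)).le
  calc Lam nn (e ^ (th / 4) * c₂) * er nn (e ^ (th / 4)) α X ≤
        Lam nn (e ^ (th / 4) * c₂) *
          ((LC nn + 1) * ((B₂ + 16 * (1 + A₁) * 2 ^ (nn + 1)) * e ^ (pf + 2 * th))) :=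
        mul_le_mul_of_nonneg_left h4 h8
    _ = (110 * ((nn : ℝ) + 1) ^ 4 / c₂ ^ 4 * (LC nn + 1) *
          (B₂ + 16 * (1 + A₁) * 2 ^ (nn + 1)) * e ^ th) * e ^ pf * (e ^ (-th) * e ^ th) := by
        rw [h2, h6]
        ring
    _ ≤ (1 / 100) * e ^ pf * (e ^ (-th) * e ^ th) := by
        rw [h7, mul_one, mul_one]
        exact mul_le_mul_of_nonneg_right hK hpf.le
    _ = e ^ pf / 100 := by rw [h7]; ring

section numbers

variable {P : Par} {b sg : ℝ} {N0 n m j : ℕ} {ε Y e : ℝ}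

/-- powers of `ε ≤ 2 e` -/
lemma eps_pow (hε : 0 < ε) (h : ε ≤ 2 * e) {q : ℝ} (hq : 0 ≤ q) (hq2 : q ≤ 2) :
    ε ^ q ≤ 4 * e ^ q := by
  have he : 0 < e := by linarith
  calc ε ^ q ≤ (2 * e) ^ q := Real.rpow_le_rpow hε.le h hq
    _ = 2 ^ q * e ^ q := Real.mul_rpow (by norm_num) he.le
    _ ≤ 4 * e ^ q := by
        refine mul_le_mul_of_nonneg_right ?_ (Real.rpow_nonneg he.le _)
        calc (2 : ℝ) ^ q ≤ 2 ^ (2 : ℝ) := Real.rpow_le_rpow_of_exponent_le (by norm_num) hq2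
          _ = 4 := by norm_num

lemma eps_pow1 (hε : 0 < ε) (h : ε ≤ 2 * e) {q : ℝ} (hq : 0 ≤ q) (hq2 : q ≤ 1) :
    ε ^ q ≤ 2 * e ^ q := by
  have he : 0 < e := by linarith
  calc ε ^ q ≤ (2 * e) ^ q := Real.rpow_le_rpow hε.le h hq
    _ = 2 ^ q * e ^ q := Real.mul_rpow (by norm_num) he.le
    _ ≤ 2 * e ^ q := by
        refine mul_le_mul_of_nonneg_right ?_ (Real.rpow_nonneg he.le _)
        calc (2 : ℝ) ^ q ≤ 2 ^ (1 : ℝ) := Real.rpow_le_rpow_of_exponent_le (by norm_num) hq2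
          _ = 2 := Real.rpow_one 2

/-- the gain of the window -/
lemma win_gain (hS : SI P b N0 n m ε Y) (h : ε ≤ 2 * e) (he1 : e ≤ 1) (hjm : m ≤ j + 1)
    (hth : P.th ≤ P.thp) (hthp : P.thp ≤ 1 / 2) :
    1 ≤ 8 * e ^ (2 * P.th) * (4 : ℝ) ^ (j - n) := by
  have hε := hS.εpos
  have he : 0 < e := by linarith
  have hlo := hS.lo
  have h1 : ε ^ (-P.thp) ≤ (2 : ℝ) ^ P.w ε := lg_lo hε
  have h2 : (4 : ℝ) ^ P.w ε ≤ 4 * 4 ^ (j - n) := by
    calc (4 : ℝ) ^ P.w ε ≤ 4 ^ (j - n + 1) := pow_le_pow_right₀ (by norm_num) (by omega)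
      _ = 4 * 4 ^ (j - n) := by ring
  have h3 : ε ^ (-(2 * P.thp)) ≤ 4 * 4 ^ (j - n) := by
    refine le_trans ?_ h2
    rw [four_pow]
    have e1 : ε ^ (-(2 * P.thp)) = (ε ^ (-P.thp)) ^ 2 := by
      rw [← Real.rpow_natCast, ← Real.rpow_mul hε.le]
      congr 1
      push_cast
      ring
    rw [e1]
    exact pow_le_pow_left₀ (Real.rpow_nonneg hε.le _) h1 2
  have h4 : ε ^ (2 * P.thp) ≤ 2 * e ^ (2 * P.thp) :=
    eps_pow1 hε h (by have := P.thp0; linarith) (by linarith)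
  have h5 : e ^ (2 * P.thp) ≤ e ^ (2 * P.th) :=
    Real.rpow_le_rpow_of_exponent_ge he he1 (by linarith)
  have h6 : ε ^ (-(2 * P.thp)) * ε ^ (2 * P.thp) = 1 := by
    rw [← Real.rpow_add hε, neg_add_cancel, Real.rpow_zero]
  have h7 : 0 < ε ^ (2 * P.thp) := Real.rpow_pos_of_pos hε _
  calc (1 : ℝ) = ε ^ (-(2 * P.thp)) * ε ^ (2 * P.thp) := h6.symm
    _ ≤ (4 * 4 ^ (j - n)) * (2 * e ^ (2 * P.th)) :=
        mul_le_mul h3 (h4.trans (by linarith)) h7.le (by positivity)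
    _ = _ := by ring

/-- the gain of the torus -/
lemma tor_gain (he : 0 < e) {r : ℕ} (hr : j + P.kE e ≤ r) :
    1 ≤ e ^ (2 * P.th) * (4 : ℝ) ^ (r - j) := by
  have h1 : e ^ (-P.th) ≤ (2 : ℝ) ^ P.kE e := lg_lo he
  have h2 : (4 : ℝ) ^ P.kE e ≤ 4 ^ (r - j) := pow_le_pow_right₀ (by norm_num) (by omega)
  have h3 : e ^ (-(2 * P.th)) ≤ 4 ^ (r - j) := by
    refine le_trans ?_ h2
    rw [four_pow]
    have e1 : e ^ (-(2 * P.th)) = (e ^ (-P.th)) ^ 2 := by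
      rw [← Real.rpow_natCast, ← Real.rpow_mul he.le]
      congr 1
      push_cast
      ring
    rw [e1]
    exact pow_le_pow_left₀ (Real.rpow_nonneg he.le _) h1 2
  have h6 : e ^ (2 * P.th) * e ^ (-(2 * P.th)) = 1 := by
    rw [← Real.rpow_add he, add_neg_cancel, Real.rpow_zero]
  calc (1 : ℝ) = e ^ (2 * P.th) * e ^ (-(2 * P.th)) := h6.symm
    _ ≤ e ^ (2 * P.th) * (4 : ℝ) ^ (r - j) :=
        mul_le_mul_of_nonneg_left h3 (Real.rpow_nonneg he.le _)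

/-- the error of one step -/
lemma stepX_le {r0 : ℕ} {pf s T δ B C₀ E : ℝ} (hS : SI P b N0 n m ε Y) (h : ε ≤ 2 * e)
    (he1 : e ≤ 1) (hj : j ≤ m) (hjm : m ≤ j + 1) (hth : P.th ≤ P.thp) (hthp : P.thp ≤ 1 / 2)
    (hr0 : r0 = m + P.kE e) (hpf : 0 ≤ pf) (hpf1 : pf ≤ 1) (hE : E = e ^ (pf + 2 * P.th))
    (hs : s ≤ B * E) (hT : T ≤ E) (hδ : δ ≤ 4 * E) :
    stepX (4 ^ (j - n)) (ε ^ pf / 4 ^ (r0 - n)) s ((1 + C₀) ^ 2 * T) δ (ε ^ pf) ≤
      3000 * (26 + B + 4 * (1 + C₀) ^ 2) * E := by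
  have hε := hS.εpos
  have he : 0 < e := by linarith
  have hnm := hS.lt
  have hlo := hS.lo
  have hnj : n ≤ j := by omega
  have hw := win_gain hS h he1 hjm hth hthp
  have ht := tor_gain (P := P) (j := j) (r := r0) he (by omega)
  have hη := eps_pow1 hε h hpf hpf1
  have hη0 : 0 ≤ ε ^ pf := Real.rpow_nonneg hε.le _
  have hE2 : E = e ^ pf * e ^ (2 * P.th) := by rw [hE, Real.rpow_add he]
  have hp1 : 0 < e ^ pf := Real.rpow_pos_of_pos he _
  have hp2 : 0 < e ^ (2 * P.th) := Real.rpow_pos_of_pos he _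
  -- source zero mode
  have a1 : (4 : ℝ) ^ (j - n) * (ε ^ pf / 4 ^ (r0 - n)) ≤ 2 * E := by
    have e1 : (4 : ℝ) ^ (r0 - n) = 4 ^ (r0 - j) * 4 ^ (j - n) := by
      rw [← pow_add]
      congr 1
      omega
    have e2 : (4 : ℝ) ^ (j - n) * (ε ^ pf / 4 ^ (r0 - n)) = ε ^ pf / 4 ^ (r0 - j) := by
      rw [e1]
      field_simp
    rw [e2, div_le_iff₀ (by positivity)]
    calc ε ^ pf ≤ 2 * e ^ pf * 1 := by linarith
      _ ≤ 2 * e ^ pf * (e ^ (2 * P.th) * (4 : ℝ) ^ (r0 - j)) :=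
          mul_le_mul_of_nonneg_left ht (by positivity)
      _ = 2 * E * 4 ^ (r0 - j) := by rw [hE2]; ring
  have a2 : ε ^ pf / 4 ^ (j - n) ≤ 16 * E := by
    rw [div_le_iff₀ (by positivity)]
    calc ε ^ pf ≤ 2 * e ^ pf * 1 := by linarith
      _ ≤ 2 * e ^ pf * (8 * e ^ (2 * P.th) * (4 : ℝ) ^ (j - n)) :=
          mul_le_mul_of_nonneg_left hw (by positivity)
      _ = 16 * E * 4 ^ (j - n) := by rw [hE2]; ring
  have a3 : (1 + C₀) ^ 2 * T ≤ (1 + C₀) ^ 2 * E := mul_le_mul_of_nonneg_left hT (sq_nonneg _)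
  unfold stepX
  have a4 : 3000 * (26 + B + 4 * (1 + C₀) ^ 2) * E =
      3000 * (2 * E + B * E + 4 * ((1 + C₀) ^ 2 * E) + 2 * (4 * E) + 16 * E) := by ring
  rw [a4]
  linarith

end numbers

end

end Vale.Agent.P159.H846
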