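import Vale.Agent.P159.H846.Fs2

/-!
P159, FLATSTEP (helper846), part 3: one size `e`, both masses, all tori of level `m`.
-/

set_option linter.unusedSectionVars false

namespace Vale.Agent.P159.H846

open Finset
open Vale.Agent.P159.TM.H764 (Gh EE EE_nonneg EE_zero)
open Vale.Agent.P159.TM.Spec (V Rng)
open Vale.Agent.P159.H963 (Pin)
open Vale.Agent.P159.H972 (Par tn tn_pos SI en FLs RNGs RNG lg Good GP)
open Vale.Agent.P159.H197 (NKc SEz)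
open Vale.Agent.P159.H864 (yt)
open Vale.Agent.P159.H813 (LC LC_pos)
open Vale.Agent.P159.H37 (small_rpow lg_lo lg_hi)

noncomputable section

/-- the output of `pmod` -/
def PMp (b1 b2 W c C ys : ℝ) (X : ℕ) : Prop :=
  ∀ (N : ℕ) [NeZero N] (b : ℝ) (ξ : ℕ) (y t C₀ : ℝ),
    Rng b1 b2 (5 / 2) W ys X N b ξ y → (N : ℝ) * y ≤ c * ξ → t = 1 / (ξ : ℝ) ^ 2 →
    t * (N : ℝ) ^ 2 * yt N b t ≤ 1 / 2 → 1 ≤ C₀ →
    (∀ k : ZMod N × ZMod N, k ≠ 0 → Pin N b t k ≤ C₀ * (t + EE k)) →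
    PMod (gk N b t) t (c / 2) C C₀ (2 * (t * (N : ℝ) ^ 2 * yt N b t ^ 2))

/-- the numbers of the step, all consequences of `e` being small -/
structure FsN (nn : ℕ) (th pf ρ A c c₂ A₁ B₂ e : ℝ) : Prop where
  n1 : 2048 * A * e ^ (1 / 2 - 2 * ρ) ≤ 1 / 2
  n2 : 4 * A * e ^ (1 / 4 - 2 * ρ) ≤ c
  n3 : 200 * (2048 * A) ^ 2 * e ^ (1 - 4 * ρ - pf) ≤ 1
  n4 : 4 * Real.pi * (nn + 1) / c₂ * e ^ (3 * th / 4) ≤ 1
  n5 : e ^ (th / 4) ≤ 1 / 4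
  n6 : 110 * ((nn : ℝ) + 1) ^ 4 / c₂ ^ 4 * (LC nn + 1) * (B₂ + 16 * (1 + A₁) * 2 ^ (nn + 1)) *
      e ^ th ≤ 1 / 100

lemma two_four {r j : ℕ} (h : j ≤ r) : (2 : ℝ) ^ r / 2 ^ j ≤ 4 ^ r / 4 ^ j := by
  have e1 : (4 : ℝ) ^ r / 4 ^ j = (2 ^ r / 2 ^ j) ^ 2 := by
    rw [div_pow, ← four_pow, ← four_pow]
  have h4 : (1 : ℝ) ≤ 2 ^ r / 2 ^ j := by
    rw [one_le_div (by positivity)]
    exact pow_le_pow_right₀ (by norm_num) h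
  rw [e1]
  exact le_self_pow₀ h4 two_ne_zero

lemma tn_sq (r j : ℕ) : tn j * (((2 ^ r : ℕ) : ℝ)) ^ 2 = 4 ^ r / 4 ^ j := by
  unfold H972.tn
  push_cast
  rw [← four_pow, mul_comm, ← div_eq_mul_inv]

/-- the kernel instance at one torus and one mass -/
lemma fs_pm {P : Par} {W c C ys A ρ sg C₀ b ε Y e : ℝ} {X N0 n m j r : ℕ}
    (h : PMp P.b1 P.b2 W c C ys X) (p3 : P.W = W) (p4 : P.ys ≤ ys)
    (p5 : X ≤ P.X0) (hb1 : 0 < P.b1) (hpp : P.th ≤ P.thp) (hA : 0 < A) (hC₀ : 1 ≤ C₀)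
    (hS : SI P b N0 n m ε Y) (he : en sg ε Y ≤ e)
    (hy : 4 ^ (m - n) * max Y ε ≤ 512 * √e)
    (n1 : 2048 * A * e ^ (1 / 2 - 2 * ρ) ≤ 1 / 2) (n2 : 4 * A * e ^ (1 / 4 - 2 * ρ) ≤ c)
    (hT0 : (4 : ℝ) ^ r / 4 ^ m ≤ A * e ^ (-(2 * ρ))) (hmr : m ≤ r) (hjm : j ≤ m) (hmj : m ≤ j + 1)
    (htop : ∀ (N : ℕ) [NeZero N] (t : ℝ), 0 < t → t ≤ tn n → ∀ k : V N, k ≠ 0 →
      Pin N b t k ≤ C₀ * (t + EE k))
    (Q : RNG P b j r e) :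
    ∃ s : ℝ, PMod (gk (2 ^ r) b (tn j)) (tn j) (c / 2) C C₀ s ∧
      s ≤ 2 * (2048 * A) ^ 2 * e ^ (1 - 4 * ρ) ∧ 0 ≤ SE (tn j) (gk (2 ^ r) b (tn j)) 0 ∧
      SE (tn j) (gk (2 ^ r) b (tn j)) 0 * (((2 ^ r : ℕ) : ℝ)) ^ 2 ≤
        2 * (2048 * A) ^ 2 * e ^ (1 - 4 * ρ) := by
  have he0 : 0 < e := by
    have := hS.half he
    have := hS.εpos
    linarith
  have hb : 0 < b := hb1.trans_le Q.hb1
  have hnm := hS.lt
  have hnj : n ≤ j := by omega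
  have htj := tn_pos j
  have htjn : tn j ≤ tn n := tn_anti hnj
  have hK1 : (4 : ℝ) ^ r / 4 ^ j ≤ 4 * (A * e ^ (-(2 * ρ))) := by
    have h1 : (4 : ℝ) ^ m ≤ 4 * 4 ^ j := by
      calc (4 : ℝ) ^ m ≤ 4 ^ (j + 1) := pow_le_pow_right₀ (by norm_num) hmj
        _ = 4 * 4 ^ j := by ring
    have h2 : (4 : ℝ) ^ r / 4 ^ j ≤ 4 * (4 ^ r / 4 ^ m) := by
      rw [← mul_div_assoc, div_le_div_iff₀ (by positivity) (by positivity)]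
      have h3 : (0 : ℝ) < 4 ^ r := by positivity
      calc (4 : ℝ) ^ r * 4 ^ m ≤ 4 ^ r * (4 * 4 ^ j) := mul_le_mul_of_nonneg_left h1 h3.le
        _ = 4 * 4 ^ r * 4 ^ j := by ring
    linarith
  have hK0 : (0 : ℝ) ≤ 4 ^ r / 4 ^ j := by positivity
  have hKt := tn_sq r j
  have hK1' : (1 : ℝ) ≤ 4 ^ r / 4 ^ j := by
    rw [one_le_div (by positivity)]
    exact pow_le_pow_right₀ (by norm_num) (by omega)
  have hY0 : (0 : ℝ) ≤ 4 ^ (m - n) * max Y ε :=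
    mul_nonneg (by positivity) (le_max_of_le_left hS.yb.1.le)
  have hyt0 := H864.yt_nonneg (N := 2 ^ r) hb.le htj
  have hyt : yt (2 ^ r) b (tn j) ≤ 512 * √e :=
    (hS.yt hb hpp hmr (tn_anti hjm) htjn).trans hy
  have hω := (H197.fl_w he0 hK0 hK1 hA.le hyt0 hyt).trans n1
  have hω2 := H197.fl_w2 he0 hK0 hK1 hA.le hyt0 hyt
  have hw0 : 0 ≤ (4 : ℝ) ^ r / 4 ^ j * yt (2 ^ r) b (tn j) := mul_nonneg hK0 hyt0
  have hL : tn j * (((2 ^ r : ℕ) : ℝ)) ^ 2 * yt (2 ^ r) b (tn j) ≤ 1 / 2 := by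
    rw [hKt]
    exact hω
  have hRel : Rng P.b1 P.b2 (5 / 2) W ys X (2 ^ r) b (2 ^ j) (e ^ (1 / 4 : ℝ)) := by
    have hs := Q
    unfold H972.RNG at hs
    rw [p3] at hs
    exact ⟨hs.hb1, hs.hb2, p5.trans hs.hX, (Nat.mul_le_mul_right _ p5).trans hs.hK, hs.hd,
      hs.y0, hs.y1.trans p4, hs.hyp⟩
  have hNy : (((2 ^ r : ℕ) : ℝ)) * e ^ (1 / 4 : ℝ) ≤ c * ((2 ^ j : ℕ) : ℝ) := by
    have h2 : e ^ (1 / 4 : ℝ) * e ^ (-(2 * ρ)) = e ^ (1 / 4 - 2 * ρ) := by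
      rw [← Real.rpow_add he0]
      congr 1
    have h3 := two_four (r := r) (j := j) (by omega)
    have h5 : (2 : ℝ) ^ r / 2 ^ j * e ^ (1 / 4 : ℝ) ≤ c := by
      calc (2 : ℝ) ^ r / 2 ^ j * e ^ (1 / 4 : ℝ) ≤
            (4 * (A * e ^ (-(2 * ρ)))) * e ^ (1 / 4 : ℝ) :=
            mul_le_mul_of_nonneg_right (h3.trans hK1) (Real.rpow_nonneg he0.le _)
        _ = 4 * A * (e ^ (1 / 4 : ℝ) * e ^ (-(2 * ρ))) := by ring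
        _ ≤ c := by rw [h2]; exact n2
    push_cast
    rw [div_mul_eq_mul_div, div_le_iff₀ (by positivity)] at h5
    exact h5
  have hP := h (2 ^ r) b (2 ^ j) (e ^ (1 / 4 : ℝ)) (tn j) C₀ hRel hNy (tn_eq j) hL hC₀
    (fun k hk => htop (2 ^ r) (tn j) htj htjn k hk)
  have hω3 : (4 : ℝ) ^ r / 4 ^ j * yt (2 ^ r) b (tn j) ^ 2 ≤
      (4 ^ r / 4 ^ j * yt (2 ^ r) b (tn j)) ^ 2 := by
    rw [mul_pow]
    exact mul_le_mul_of_nonneg_right (le_self_pow₀ hK1' two_ne_zero) (sq_nonneg _)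
  refine ⟨_, hP, ?_, ?_, ?_⟩
  · rw [hKt]
    linarith
  · refine (zero_mode hb.le htj ?_).2.1
    rw [hKt]
    refine hω3.trans ?_
    calc (4 ^ r / 4 ^ j * yt (2 ^ r) b (tn j)) ^ 2 ≤ (1 / 2 : ℝ) ^ 2 :=
          pow_le_pow_left₀ hw0 hω 2
      _ ≤ 1 / 2 := by norm_num
  · have hz1 := (le_abs_self _).trans hP.zer
    calc SE (tn j) (gk (2 ^ r) b (tn j)) 0 * (((2 ^ r : ℕ) : ℝ)) ^ 2 ≤
          2 * (tn j * (((2 ^ r : ℕ) : ℝ)) ^ 2 * yt (2 ^ r) b (tn j) ^ 2) * tn j *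
            (((2 ^ r : ℕ) : ℝ)) ^ 2 := mul_le_mul_of_nonneg_right hz1 (sq_nonneg _)
      _ = 2 * ((tn j * (((2 ^ r : ℕ) : ℝ)) ^ 2) * yt (2 ^ r) b (tn j)) ^ 2 := by ring
      _ ≤ 2 * ((2048 * A) ^ 2 * e ^ (1 - 4 * ρ)) := by
          rw [hKt]
          exact mul_le_mul_of_nonneg_left hω2 (by norm_num)
      _ = _ := by ring

/-- the analyticity radius fits into the torus -/
lemma fs_Mt {P : Par} {e c₂ : ℝ} {nn j m r : ℕ} (he0 : 0 < e) (hc₂ : 0 < c₂)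
    (n4 : 4 * Real.pi * (nn + 1) / c₂ * e ^ (3 * P.th / 4) ≤ 1) (hjm : j ≤ m)
    (hr : m + P.kE e ≤ r) :
    4 * Real.pi * (nn + 1) ≤ (2 : ℝ) ^ (r - j) * (e ^ (P.th / 4) * c₂) := by
  have h1 : e ^ (-P.th) ≤ (2 : ℝ) ^ P.kE e := lg_lo he0
  have h2 : (2 : ℝ) ^ P.kE e ≤ 2 ^ (r - j) := pow_le_pow_right₀ (by norm_num) (by omega)
  have h3 : e ^ (-P.th) * e ^ (P.th / 4) * e ^ (3 * P.th / 4) = 1 := by
    rw [← Real.rpow_add he0, ← Real.rpow_add he0]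
    have : -P.th + P.th / 4 + 3 * P.th / 4 = 0 := by ring
    rw [this, Real.rpow_zero]
  have hκ0 : 0 < e ^ (P.th / 4) := Real.rpow_pos_of_pos he0 _
  have hκ1 : 0 < e ^ (-P.th) := Real.rpow_pos_of_pos he0 _
  have h7 : 4 * Real.pi * (nn + 1) =
      (4 * Real.pi * (nn + 1) / c₂ * e ^ (3 * P.th / 4)) *
        (e ^ (-P.th) * e ^ (P.th / 4) * c₂) := by
    calc 4 * Real.pi * (nn + 1) = (4 * Real.pi * (nn + 1)) * 1 := by ring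
      _ = (4 * Real.pi * (nn + 1)) *
          (e ^ (-P.th) * e ^ (P.th / 4) * e ^ (3 * P.th / 4)) := by rw [h3]
      _ = _ := by field_simp
  rw [h7]
  calc _ ≤ 1 * (e ^ (-P.th) * e ^ (P.th / 4) * c₂) :=
        mul_le_mul_of_nonneg_right n4 (by positivity)
    _ = e ^ (-P.th) * (e ^ (P.th / 4) * c₂) := by ring
    _ ≤ 2 ^ (r - j) * (e ^ (P.th / 4) * c₂) :=
        mul_le_mul_of_nonneg_right (h1.trans h2) (by positivity)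

/-- one torus, one mass -/
lemma fs_j {P : Par} {W c C ys A ρ sg c₂ C₀ b ε Y e δ T z α : ℝ} {X nn N0 n m j r0 r : ℕ}
    (hc : 0 < c) (h : PMp P.b1 P.b2 W c C ys X) (p3 : P.W = W) (p4 : P.ys ≤ ys)
    (p5 : X ≤ P.X0) (hb1 : 0 < P.b1) (hpp : P.th ≤ P.thp) (hthp : P.thp ≤ 1 / 2) (hA : 0 < A)
    (hpf0 : 0 ≤ P.pf) (hpf1 : P.pf ≤ 1)
    (hρ : P.pf + 2 * P.th ≤ 1 - 4 * ρ) (hc₂ : 0 < c₂) (hc21 : c₂ ≤ 1)
    (hcc : 8 * C * c₂ ^ 2 ≤ (c / 2) ^ 2) (hC₀ : 1 ≤ C₀)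
    (hnn : P.pf + 2 * P.th ≤ (nn + 1) * (P.th / 4))
    (hS : SI P b N0 n m ε Y) (he : en sg ε Y ≤ e) (hees : e ≤ P.es)
    (hy : 4 ^ (m - n) * max Y ε ≤ 512 * √e)
    (hN : FsN nn P.th P.pf ρ A c c₂ (2 * C₀ + 41)
      (3000 * (26 + 2 * (2048 * A) ^ 2 + 4 * (1 + C₀) ^ 2)) e)
    (hr0 : r0 = m + P.kE e) (hrr : r0 ≤ r) (hT0 : (4 : ℝ) ^ r / 4 ^ m ≤ A * e ^ (-(2 * ρ)))
    (hk6 : 6 ≤ P.kE e) (hn1 : 1 ≤ n) (hjm : j ≤ m) (hmj : m ≤ j + 1)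
    (htop : ∀ (N : ℕ) [NeZero N] (t : ℝ), 0 < t → t ≤ tn n → ∀ k : V N, k ≠ 0 →
      Pin N b t k ≤ C₀ * (t + EE k))
    (Q : RNG P b j r e) (hz0 : 0 ≤ z) (hz : z * ((2 ^ r0 : ℕ) : ℝ) ^ 2 ≤ ε ^ P.pf)
    (hF : ∀ k : V (2 ^ r0), k ≠ 0 →
      |Pin (2 ^ r0) b (tn n) k - z - α * EE k| ≤ ε ^ P.pf * EE k ^ 2 / tn n)
    (hd : DrS b r0 (tn n) (tn j) δ) (hδ0 : 0 ≤ δ) (hδ : δ ≤ 4 * e ^ (P.pf + 2 * P.th))
    (hNK : NKc b (tn j) T r0 r) (hT1 : 0 ≤ T) (hT2 : T ≤ e ^ (P.pf + 2 * P.th)) :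
    H972.FL b (tn j) α (e ^ P.pf / 100) (2 ^ r) := by
  have hε := hS.εpos
  have he0 : 0 < e := by
    have := hS.half he
    linarith
  have he1 : e ≤ 1 := hees.trans (P.es1.trans (by norm_num))
  have hhalf : ε ≤ 2 * e := by
    have := hS.half he
    linarith
  have hb : 0 < b := hb1.trans_le Q.hb1
  have hnm := hS.lt
  have hnj : n ≤ j := by omega
  have htj := tn_pos j
  have htjn : tn j ≤ tn n := tn_anti hnj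
  have hpfe : 0 < e ^ P.pf := Real.rpow_pos_of_pos he0 _
  have hη0 : 0 ≤ ε ^ P.pf := Real.rpow_nonneg hε.le P.pf
  have hC₀0 : 0 ≤ C₀ := by linarith
  obtain ⟨s, hP, hs, hzpos, hzN⟩ := fs_pm h p3 p4 p5 hb1 hpp hA hC₀ hS he hy hN.n1 hN.n2 hT0
    (by omega) hjm hmj htop Q
  have hE1 : e ^ (1 - 4 * ρ) ≤ e ^ (P.pf + 2 * P.th) :=
    Real.rpow_le_rpow_of_exponent_ge he0 he1 hρ
  have hsE : s ≤ 2 * (2048 * A) ^ 2 * e ^ (P.pf + 2 * P.th) :=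
    hs.trans (mul_le_mul_of_nonneg_left hE1 (by positivity))
  have hα := alpha_le hb hn1 (by omega) hη0 (Real.rpow_le_one hε.le hS.ε1 hpf0) hC₀0 hz0 hz hF
    (fun k hk => htop (2 ^ r0) (tn n) (tn_pos n) le_rfl k hk)
  have hX := stepX_le (C₀ := C₀) (B := 2 * (2048 * A) ^ 2) hS hhalf he1 hjm hmj hpp hthp hr0 hpf0
    hpf1 rfl hsE hT2 hδ
  have hnum := fs_num he0 he1 hc₂ hα hX hnn hN.n6
  obtain ⟨α', ha, hFl⟩ := fs_core nn hb hnj (by omega) hrr hη0 hδ0 hT1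
    hC₀0 hz0 hz hF hd (fun k hk => htop (2 ^ r0) (tn j) htj htjn k hk) hNK hP
    (by positivity) hc₂ hc21 hcc (Real.rpow_pos_of_pos he0 _) hN.n5
    (fs_Mt he0 hc₂ hN.n4 hjm (by omega))
  refine ⟨SE (tn j) (gk (2 ^ r) b (tn j)) 0, α', hzpos, hzN.trans ?_, ha.trans hnum, ?_⟩
  · have h3 : e ^ (1 - 4 * ρ) = e ^ (1 - 4 * ρ - P.pf) * e ^ P.pf := by
      rw [← Real.rpow_add he0]
      congr 1
      ring
    calc 2 * (2048 * A) ^ 2 * e ^ (1 - 4 * ρ) =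
          (200 * (2048 * A) ^ 2 * e ^ (1 - 4 * ρ - P.pf)) * (e ^ P.pf / 100) := by
          rw [h3]
          ring
      _ ≤ 1 * (e ^ P.pf / 100) := mul_le_mul_of_nonneg_right hN.n3 (by positivity)
      _ = _ := one_mul _
  · intro k hk
    have h1 := hFl k
    rw [SE_gk hb.le htj hk] at h1
    refine h1.trans ?_
    have h2 : 0 ≤ EE k ^ 2 / tn j := by positivity
    calc _ ≤ (e ^ P.pf / 100) * (EE k ^ 2 / tn j) := mul_le_mul_of_nonneg_right hnum h2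
      _ = _ := by ring

end

end Vale.Agent.P159.H846
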