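import Vale.Agent.P159.H846.Fs3

/-!
P159, FLATSTEP (helper846), part 4: constants, all sizes, the family.
-/

set_option linter.unusedSectionVars false

namespace Vale.Agent.P159.H846

open Finset
open Vale.Agent.P159.TM.H764 (Gh EE EE_nonneg EE_zero)
open Vale.Agent.P159.TM.Spec (V Rng)
open Vale.Agent.P159.H963 (Pin)
open Vale.Agent.P159.H972 (Par tn tn_pos SI en FLs RNGs RNG lg Good GP lg_half' lg_anti TT_base
  forty w1)
open Vale.Agent.P159.H197 (NKc SEz flat_AC fl_tor fl_yt)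
open Vale.Agent.P159.H864 (yt)
open Vale.Agent.P159.H813 (LC LC_pos)
open Vale.Agent.P159.H37 (small_rpow lg_lo lg_hi)

noncomputable section

/-- `K` at two sizes with ratio at most `64` -/
lemma kE_cmp {P : Par} (hth1 : P.th ≤ 1) {e e' : ℝ} (he : 0 < e) (h : e / 64 ≤ e') :
    P.kE e' ≤ P.kE e + 6 := by
  have hth := P.th0
  have h1 := lg_half' (c := P.th) (ε := e / 32) (ε' := e') hth hth1 (by positivity) (by linarith)
  have h2 := lg_half' (c := P.th) (ε := e / 16) (ε' := e / 32) hth hth1 (by positivity)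
    (by linarith)
  have h3 := lg_half' (c := P.th) (ε := e / 8) (ε' := e / 16) hth hth1 (by positivity)
    (by linarith)
  have h4 := lg_half' (c := P.th) (ε := e / 4) (ε' := e / 8) hth hth1 (by positivity)
    (by linarith)
  have h5 := lg_half' (c := P.th) (ε := e / 2) (ε' := e / 4) hth hth1 (by positivity)
    (by linarith)
  have h6 := lg_half' (c := P.th) (ε := e) (ε' := e / 2) hth hth1 (by positivity)
    (by linarith)
  unfold H972.Par.kE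
  omega

/-- all numbers -/
lemma fsN_small (nn : ℕ) {th pf ρ A c c₂ A₁ B₂ : ℝ} (hth : 0 < th) (hρ : ρ < 1 / 8)
    (hpf : pf + 4 * ρ < 1) (hc : 0 < c) :
    ∃ E0 : ℝ, 0 < E0 ∧ ∀ e : ℝ, 0 < e → e ≤ E0 →
      FsN nn th pf ρ A c c₂ A₁ B₂ e ∧ 33 * e ^ th ≤ 1 := by
  obtain ⟨e1, he1, k1⟩ := small_rpow (s := 1 / 2 - 2 * ρ) (A := 2048 * A) (B := 1 / 2)
    (by linarith) (by norm_num)
  obtain ⟨e2, he2, k2⟩ := small_rpow (s := 1 / 4 - 2 * ρ) (A := 4 * A) (B := c) (by linarith) hc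
  obtain ⟨e3, he3, k3⟩ := small_rpow (s := 1 - 4 * ρ - pf) (A := 200 * (2048 * A) ^ 2) (B := 1)
    (by linarith) one_pos
  obtain ⟨e4, he4, k4⟩ := small_rpow (s := 3 * th / 4) (A := 4 * Real.pi * (nn + 1) / c₂) (B := 1)
    (by positivity) one_pos
  obtain ⟨e5, he5, k5⟩ := small_rpow (s := th / 4) (A := 1) (B := 1 / 4) (by positivity)
    (by norm_num)
  obtain ⟨e6, he6, k6⟩ := small_rpow (s := th)
    (A := 110 * ((nn : ℝ) + 1) ^ 4 / c₂ ^ 4 * (LC nn + 1) * (B₂ + 16 * (1 + A₁) * 2 ^ (nn + 1)))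
    (B := 1 / 100) hth (by norm_num)
  obtain ⟨e7, he7, k7⟩ := small_rpow (s := th) (A := 33) (B := 1) hth one_pos
  refine ⟨min (min (min e1 e2) (min e3 e4)) (min (min e5 e6) e7), by positivity, ?_⟩
  intro e he hE
  simp only [le_min_iff] at hE
  obtain ⟨⟨⟨E1, E2⟩, E3, E4⟩, ⟨E5, E6⟩, E7⟩ := hE
  refine ⟨⟨k1 e he E1, k2 e he E2, k3 e he E3, k4 e he E4, ?_, k6 e he E6⟩, k7 e he E7⟩
  have := k5 e he E5
  linarith

lemma kE_six {P : Par} {e : ℝ} (he : 0 < e) (h : 33 * e ^ P.th ≤ 1) : 6 ≤ P.kE e := by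
  by_contra hcon
  have h1 : P.kE e ≤ 5 := by omega
  have h2 : e ^ (-P.th) ≤ (2 : ℝ) ^ P.kE e := lg_lo he
  have h3 : (2 : ℝ) ^ P.kE e ≤ 2 ^ 5 := pow_le_pow_right₀ (by norm_num) h1
  have h5 : e ^ (-P.th) * e ^ P.th = 1 := by
    rw [← Real.rpow_add he, neg_add_cancel, Real.rpow_zero]
  have h6 : 0 < e ^ P.th := Real.rpow_pos_of_pos he _
  nlinarith

lemma pow32 {pf : ℝ} (h : 1 / 4 ≤ pf) : (16 / 7 : ℝ) ≤ 32 ^ pf := by
  have h1 : (16 / 7 : ℝ) = ((16 / 7 : ℝ) ^ (4 : ℝ)) ^ (1 / 4 : ℝ) := by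
    rw [← Real.rpow_mul (by norm_num)]
    norm_num
  have h2 : ((16 / 7 : ℝ) ^ (4 : ℝ)) ≤ 32 := by
    have : (16 / 7 : ℝ) ^ (4 : ℝ) = (16 / 7 : ℝ) ^ (4 : ℕ) := by
      rw [← Real.rpow_natCast]
      norm_num
    rw [this]
    norm_num
  calc (16 / 7 : ℝ) = ((16 / 7 : ℝ) ^ (4 : ℝ)) ^ (1 / 4 : ℝ) := h1
    _ ≤ 32 ^ (1 / 4 : ℝ) := Real.rpow_le_rpow (by positivity) h2 (by norm_num)
    _ ≤ 32 ^ pf := Real.rpow_le_rpow_of_exponent_le (by norm_num) h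

lemma tn_pred {m : ℕ} (h : 1 ≤ m) : 4 * tn m = tn (m - 1) := by
  unfold H972.tn
  have : (4 : ℝ) ^ m = 4 ^ (m - 1) * 4 := by
    rw [← pow_succ, Nat.sub_add_cancel h]
  rw [this]
  field_simp

/-- **one step, fixed parameters** -/
theorem flat_one {b1 : ℝ} (hb1 : 0 < b1) (b2 : ℝ) :
    ∃ W₀ : ℝ, ∀ W : ℝ, W₀ ≤ W → ∃ ys0 : ℝ, ∃ X00 : ℕ, 0 < ys0 ∧
    ∀ (th thp sg pf q C₀ : ℝ) (q0 : ℕ), 0 < th → 0 < thp → thp ≤ 1 / 2 →
      th + 4 * q0 * thp < 1 / 8 → 1 / 4 ≤ pf → pf + 3 * th + 4 * (th + 4 * q0 * thp) ≤ 1 →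
      pf + 2 * th ≤ q → 16 * thp ≤ sg → sg ≤ 1 → 1 ≤ C₀ → ∃ E0 : ℝ, 0 < E0 ∧
    ∀ P : Par, P.Adm → P.b1 = b1 → P.b2 = b2 → P.W = W → P.ys ≤ ys0 → X00 ≤ P.X0 → P.th = th →
      P.thp = thp → P.q0 = q0 → P.pf = pf → P.es ≤ E0 →
    ∀ (b : ℝ) (N0 : ℕ), 1 ≤ N0 →
      (∀ (N : ℕ) [NeZero N] (t : ℝ), 0 < t → t ≤ tn N0 → ∀ k : V N, k ≠ 0 →
        Pin N b t k ≤ C₀ * (t + EE k)) →
      DropS P b q N0 → FlatStep' P b sg N0 := by
  obtain ⟨W1, h1⟩ := flat_AC hb1 b2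
  obtain ⟨W2, c, C, ys2, X2, hc, hC, hys2, hX2, h2⟩ := pmod hb1 b2 (5 / 2)
  refine ⟨max W1 W2, fun W hW => ?_⟩
  obtain ⟨ys1, X1, hys1, h1⟩ := h1 W ((le_max_left _ _).trans hW)
  refine ⟨min ys1 ys2, max X1 X2, lt_min hys1 hys2, ?_⟩
  intro th thp sg pf q C₀ q0 hth hthp hthp2 hρ hpf hpf2 hq hsg hsg1 hC₀
  have hρ0 : 0 ≤ th + 4 * q0 * thp := by positivity
  obtain ⟨E1, hE1, hAC⟩ := h1 th thp sg th q0 hth hthp hρ hsg hsg1 hth (by linarith)
  obtain ⟨nn, hnn⟩ := exists_nat_ge ((pf + 2 * th) * (4 / th))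
  have hnn' : pf + 2 * th ≤ (nn + 1) * (th / 4) := by
    have e1 : pf + 2 * th = (pf + 2 * th) * (4 / th) * (th / 4) := by field_simp
    rw [e1]
    exact mul_le_mul_of_nonneg_right (by linarith) (by positivity)
  set c₂ : ℝ := min 1 (c / (8 * C)) with hc₂
  have hC0 : 0 < C := by linarith
  have hc20 : 0 < c₂ := lt_min one_pos (by positivity)
  have hc21 : c₂ ≤ 1 := min_le_left _ _
  have hcc : 8 * C * c₂ ^ 2 ≤ (c / 2) ^ 2 := by
    have h3 : c₂ ≤ c / (8 * C) := min_le_right _ _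
    have h4 : c₂ ^ 2 ≤ (c / (8 * C)) ^ 2 := pow_le_pow_left₀ hc20.le h3 2
    have h5 : 8 * C * (c / (8 * C)) ^ 2 = c ^ 2 / (8 * C) := by
      field_simp
    have h6 : c ^ 2 / (8 * C) ≤ c ^ 2 / 4 := by
      apply div_le_div_of_nonneg_left (by positivity) (by norm_num)
      linarith
    calc 8 * C * c₂ ^ 2 ≤ 8 * C * (c / (8 * C)) ^ 2 :=
          mul_le_mul_of_nonneg_left h4 (by positivity)
      _ = c ^ 2 / (8 * C) := h5
      _ ≤ c ^ 2 / 4 := h6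
      _ = (c / 2) ^ 2 := by ring
  obtain ⟨E2, hE2, hN⟩ := fsN_small nn (th := th) (pf := pf) (ρ := th + 4 * q0 * thp)
    (A := 4 ^ (1 + 4 * q0)) (c := c) (c₂ := c₂) (A₁ := 2 * C₀ + 41)
    (B₂ := 3000 * (26 + 2 * (2048 * 4 ^ (1 + 4 * q0)) ^ 2 + 4 * (1 + C₀) ^ 2)) hth hρ
    (by linarith) hc
  refine ⟨min E1 E2, lt_min hE1 hE2, ?_⟩
  intro P hA p1 p2 p3 p4 p5 p6 p7 p8 p9 hPe b N0 hN0 htop hD n m ε Y hS hR
  subst p1 p2 p6 p7 p8 p9
  have hε := hS.εpos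
  have hε1 := hS.ε1
  have hεes := hS.εes
  have hnm := hS.lt
  have hn1 : 1 ≤ n := hN0.trans hS.n0
  obtain ⟨τ, a0, -, -, hG⟩ := hS.good
  by_cases hen : en sg ε Y ≤ P.es
  swap
  · exact ⟨0, fun e h3 h4 => absurd (h3.trans h4) hen⟩
  have htop' : ∀ (N : ℕ) [NeZero N] (t : ℝ), 0 < t → t ≤ tn n → ∀ k : V N, k ≠ 0 →
      Pin N b t k ≤ C₀ * (t + EE k) := fun N _ t ht htn =>
    htop N t ht (htn.trans (tn_anti hS.n0))
  have hpm : PMp P.b1 P.b2 W c C ys2 X2 := fun N _ b ξ y t C₀ =>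
    h2 W ((le_max_right _ _).trans hW) N b ξ y t C₀
  have key : ∀ e, en sg ε Y ≤ e → e ≤ P.es → ∃ α, |α - a0| ≤ ε ^ P.pf ∧ ∀ r, P.TT m e r →
      H972.FL b (tn m) α (e ^ P.pf / 100) (2 ^ r) ∧
        H972.FL b (4 * tn m) α (e ^ P.pf / 100) (2 ^ r) := by
    intro e he hees
    have hhalf := hS.half he
    have he0 : 0 < e := by linarith
    have he1 : e ≤ 1 := hees.trans (P.es1.trans (by norm_num))
    obtain ⟨hNe, h33⟩ := hN e he0 (hees.trans (hPe.trans (min_le_right _ _)))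
    have hk6 := kE_six he0 h33
    have hTT := (hA.TT_base1 hε hεes hhalf hS.lo hS.up).1
    obtain ⟨z, α, hz0, hz, hα, hF⟩ := ((hG ε le_rfl hεes).flat _ hTT).1
    refine ⟨α, hα, fun r hr => ?_⟩
    have hkk : m + P.kE P.es ≤ m + P.kE e := by
      have := lg_anti P.th0.le he0 hees
      unfold H972.Par.kE
      omega
    have hTe : P.TT m e (m + P.kE e) := TT_base P m e
    have core : ∀ j, j ≤ m → m ≤ j + 1 → (tn j = tn m ∨ tn j = 4 * tn m) → RNG P b j r e →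
        H972.FL b (tn j) α (e ^ P.pf / 100) (2 ^ r) := by
      intro j hjm hmj hjt Q
      have hac := hAC P rfl rfl p3 (p4.trans (min_le_left _ _)) ((le_max_left _ _).trans p5) rfl
        rfl rfl hA.hth (hPe.trans (min_le_left _ _)) b N0 n m ε Y e hS he hees (m + P.kE e) r
        le_rfl hr.1 hr.2 (hR e he hees _ (Or.inl hTe)).1 (hR e he hees _ (Or.inl hr)).1
        (hR e he hees _ (Or.inl hTe)).2 (hR e he hees _ (Or.inl hr)).2 (tn j) hjt
      have hd := hD n m ε Y hS (m + P.kE e) hTT hkk j hjm hmj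
      have hδ : ε ^ q ≤ 4 * e ^ (P.pf + 2 * P.th) := by
        have h3 : ε ^ q ≤ ε ^ (P.pf + 2 * P.th) := Real.rpow_le_rpow_of_exponent_ge hε hε1 hq
        refine h3.trans (eps_pow hε (by linarith) (by have := P.th0; linarith) ?_)
        linarith
      refine fs_j (δ := ε ^ q) (sg := sg)
        (T := e ^ (1 - 4 * (P.th + 4 * (P.q0 : ℝ) * P.thp) - P.th)) hc hpm p3
        (p4.trans (min_le_right _ _)) ((le_max_right _ _).trans p5) hb1 hA.hth hthp2 ?_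
        hA.pf0.le hA.pf1 ?_ hc20 hc21 hcc hC₀ hnn' hS he hees (fl_yt hS he hsg hsg1) hNe rfl
        hr.1 (fl_tor he0 he1 hr.2) hk6 hn1 hjm hmj htop' Q hz0 hz hF hd
        (Real.rpow_nonneg hε.le _) hδ hac.1 (Real.rpow_nonneg he0.le _) ?_
      · positivity
      · linarith
      · refine Real.rpow_le_rpow_of_exponent_ge he0 he1 ?_
        linarith
    have hRr := hR e he hees r (Or.inl hr)
    have hpr := tn_pred (m := m) (by omega)
    refine ⟨core m le_rfl (by omega) (Or.inl rfl) hRr.1, ?_⟩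
    rw [hpr]
    exact core (m - 1) (by omega) (by omega) (Or.inr hpr.symm) hRr.2
  obtain ⟨a, ha, hfa⟩ := key (en sg ε Y) le_rfl hen
  have hen2 := hS.half (le_refl (en sg ε Y))
  have hen0 : 0 < en sg ε Y := by linarith
  refine ⟨a, fun e he hees r hr => ?_⟩
  obtain ⟨α, hα, hfe⟩ := key e he hees
  have he0 : 0 < e := hen0.trans_le he
  have hpfe : 0 < e ^ P.pf := Real.rpow_pos_of_pos he0 _
  have hcl : |α - a| + e ^ P.pf / 100 ≤ e ^ P.pf := by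
    by_cases hc32 : e ≤ 32 * ε
    · have hcmp := kE_cmp (P := P) (hA.th1) he0 (e' := en sg ε Y) (by linarith)
      have h4 : P.TT m (en sg ε Y) (m + P.kE (en sg ε Y)) := TT_base P m _
      have h5 : P.TT m e (m + P.kE (en sg ε Y)) := by
        have hw := w1 he0 hees
        have hq2 := hA.hq
        have h6 : P.kE e ≤ P.kE (en sg ε Y) := lg_anti P.th0.le hen0 he
        have h7 : 2 * (4 * 1) ≤ P.q0 * (4 * P.w e) :=
          Nat.mul_le_mul hq2 (Nat.mul_le_mul_left _ hw)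
        exact ⟨by omega, by omega⟩
      have hk3 := hA.hk
      have h40 := forty hk3 hen0 hen (n := m) (r := m + P.kE (en sg ε Y)) le_rfl
      have h2N : 2 ≤ 2 ^ (m + P.kE (en sg ε Y)) := by
        calc 2 = 2 ^ 1 := by norm_num
          _ ≤ 2 ^ (m + P.kE (en sg ε Y)) := Nat.pow_le_pow_right (by norm_num) (by omega)
      have h6 := (hfe _ h5).1.det h40 h2N (hfa _ h4).1
      have h7 : en sg ε Y ^ P.pf ≤ e ^ P.pf := Real.rpow_le_rpow hen0.le he hA.pf0.le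
      linarith
    · push Not at hc32
      have h6 : (32 * ε) ^ P.pf ≤ e ^ P.pf :=
        Real.rpow_le_rpow (by positivity) hc32.le hA.pf0.le
      rw [Real.mul_rpow (by norm_num) hε.le] at h6
      have h7 := pow32 hpf
      have hεp : 0 < ε ^ P.pf := Real.rpow_pos_of_pos hε _
      have h8 : 16 / 7 * ε ^ P.pf ≤ e ^ P.pf :=
        (mul_le_mul_of_nonneg_right h7 hεp.le).trans h6
      have h9 : |α - a| ≤ 2 * ε ^ P.pf := by
        have e1 : α - a = (α - a0) - (a - a0) := by ring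
        rw [e1]
        exact (abs_sub _ _).trans (by linarith)
      linarith
  exact ⟨(hfe r hr).1.mono (tn_pos m) hcl, (hfe r hr).2.mono (by have := tn_pos m; positivity) hcl⟩

end

end Vale.Agent.P159.H846
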