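import Vale.Agent.P159.H552.GauHS2
import Vale.Agent.P159.H37.Gau

/-!
P159, P6 / SD.tor, item (A) of helper462's row 7015 (helper846): a Gaussian window law and ONE linear
functional of the whole field.

* `ind0` : `B w = 0` ⟹ `E f(B g) <w, g> = 0`;
* `law_x` : the covariance of the window changes by `B₁ H B₁ᵀ`, `H` small in Hilbert-Schmidt norm, the
  covariance between the window and the functional does not change: then `E f(B g) <w, g>` changes by
  `4 η v (L² E f² + 32 λ² e^{-L})^{1/2}` only.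
-/

namespace Vale.Agent.P159.H846.La

open MeasureTheory ProbabilityTheory Finset Matrix
open Vale.Agent.P159.H37 (gau)
open Vale.Agent.P159.H552 (gau_int_eq gau_integrable_iff meas_mulVec hs_l2)

noncomputable section

variable {I I₁ I₂ J : Type*} [Fintype I] [Fintype I₁] [Fintype I₂] [Fintype J]

/-! ### the augmented window -/

set_option linter.unusedSectionVars false

/-- window and one linear functional -/
def aug (B : Matrix J I ℝ) (w : I → ℝ) : Matrix (J ⊕ Unit) I ℝ :=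
  Matrix.of fun j i => Sum.elim (fun j => B j i) (fun _ => w i) j

/-- the function `f(window) * functional` -/
def fx (f : (J → ℝ) → ℝ) (u : J ⊕ Unit → ℝ) : ℝ := f (fun j => u (Sum.inl j)) * u (Sum.inr ())

lemma fx_aug (f : (J → ℝ) → ℝ) (B : Matrix J I ℝ) (w g : I → ℝ) :
    fx f (aug B w *ᵥ g) = f (B *ᵥ g) * (w ⬝ᵥ g) := rfl

lemma measurable_fx {f : (J → ℝ) → ℝ} (hf : Measurable f) : Measurable (fx f) := by
  unfold fx
  exact (hf.comp (by fun_prop)).mul (by fun_prop)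

lemma aug_cov {B : Matrix J I₁ ℝ} {B' : Matrix J I₂ ℝ} {w : I₁ → ℝ} {w' : I₂ → ℝ}
    (h1 : B * Bᵀ = B' * B'ᵀ) (h2 : B *ᵥ w = B' *ᵥ w') (h3 : w ⬝ᵥ w = w' ⬝ᵥ w') :
    aug B w * (aug B w)ᵀ = aug B' w' * (aug B' w')ᵀ := by
  ext a b
  rcases a with a | a <;> rcases b with b | b
  · exact congrFun (congrFun h1 a) b
  · exact congrFun h2 a
  · have h := congrFun h2 b
    simp only [mulVec, dotProduct] at h
    simp only [Matrix.mul_apply, transpose_apply, aug, of_apply, Sum.elim_inl, Sum.elim_inr]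
    rw [show ∑ x, w x * B b x = ∑ x, B b x * w x from Finset.sum_congr rfl fun _ _ => mul_comm _ _,
      show ∑ x, w' x * B' b x = ∑ x, B' b x * w' x from
        Finset.sum_congr rfl fun _ _ => mul_comm _ _]
    exact h
  · exact h3

/-- **a functional which is independent of the window** -/
theorem ind0 {B : Matrix J I ℝ} {w : I → ℝ} (hw : B *ᵥ w = 0) {f : (J → ℝ) → ℝ}
    (hf : Measurable f) : ∫ g, f (B *ᵥ g) * (w ⬝ᵥ g) ∂(gau I) = 0 := by
  have h := gau_int_eq (A := aug B w) (B := aug B (-w))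
    (aug_cov rfl (by rw [hw, mulVec_neg, hw, neg_zero]) (by rw [neg_dotProduct_neg]))
    (measurable_fx hf)
  simp only [fx_aug] at h
  have h2 : ∀ g : I → ℝ, f (B *ᵥ g) * (-w ⬝ᵥ g) = -(f (B *ᵥ g) * (w ⬝ᵥ g)) := fun g => by
    rw [neg_dotProduct]
    ring
  simp only [h2] at h
  rw [integral_neg] at h
  linarith

/-! ### one more column -/

/-- an independent coordinate which the window does not see -/
def ex0 (B : Matrix J I ℝ) : Matrix J (I ⊕ Unit) ℝ := fromCols B 0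

/-- the functional with the independent coordinate -/
def exw (w : I → ℝ) (c : ℝ) : I ⊕ Unit → ℝ := Sum.elim w fun _ => c

lemma ex0_cov (B : Matrix J I ℝ) : ex0 B * (ex0 B)ᵀ = B * Bᵀ := by
  unfold ex0
  rw [transpose_fromCols, fromCols_mul_fromRows, Matrix.zero_mul, add_zero]

lemma ex0_exw (B : Matrix J I ℝ) (w : I → ℝ) (c : ℝ) : ex0 B *ᵥ exw w c = B *ᵥ w := by
  funext j
  simp [ex0, exw, mulVec, dotProduct, Fintype.sum_sum_type]

lemma exw_dot (w w' : I → ℝ) (c c' : ℝ) : exw w c ⬝ᵥ exw w' c' = w ⬝ᵥ w' + c * c' := by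
  simp [exw, dotProduct, Fintype.sum_sum_type]

lemma exw_split (w : I → ℝ) (c : ℝ) (g : I ⊕ Unit → ℝ) :
    exw w c ⬝ᵥ g = exw w 0 ⬝ᵥ g + exw 0 c ⬝ᵥ g := by
  simp [exw, dotProduct, Fintype.sum_sum_type]

/-! ### integrability and moments of linear functionals -/

lemma measurable_dot (w : I → ℝ) : Measurable (fun g : I → ℝ => w ⬝ᵥ g) := by
  simp only [dotProduct]
  fun_prop

lemma integrable_dot (w : I → ℝ) : Integrable (fun g : I → ℝ => w ⬝ᵥ g) (gau I) := by
  have h1 := H37.integrable_exp_lin w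
  have h2 := H37.integrable_exp_lin (-w)
  refine (h1.add h2).mono' (measurable_dot w).aestronglyMeasurable
    (Filter.Eventually.of_forall fun g => ?_)
  have e1 : ∑ i, (-w) i * g i = -(w ⬝ᵥ g) := by
    simp [dotProduct, Finset.sum_neg_distrib]
  have e2 : ∑ i, w i * g i = w ⬝ᵥ g := rfl
  simp only [Pi.add_apply]
  rw [e1, e2, Real.norm_eq_abs]
  have h3 := Real.add_one_le_exp (w ⬝ᵥ g)
  have h4 := Real.add_one_le_exp (-(w ⬝ᵥ g))
  have h5 := Real.exp_pos (w ⬝ᵥ g)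
  have h6 := Real.exp_pos (-(w ⬝ᵥ g))
  rcases abs_cases (w ⬝ᵥ g) with ⟨h, _⟩ | ⟨h, _⟩ <;> rw [h] <;> linarith

lemma integrable_f_dot {f : (J → ℝ) → ℝ} (hf : Measurable f) {lam : ℝ} (hl : ∀ u, |f u| ≤ lam)
    (B : Matrix J I ℝ) (w : I → ℝ) :
    Integrable (fun g : I → ℝ => f (B *ᵥ g) * (w ⬝ᵥ g)) (gau I) :=
  (integrable_dot w).bdd_mul (c := lam) (hf.comp (meas_mulVec B)).aestronglyMeasurable
    (Filter.Eventually.of_forall fun g => by rw [Real.norm_eq_abs]; exact hl _)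

/-- the functional with an independent coordinate -/
lemma int_ex {f : (J → ℝ) → ℝ} (hf : Measurable f) {lam : ℝ} (hl : ∀ u, |f u| ≤ lam)
    (B : Matrix J I ℝ) (w : I → ℝ) (c : ℝ) :
    ∫ g, f (ex0 B *ᵥ g) * (exw w c ⬝ᵥ g) ∂(gau (I ⊕ Unit)) =
      ∫ g, f (B *ᵥ g) * (w ⬝ᵥ g) ∂(gau I) := by
  simp only [exw_split w c, mul_add]
  rw [integral_add (integrable_f_dot hf hl _ _) (integrable_f_dot hf hl _ _),
    ind0 (B := ex0 B) (w := exw 0 c) (by rw [ex0_exw, mulVec_zero]) hf, add_zero]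
  have h := gau_int_eq (A := aug (ex0 B) (exw w 0)) (B := aug B w)
    (aug_cov (ex0_cov B) (ex0_exw B w 0) (by rw [exw_dot]; ring)) (measurable_fx hf)
  simpa only [fx_aug] using h

/-- `t² ≤ L² + 4 e^{-L} (e^{2t} + e^{-2t})` -/
lemma sq_le_exp (L t : ℝ) :
    t ^ 2 ≤ L ^ 2 + 4 * Real.exp (-L) * (Real.exp (2 * t) + Real.exp (-(2 * t))) := by
  have key : ∀ s : ℝ, 0 ≤ s → s ^ 2 ≤ L ^ 2 + 4 * Real.exp (-L) * Real.exp (2 * s) := by
    intro s hs
    rcases le_total s L with h | h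
    · have h1 : s ^ 2 ≤ L ^ 2 := pow_le_pow_left₀ hs h 2
      have h2 : 0 ≤ 4 * Real.exp (-L) * Real.exp (2 * s) := by positivity
      linarith
    · have h1 : Real.exp s ≤ Real.exp (-L) * Real.exp (2 * s) := by
        rw [← Real.exp_add]
        exact Real.exp_le_exp.2 (by linarith)
      have h2 : s ^ 2 / 2 ≤ Real.exp s := by
        have := Real.quadratic_le_exp_of_nonneg hs
        linarith
      nlinarith [sq_nonneg L, Real.exp_pos s]
  have p1 : 0 < Real.exp (-L) := Real.exp_pos _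
  rcases le_total 0 t with h | h
  · have h1 := key t h
    have h2 := Real.exp_pos (-(2 * t))
    nlinarith
  · have h1 := key (-t) (by linarith)
    have h2 := Real.exp_pos (2 * t)
    have e : 2 * -t = -(2 * t) := by ring
    rw [e, neg_sq] at h1
    nlinarith

/-- **second moment with a bounded factor** -/
theorem mom2 {f : (J → ℝ) → ℝ} (hf : Measurable f) {lam v L : ℝ} (hl : ∀ u, |f u| ≤ lam)
    (B : Matrix J I ℝ) {w : I → ℝ} (hv : 0 < v) (hw : w ⬝ᵥ w ≤ v ^ 2) :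
    Integrable (fun g : I → ℝ => (f (B *ᵥ g) * (w ⬝ᵥ g)) ^ 2) (gau I) ∧
    ∫ g, (f (B *ᵥ g) * (w ⬝ᵥ g)) ^ 2 ∂(gau I) ≤
      v ^ 2 * (L ^ 2 * ∫ g, f (B *ᵥ g) ^ 2 ∂(gau I) + 64 * lam ^ 2 * Real.exp (-L)) := by
  set X : (I → ℝ) → ℝ := fun g => w ⬝ᵥ g with hX
  have hXm : Measurable X := measurable_dot w
  have e1 : ∀ s : ℝ, ∀ g : I → ℝ, ∑ i, ((s / v) • w) i * g i = s * (X g / v) := fun s g => by
    have : ((s / v) • w) ⬝ᵥ g = s / v * (w ⬝ᵥ g) := smul_dotProduct _ _ _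
    calc ∑ i, ((s / v) • w) i * g i = ((s / v) • w) ⬝ᵥ g := rfl
      _ = _ := by rw [this]; simp only [hX]; ring
  have ie : ∀ s : ℝ, Integrable (fun g : I → ℝ => Real.exp (s * (X g / v))) (gau I) := fun s => by
    have := H37.integrable_exp_lin ((s / v) • w)
    simpa only [e1] using this
  have ve : ∀ s : ℝ, s ^ 2 = 4 → ∫ g, Real.exp (s * (X g / v)) ∂(gau I) ≤ Real.exp 2 := by
    intro s hs
    have h := H37.gau_exp ((s / v) • w)
    simp only [e1] at h
    rw [h]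
    refine Real.exp_le_exp.2 ?_
    have h2 : ∑ i, ((s / v) • w) i ^ 2 = 4 / v ^ 2 * (w ⬝ᵥ w) := by
      simp only [Pi.smul_apply, smul_eq_mul, dotProduct, Finset.mul_sum]
      refine Finset.sum_congr rfl fun i _ => ?_
      rw [← hs]
      ring
    rw [h2]
    have h3 : 4 / v ^ 2 * (w ⬝ᵥ w) ≤ 4 / v ^ 2 * v ^ 2 :=
      mul_le_mul_of_nonneg_left hw (by positivity)
    rw [div_mul_cancel₀ _ (by positivity)] at h3
    linarith
  have hlam : 0 ≤ lam := (abs_nonneg _).trans (hl 0)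
  set G : (I → ℝ) → ℝ := fun g => v ^ 2 * (L ^ 2 * f (B *ᵥ g) ^ 2 + 4 * lam ^ 2 * Real.exp (-L) *
    (Real.exp (2 * (X g / v)) + Real.exp (-2 * (X g / v)))) with hG
  have hfm : Measurable fun g : I → ℝ => f (B *ᵥ g) := hf.comp (meas_mulVec B)
  have hf2 : Integrable (fun g : I → ℝ => f (B *ᵥ g) ^ 2) (gau I) := by
    refine Integrable.of_bound (C := lam ^ 2) (hfm.pow_const 2).aestronglyMeasurable
      (Filter.Eventually.of_forall fun g => ?_)
    rw [Real.norm_eq_abs, abs_pow]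
    exact pow_le_pow_left₀ (abs_nonneg _) (hl _) 2
  have i2 : Integrable (fun g : I → ℝ => Real.exp (2 * (X g / v)) + Real.exp (-2 * (X g / v)))
      (gau I) := (ie 2).add (ie (-2))
  have iG : Integrable G (gau I) :=
    ((hf2.const_mul (L ^ 2)).add (i2.const_mul _)).const_mul _
  have hle : ∀ g, (f (B *ᵥ g) * (w ⬝ᵥ g)) ^ 2 ≤ G g := by
    intro g
    have h1 := sq_le_exp L (X g / v)
    have h2 : (w ⬝ᵥ g) = v * (X g / v) := by
      simp only [hX]
      field_simp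
    have h3 : f (B *ᵥ g) ^ 2 ≤ lam ^ 2 := by
      rw [← sq_abs]
      exact pow_le_pow_left₀ (abs_nonneg _) (hl _) 2
    rw [mul_pow, h2, mul_pow]
    simp only [hG]
    have e3 : -2 * (X g / v) = -(2 * (X g / v)) := by ring
    rw [e3]
    set t := X g / v
    set E := Real.exp (2 * t) + Real.exp (-(2 * t)) with hE
    have hE0 : 0 < E := by rw [hE]; positivity
    have hp : 0 < Real.exp (-L) := Real.exp_pos _
    have h4 : f (B *ᵥ g) ^ 2 * t ^ 2 ≤
        L ^ 2 * f (B *ᵥ g) ^ 2 + 4 * lam ^ 2 * Real.exp (-L) * E := by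
      have h5 : f (B *ᵥ g) ^ 2 * t ^ 2 ≤
          f (B *ᵥ g) ^ 2 * (L ^ 2 + 4 * Real.exp (-L) * E) :=
        mul_le_mul_of_nonneg_left h1 (sq_nonneg _)
      have h6 : f (B *ᵥ g) ^ 2 * (4 * Real.exp (-L) * E) ≤ lam ^ 2 * (4 * Real.exp (-L) * E) :=
        mul_le_mul_of_nonneg_right h3 (by positivity)
      nlinarith
    nlinarith [mul_le_mul_of_nonneg_left h4 (sq_nonneg v)]
  have hI : Integrable (fun g : I → ℝ => (f (B *ᵥ g) * (w ⬝ᵥ g)) ^ 2) (gau I) := by
    refine iG.mono' ((hfm.mul hXm).pow_const 2).aestronglyMeasurable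
      (Filter.Eventually.of_forall fun g => ?_)
    rw [Real.norm_eq_abs, abs_of_nonneg (sq_nonneg _)]
    exact hle g
  refine ⟨hI, (integral_mono hI iG hle).trans ?_⟩
  simp only [hG]
  rw [integral_const_mul, integral_add (hf2.const_mul _) (i2.const_mul _),
    integral_const_mul, integral_const_mul, integral_add (ie 2) (ie (-2))]
  have h7 := ve 2 (by norm_num)
  have h8 := ve (-2) (by norm_num)
  have h9 : Real.exp 2 ≤ 8 := by
    have : Real.exp 2 = Real.exp 1 ^ 2 := by rw [← Real.exp_nat_mul]; norm_num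
    rw [this]
    have := Real.exp_one_lt_d9
    nlinarith [Real.exp_pos 1]
  refine mul_le_mul_of_nonneg_left ?_ (sq_nonneg v)
  have h10 : 4 * lam ^ 2 * Real.exp (-L) *
      ((∫ g, Real.exp (2 * (X g / v)) ∂(gau I)) + ∫ g, Real.exp (-2 * (X g / v)) ∂(gau I)) ≤
      4 * lam ^ 2 * Real.exp (-L) * 16 :=
    mul_le_mul_of_nonneg_left (by linarith) (by positivity)
  linarith

end

end Vale.Agent.P159.H846.La
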