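import Vale.Agent.P159.H864.Fou0
import Vale.Agent.P159.H474.Green8

/-!
P159, module PROF (helper846), part 1: the quartic bound for the symbol of a translation invariant
kernel on the torus with the symmetries of the square.

* `cheb_bounds`: `0 ≤ m² (1 - cos θ) - (1 - cos m θ) ≤ m² (m² - 1) / 6 (1 - cos θ)²`.
* `quartic`: for `A` translation invariant, invariant under reflection and swap, with row sum
  `A0`, second moment `m2 = ∑ A 0 z |z₁|²` and fourth moment `M4 = ∑ |A 0 z| (|z₁|² + |z₂|²)²`: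
  `|sym A k - sym A 0 + m2 / 2 * EE k| ≤ M4 / 16 * EE k ^ 2` for every `k`.
-/

set_option linter.unusedSectionVars false

namespace Vale.Agent.P159.H846

open Finset Matrix
open Vale.Agent.P159.TM.H764 (Gh cN sN dt ch EE)
open Vale.Agent.P159.TM.Spec (V)
open Vale.Agent.P159.H864 (TI sym sym_def)

noncomputable section

/-! ### one dimension -/

/-- second order bounds for `1 - cos (m θ)` -/
lemma cheb_bounds (θ : ℝ) (m : ℕ) :
    (0 ≤ (m : ℝ) ^ 2 * (1 - Real.cos θ) - (1 - Real.cos (m * θ)) ∧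
      (m : ℝ) ^ 2 * (1 - Real.cos θ) - (1 - Real.cos (m * θ)) ≤
        (m : ℝ) ^ 2 * ((m : ℝ) ^ 2 - 1) / 6 * (1 - Real.cos θ) ^ 2) ∧
    (0 ≤ (((m : ℝ) + 1) ^ 2 * (1 - Real.cos θ) - (1 - Real.cos ((m + 1) * θ))) -
        ((m : ℝ) ^ 2 * (1 - Real.cos θ) - (1 - Real.cos (m * θ))) ∧
      (((m : ℝ) + 1) ^ 2 * (1 - Real.cos θ) - (1 - Real.cos ((m + 1) * θ))) -
        ((m : ℝ) ^ 2 * (1 - Real.cos θ) - (1 - Real.cos (m * θ))) ≤
        (m : ℝ) * (m + 1) * (2 * m + 1) / 3 * (1 - Real.cos θ) ^ 2) := by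
  have hx : 0 ≤ 1 - Real.cos θ := by linarith [Real.cos_le_one θ]
  induction m with
  | zero => simp
  | succ m ih =>
    obtain ⟨⟨h1, h2⟩, h3, h4⟩ := ih
    have hm : (0 : ℝ) ≤ m := Nat.cast_nonneg m
    have hc : Real.cos ((m + 1 + 1) * θ) =
        2 * Real.cos θ * Real.cos ((m + 1) * θ) - Real.cos (m * θ) := by
      have e1 : ((m : ℝ) + 1 + 1) * θ = (m + 1) * θ + θ := by ring
      have e2 : (m : ℝ) * θ = (m + 1) * θ - θ := by ring
      rw [e1, e2, Real.cos_add, Real.cos_sub]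
      ring
    push_cast
    set x := 1 - Real.cos θ with hxd
    have hcos : Real.cos θ = 1 - x := by rw [hxd]; ring
    set c0 := Real.cos (m * θ)
    set c1 := Real.cos ((m + 1) * θ)
    rw [hc, hcos]
    have h5 : 0 ≤ ((m : ℝ) + 1) ^ 2 * x - (1 - c1) := by linarith
    have h6 : ((m : ℝ) + 1) ^ 2 * x - (1 - c1) ≤
        ((m : ℝ) + 1) ^ 2 * (((m : ℝ) + 1) ^ 2 - 1) / 6 * x ^ 2 := by
      nlinarith
    refine ⟨⟨h5, h6⟩, ?_, ?_⟩
    · have h7 : 0 ≤ x * (1 - c1) := mul_nonneg hx (by linarith [Real.cos_le_one ((m + 1) * θ)])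
      nlinarith
    · have h7 : x * (1 - c1) ≤ x * (((m : ℝ) + 1) ^ 2 * x) :=
        mul_le_mul_of_nonneg_left (by linarith) hx
      nlinarith

lemma cheb_nonneg (θ : ℝ) (m : ℕ) :
    1 - Real.cos (m * θ) ≤ (m : ℝ) ^ 2 * (1 - Real.cos θ) := by
  have := (cheb_bounds θ m).1.1
  linarith

lemma cheb_le (θ : ℝ) (m : ℕ) :
    (m : ℝ) ^ 2 * (1 - Real.cos θ) - (1 - Real.cos (m * θ)) ≤
      (m : ℝ) ^ 4 / 6 * (1 - Real.cos θ) ^ 2 := by
  refine (cheb_bounds θ m).1.2.trans ?_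
  refine mul_le_mul_of_nonneg_right ?_ (sq_nonneg _)
  have : (0 : ℝ) ≤ (m : ℝ) ^ 2 := by positivity
  nlinarith

variable {N : ℕ} [NeZero N]

/-- `|z|_N²` -/
def q1 (z : ZMod N) : ℝ := (z.valMinAbs : ℝ) ^ 2

lemma q1_nonneg (z : ZMod N) : 0 ≤ q1 z := sq_nonneg _

lemma q1_neg (z : ZMod N) : q1 (-z) = q1 z := by
  unfold q1
  have h : (-z).valMinAbs.natAbs = z.valMinAbs.natAbs := ZMod.natAbs_valMinAbs_neg z
  have h2 : ((-z).valMinAbs : ℝ) ^ 2 = (((-z).valMinAbs.natAbs : ℕ) : ℝ) ^ 2 := by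
    rw [Nat.cast_natAbs, Int.cast_abs, sq_abs]
  have h3 : (z.valMinAbs : ℝ) ^ 2 = ((z.valMinAbs.natAbs : ℕ) : ℝ) ^ 2 := by
    rw [Nat.cast_natAbs, Int.cast_abs, sq_abs]
  rw [h2, h3, h]

lemma q1_natAbs (z : ZMod N) : q1 z = ((z.valMinAbs.natAbs : ℕ) : ℝ) ^ 2 := by
  unfold q1
  rw [Nat.cast_natAbs, Int.cast_abs, sq_abs]

lemma cN_mul_eq (k z : ZMod N) :
    cN (k * z) = Real.cos ((z.valMinAbs.natAbs : ℕ) * (2 * Real.pi * (k.val : ℝ) / N)) := by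
  have hN : (N : ℝ) ≠ 0 := by exact_mod_cast NeZero.ne N
  have h1 : ∀ m : ℤ, cN ((m : ℤ) : ZMod N) = Real.cos (2 * Real.pi * (m : ℝ) / N) := by
    intro m
    obtain ⟨q, hq⟩ := TM.H764.val_int (N := N) m
    unfold cN
    have e : 2 * Real.pi * (m : ℝ) / N = 2 * Real.pi * (((m : ZMod N).val : ℕ) : ℝ) / N +
        q * (2 * Real.pi) := by
      rw [hq]
      field_simp
    rw [e, Real.cos_add_int_mul_two_pi]
  have h2 : k * z = (((k.val : ℤ) * z.valMinAbs : ℤ) : ZMod N) := by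
    push_cast
    rw [ZMod.natCast_zmod_val]
  rw [h2, h1]
  push_cast
  have e : 2 * Real.pi * ((k.val : ℝ) * (z.valMinAbs : ℝ)) / N =
      (z.valMinAbs : ℝ) * (2 * Real.pi * (k.val : ℝ) / N) := by ring
  rw [e]
  rcases abs_cases (z.valMinAbs : ℝ) with ⟨h, _⟩ | ⟨h, _⟩
  · rw [Nat.cast_natAbs, Int.cast_abs, h]
  · rw [Nat.cast_natAbs, Int.cast_abs, h, neg_mul, Real.cos_neg]

lemma cN_eq (k : ZMod N) : cN k = Real.cos (2 * Real.pi * (k.val : ℝ) / N) := rfl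

lemma one_sub_cN_nonneg (k : ZMod N) : 0 ≤ 1 - cN k := by
  unfold cN
  linarith [Real.cos_le_one (2 * Real.pi * (k.val : ℝ) / N)]

lemma cN_le_one (k : ZMod N) : cN k ≤ 1 := by linarith [one_sub_cN_nonneg k]

lemma one_sub_cN_le_two (k : ZMod N) : 1 - cN k ≤ 2 := by
  unfold cN
  linarith [Real.neg_one_le_cos (2 * Real.pi * (k.val : ℝ) / N)]

lemma one_sub_le (k z : ZMod N) : 1 - cN (k * z) ≤ q1 z * (1 - cN k) := by
  rw [cN_mul_eq, q1_natAbs]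
  exact cheb_nonneg _ _

lemma sub_one_sub_le (k z : ZMod N) :
    q1 z * (1 - cN k) - (1 - cN (k * z)) ≤ q1 z ^ 2 / 6 * (1 - cN k) ^ 2 := by
  rw [cN_mul_eq, q1_natAbs, ← pow_mul]
  exact cheb_le _ _

/-! ### two dimensions -/

/-- the product cosine is a quadratic form up to a quartic error -/
lemma prod_bound (k z : V N) :
    |(1 - cN (k.1 * z.1) * cN (k.2 * z.2)) - (q1 z.1 * (1 - cN k.1) + q1 z.2 * (1 - cN k.2))| ≤
      (q1 z.1 + q1 z.2) ^ 2 / 6 * (EE k) ^ 2 / 4 + (q1 z.1 * q1 z.2) * (EE k) ^ 2 / 16 := by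
  have a1 := one_sub_le k.1 z.1
  have a2 := one_sub_le k.2 z.2
  have b1 := sub_one_sub_le k.1 z.1
  have b2 := sub_one_sub_le k.2 z.2
  have p1 := one_sub_cN_nonneg (k.1 * z.1)
  have p2 := one_sub_cN_nonneg (k.2 * z.2)
  have s1 := one_sub_cN_nonneg k.1
  have s2 := one_sub_cN_nonneg k.2
  have r1 := q1_nonneg z.1
  have r2 := q1_nonneg z.2
  have hE : EE k = 2 * (1 - cN k.1) + 2 * (1 - cN k.2) := rfl
  rw [hE]
  set x := 1 - cN k.1
  set y := 1 - cN k.2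
  set u := 1 - cN (k.1 * z.1) with hu
  set v := 1 - cN (k.2 * z.2) with hv
  have e1 : cN (k.1 * z.1) = 1 - u := by rw [hu]; ring
  have e2 : cN (k.2 * z.2) = 1 - v := by rw [hv]; ring
  rw [e1, e2]
  set m := q1 z.1
  set n := q1 z.2
  have h1 : u * v ≤ (m * x) * (n * y) := mul_le_mul a1 a2 p2 (mul_nonneg r1 s1)
  have h2 : 0 ≤ u * v := mul_nonneg p1 p2
  have h3 : x * y ≤ (2 * x + 2 * y) ^ 2 / 16 := by nlinarith [sq_nonneg (x - y)]
  have h4 : (m * x) * (n * y) ≤ (m * n) * ((2 * x + 2 * y) ^ 2 / 16) := by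
    have : (m * x) * (n * y) = (m * n) * (x * y) := by ring
    rw [this]
    exact mul_le_mul_of_nonneg_left h3 (mul_nonneg r1 r2)
  have h5 : m ^ 2 / 6 * x ^ 2 + n ^ 2 / 6 * y ^ 2 ≤ (m + n) ^ 2 / 6 * (2 * x + 2 * y) ^ 2 / 4 := by
    have h6 : m ^ 2 * x ^ 2 + n ^ 2 * y ^ 2 ≤ (m + n) ^ 2 * (x + y) ^ 2 := by
      have q1' : m ^ 2 ≤ (m + n) ^ 2 := by nlinarith [mul_nonneg r1 r2]
      have q2' : n ^ 2 ≤ (m + n) ^ 2 := by nlinarith [mul_nonneg r1 r2]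
      have q3 : m ^ 2 * x ^ 2 ≤ (m + n) ^ 2 * x ^ 2 := mul_le_mul_of_nonneg_right q1' (sq_nonneg x)
      have q4 : n ^ 2 * y ^ 2 ≤ (m + n) ^ 2 * y ^ 2 := mul_le_mul_of_nonneg_right q2' (sq_nonneg y)
      have q5 : (m + n) ^ 2 * (x ^ 2 + y ^ 2) ≤ (m + n) ^ 2 * (x + y) ^ 2 := by
        refine mul_le_mul_of_nonneg_left ?_ (sq_nonneg _)
        nlinarith [mul_nonneg s1 s2]
      linarith
    nlinarith
  rw [abs_le]
  constructor
  · nlinarith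
  · nlinarith [mul_nonneg (mul_nonneg r1 r2) (sq_nonneg (2 * x + 2 * y)),
      mul_nonneg (sq_nonneg (m + n)) (sq_nonneg (2 * x + 2 * y))]

variable {A : Matrix (V N) (V N) ℝ}

lemma sum_ref (f : V N → ℝ) : ∑ z : V N, f (-z.1, z.2) = ∑ z : V N, f z := by
  let e : V N ≃ V N := ⟨fun z => (-z.1, z.2), fun z => (-z.1, z.2), fun z => by simp,
    fun z => by simp⟩
  exact Equiv.sum_comp e f

lemma sum_swp (f : V N → ℝ) : ∑ z : V N, f (z.2, z.1) = ∑ z : V N, f z := by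
  let e : V N ≃ V N := ⟨fun z => (z.2, z.1), fun z => (z.2, z.1), fun _ => rfl, fun _ => rfl⟩
  exact Equiv.sum_comp e f

/-- for a reflection symmetric kernel the characters are products of cosines -/
lemma sym_eq_prod (hr : ∀ z : V N, A 0 (-z.1, z.2) = A 0 z) (k : V N) :
    sym A k = ∑ z, A 0 z * (cN (k.1 * z.1) * cN (k.2 * z.2)) := by
  have h1 : sym A k = ∑ z, A 0 z * (cN (k.1 * z.1) * cN (k.2 * z.2)) -
      ∑ z, A 0 z * (sN (k.1 * z.1) * sN (k.2 * z.2)) := by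
    rw [sym_def, ← Finset.sum_sub_distrib]
    refine Finset.sum_congr rfl fun z _ => ?_
    unfold dt
    rw [TM.H764.cN_add]
    ring
  have h2 : ∑ z, A 0 z * (sN (k.1 * z.1) * sN (k.2 * z.2)) =
      -∑ z, A 0 z * (sN (k.1 * z.1) * sN (k.2 * z.2)) := by
    conv_lhs => rw [← sum_ref]
    rw [← Finset.sum_neg_distrib]
    refine Finset.sum_congr rfl fun z _ => ?_
    rw [hr z]
    simp only [mul_neg, TM.H764.sN_neg]
    ring
  rw [h1]
  linarith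

/-- the second moment -/
def mom2 (A : Matrix (V N) (V N) ℝ) : ℝ := ∑ z : V N, A 0 z * q1 z.1

/-- the fourth moment -/
def mom4 (A : Matrix (V N) (V N) ℝ) : ℝ := ∑ z : V N, |A 0 z| * (q1 z.1 + q1 z.2) ^ 2

lemma mom4_nonneg (A : Matrix (V N) (V N) ℝ) : 0 ≤ mom4 A :=
  Finset.sum_nonneg fun z _ => mul_nonneg (abs_nonneg _) (sq_nonneg _)

lemma mom2_swp (hs : ∀ z : V N, A 0 (z.2, z.1) = A 0 z) :
    ∑ z : V N, A 0 z * q1 z.2 = mom2 A := by
  unfold mom2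
  rw [← sum_swp]
  exact Finset.sum_congr rfl fun z _ => by rw [hs z]

/-- **the quartic bound** -/
theorem quartic (hr : ∀ z : V N, A 0 (-z.1, z.2) = A 0 z)
    (hs : ∀ z : V N, A 0 (z.2, z.1) = A 0 z) (k : V N) :
    |sym A k - sym A 0 + mom2 A / 2 * EE k| ≤ mom4 A / 16 * EE k ^ 2 := by
  have h0 : sym A 0 = ∑ z, A 0 z := TM.H764.Gh_zero _
  have h1 : sym A k - sym A 0 + mom2 A / 2 * EE k = -∑ z, A 0 z *
      ((1 - cN (k.1 * z.1) * cN (k.2 * z.2)) - (q1 z.1 * (1 - cN k.1) + q1 z.2 * (1 - cN k.2))) := by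
    have hE : EE k = 2 * (1 - cN k.1) + 2 * (1 - cN k.2) := rfl
    have h2 : mom2 A / 2 * EE k = ∑ z, A 0 z * (q1 z.1 * (1 - cN k.1) + q1 z.2 * (1 - cN k.2)) := by
      have h3 : ∑ z, A 0 z * (q1 z.1 * (1 - cN k.1) + q1 z.2 * (1 - cN k.2)) =
          (∑ z, A 0 z * q1 z.1) * (1 - cN k.1) + (∑ z, A 0 z * q1 z.2) * (1 - cN k.2) := by
        rw [Finset.sum_mul, Finset.sum_mul, ← Finset.sum_add_distrib]
        exact Finset.sum_congr rfl fun z _ => by ring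
      rw [h3, mom2_swp hs]
      unfold mom2
      rw [hE]
      ring
    rw [h0, sym_eq_prod hr, h2, ← Finset.sum_sub_distrib, ← Finset.sum_add_distrib,
      ← Finset.sum_neg_distrib]
    exact Finset.sum_congr rfl fun z _ => by ring
  rw [h1, abs_neg]
  refine (Finset.abs_sum_le_sum_abs _ _).trans ?_
  unfold mom4
  rw [Finset.sum_div, Finset.sum_mul]
  refine Finset.sum_le_sum fun z _ => ?_
  rw [abs_mul]
  have h2 := prod_bound k z
  have h3 : (q1 z.1 + q1 z.2) ^ 2 / 6 * (EE k) ^ 2 / 4 + (q1 z.1 * q1 z.2) * (EE k) ^ 2 / 16 ≤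
      (q1 z.1 + q1 z.2) ^ 2 / 16 * EE k ^ 2 := by
    have h4 : q1 z.1 * q1 z.2 ≤ (q1 z.1 + q1 z.2) ^ 2 / 4 := by
      nlinarith [sq_nonneg (q1 z.1 - q1 z.2)]
    have h5 : 0 ≤ EE k ^ 2 := sq_nonneg _
    nlinarith
  calc |A 0 z| * _ ≤ |A 0 z| * ((q1 z.1 + q1 z.2) ^ 2 / 16 * EE k ^ 2) :=
        mul_le_mul_of_nonneg_left (h2.trans h3) (abs_nonneg _)
    _ = |A 0 z| * (q1 z.1 + q1 z.2) ^ 2 / 16 * EE k ^ 2 := by ring

end

end Vale.Agent.P159.H846
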