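import Vale.Agent.P159.H846.Prof3

/-!
P159, module PROF (helper846), part 4: one window of the flat profile.

`step` : the profile at mass `t = μ t'` on the torus of side `N`, the drop bound on the same torus, the
comparison of the two tori (`N` and `M = R N`) at mass `t'` on the common momenta, concavity in
`1 - cos k₁` on the torus `M`  ⟹  `FL` at mass `t'` on the torus `M`.
-/

set_option linter.unusedSectionVars false

namespace Vale.Agent.P159.H846

open Finset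
open Vale.Agent.P159.TM.H764 (Gh Gh_zero Gh_prod cN sN dt EE EE_nonneg EE_zero)
open Vale.Agent.P159.H813 (r1 r2 LC LC_pos)

noncomputable section

/-- one torus, one mass: what is used of the kernel -/
structure PMod {N : ℕ} [NeZero N] (w : ZMod N × ZMod N → ℝ) (t c₁ C₁ C₀ s : ℝ) : Prop
    extends KD w t c₁ C₁ where
  pos : ∀ k, 0 < Gh w k
  top : ∀ k, SE t w k ≤ C₀ * (EE k + t)
  zer : |SE t w 0| ≤ s * t
  conc : ∀ j : ℕ, 2 * j ≤ N → Conc N fun i => SE t w ((i : ZMod N), (j : ZMod N))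

lemma PMod.conc2 {N : ℕ} [NeZero N] {w : ZMod N × ZMod N → ℝ} {t c₁ C₁ C₀ s : ℝ}
    (h : PMod w t c₁ C₁ C₀ s) (i : ℕ) (hi : 2 * i ≤ N) :
    Conc N fun j => SE t w ((i : ZMod N), (j : ZMod N)) := by
  have h1 := h.conc i hi
  have e : (fun j : ℕ => SE t w ((i : ZMod N), (j : ZMod N))) =
      fun j : ℕ => SE t w ((j : ZMod N), (i : ZMod N)) := by
    funext j
    unfold SE
    rw [Gh_swap h.refl h.swap]
  rw [e]
  exact h1

/-- comparison of two self energies from a comparison of the kernels -/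
lemma SE_comp {g1 g2 t E C₀ ηT : ℝ} (ht : 0 < t) (hE : 0 ≤ E) (hC : 0 ≤ C₀) (h1 : 0 < g1)
    (h2 : 0 < g2) (t1 : g1⁻¹ - t ≤ C₀ * (E + t)) (t2 : g2⁻¹ - t ≤ C₀ * (E + t))
    (h : |g1 - g2| ≤ ηT / t) :
    |(g2⁻¹ - t) - (g1⁻¹ - t)| ≤ (1 + C₀) ^ 2 * ηT * (t + 2 * E + E ^ 2 / t) := by
  have e : (g2⁻¹ - t) - (g1⁻¹ - t) = (g1 - g2) * (g1⁻¹ * g2⁻¹) := by
    field_simp
    ring
  have b1 : g1⁻¹ ≤ (1 + C₀) * (t + E) := by nlinarith
  have b2 : g2⁻¹ ≤ (1 + C₀) * (t + E) := by nlinarith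
  have p1 : 0 < g1⁻¹ := inv_pos.2 h1
  have p2 : 0 < g2⁻¹ := inv_pos.2 h2
  rw [e, abs_mul, abs_of_pos (mul_pos p1 p2)]
  have h3 : g1⁻¹ * g2⁻¹ ≤ ((1 + C₀) * (t + E)) * ((1 + C₀) * (t + E)) :=
    mul_le_mul b1 b2 p2.le (by positivity)
  calc |g1 - g2| * (g1⁻¹ * g2⁻¹) ≤ (ηT / t) * (((1 + C₀) * (t + E)) * ((1 + C₀) * (t + E))) :=
        mul_le_mul h h3 (mul_pos p1 p2).le ((abs_nonneg _).trans h)
    _ = _ := by
        field_simp
        ring

lemma er_mono {n : ℕ} {κ α s s' : ℝ} (h : s ≤ s') : er n κ α s ≤ er n κ α s' := by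
  unfold er
  have := LC_pos n
  exact mul_le_mul_of_nonneg_left (by linarith) (by linarith)

/-- scalar bound for the lattice momenta -/
lemma lat_bound {N : ℕ} [NeZero N] {w0 w1 : ZMod N × ZMod N → ℝ} {t t' μ a η δ s z : ℝ}
    (ht' : 0 < t') (htt : t = μ * t') (hμ : 1 ≤ μ)
    (hFL : ∀ k, k ≠ 0 → |SE t w0 k - z - a * EE k| ≤ η * (EE k ^ 2 / t)) (hs : |z| ≤ s * t)
    (hd : ∀ k, k ≠ 0 → |SE t w0 k - SE t' w1 k| ≤ δ * (1 + EE k / t') * EE k)
    {k : ZMod N × ZMod N} (hk : k ≠ 0) :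
    |SE t' w1 k - a * EE k| ≤ (μ * s) * t' + δ * EE k + (η / μ + δ) * (EE k ^ 2 / t') := by
  have hμ0 : 0 < μ := by linarith
  have h1 := hFL k hk
  have h2 := hd k hk
  have hE := EE_nonneg k
  have e : SE t' w1 k - a * EE k = (SE t w0 k - z - a * EE k) + z -
      (SE t w0 k - SE t' w1 k) := by ring
  rw [e]
  refine (abs_sub _ _).trans ?_
  have h3 : |SE t w0 k - z - a * EE k + z| ≤ η * (EE k ^ 2 / t) + s * t :=
    (abs_add_le _ _).trans (add_le_add h1 hs)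
  have e2 : η * (EE k ^ 2 / t) + s * t + δ * (1 + EE k / t') * EE k =
      (μ * s) * t' + δ * EE k + (η / μ + δ) * (EE k ^ 2 / t') := by
    rw [htt]
    field_simp
    ring
  linarith

/-- scalar: enlarging the argument -/
lemma B_enlarge {β γ ζ t e x : ℝ} (ht : 0 < t) (hγ : 0 ≤ γ) (hζ : 0 ≤ ζ)
    (hx0 : 0 ≤ x) (hx : x ≤ t) :
    β * t + γ * (4 * e + x) + ζ * ((4 * e + x) ^ 2 / t) ≤
      (β + γ + 2 * ζ) * t + 4 * γ * e + 32 * ζ * (e ^ 2 / t) := by
  have h1 : γ * (4 * e + x) ≤ γ * (4 * e + t) := mul_le_mul_of_nonneg_left (by linarith) hγ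
  have h2 : (4 * e + x) ^ 2 / t ≤ 32 * (e ^ 2 / t) + 2 * t := by
    have h3 : (4 * e + x) ^ 2 ≤ 32 * e ^ 2 + 2 * t ^ 2 := by nlinarith [sq_nonneg (4 * e - x)]
    have e1 : 32 * (e ^ 2 / t) + 2 * t = (32 * e ^ 2 + 2 * t ^ 2) / t := by
      field_simp
    rw [e1]
    exact div_le_div_of_nonneg_right h3 ht.le
  have h4 : ζ * ((4 * e + x) ^ 2 / t) ≤ ζ * (32 * (e ^ 2 / t) + 2 * t) :=
    mul_le_mul_of_nonneg_left h2 hζ
  nlinarith

/-- the size of the error of one window -/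
def stepX (μ s s' T δ η : ℝ) : ℝ := 3000 * (μ * s + s' + 4 * T + 2 * δ + η / μ)

lemma nat_zero_of {N m : ℕ} [NeZero N] (hm : 2 * m ≤ N)
    (h : ((m : ℕ) : ZMod N) = 0) : m = 0 := by
  rw [ZMod.natCast_eq_zero_iff] at h
  rcases Nat.eq_zero_or_pos m with h0 | h0
  · exact h0
  · have := Nat.le_of_dvd h0 h
    have := NeZero.pos N
    omega

/-- **one window** -/
theorem step (nn : ℕ) {N R M : ℕ} [NeZero N] [NeZero M] (hM : M = R * N) (hR : 0 < R)
    (hN4 : 4 ≤ N) (hNe : Even N) {w0 w1 : ZMod N × ZMod N → ℝ} {w2 : ZMod M × ZMod M → ℝ}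
    {t t' μ a η δ ηT s s' z c₁ C₁ C₀ c₂ κ : ℝ}
    (ht' : 0 < t') (ht1 : t' ≤ 1) (htt : t = μ * t') (hμ : 1 ≤ μ) (hδ : 0 ≤ δ) (hη : 0 ≤ η)
    (hs0 : 0 ≤ s) (hT0 : 0 ≤ ηT) (hC₀ : 0 ≤ C₀)
    (hFL : ∀ k, k ≠ 0 → |SE t w0 k - z - a * EE k| ≤ η * (EE k ^ 2 / t)) (hs : |z| ≤ s * t)
    (hd : ∀ k, k ≠ 0 → |SE t w0 k - SE t' w1 k| ≤ δ * (1 + EE k / t') * EE k)
    (hpos1 : ∀ k, 0 < Gh w1 k) (htop1 : ∀ k, k ≠ 0 → SE t' w1 k ≤ C₀ * (EE k + t'))
    (hT : ∀ m n : ℕ, 2 * m ≤ N → 2 * n ≤ N → ((m : ZMod N), (n : ZMod N)) ≠ (0 : ZMod N × ZMod N) →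
      |Gh w1 ((m : ZMod N), (n : ZMod N)) -
        Gh w2 (((m * R : ℕ) : ZMod M), ((n * R : ℕ) : ZMod M))| ≤ ηT / t')
    (hw2 : PMod w2 t' c₁ C₁ C₀ s') (hNt : 320 ≤ (N : ℝ) ^ 2 * t')
    (hc₁ : 0 < c₁) (hc : 0 < c₂) (hc2 : c₂ ≤ 1)
    (hcc : 8 * C₁ * c₂ ^ 2 ≤ c₁ ^ 2) (hκ : 0 < κ) (hκ4 : κ ≤ 1 / 4)
    (hMt : 4 * Real.pi * (nn + 1) ≤ M * (κ * c₂ * √t')) :
    ∃ a', |a' - a| ≤ Lam nn (κ * c₂) * er nn κ a (stepX μ s s' ((1 + C₀) ^ 2 * ηT) δ η) ∧
      FL t' w2 a' (Lam nn (κ * c₂) * er nn κ a (stepX μ s s' ((1 + C₀) ^ 2 * ηT) δ η)) := by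
  set T := (1 + C₀) ^ 2 * ηT with hTd
  have hT00 : 0 ≤ T := by positivity
  have hμ0 : 0 < μ := by linarith
  have hs'0 : 0 ≤ s' := by
    have h1 := (abs_nonneg _).trans hw2.zer
    exact nonneg_of_mul_nonneg_left h1 ht'
  set β := μ * s + s' + T with hβ
  set γ := δ + 2 * T with hγ
  set ζ := η / μ + δ + T with hζ
  have hβ0 : 0 ≤ β := by positivity
  have hγ0 : 0 ≤ γ := by positivity
  have hζ0 : 0 ≤ ζ := by positivity
  -- lattice momenta
  have hlat : ∀ m n : ℕ, 2 * m ≤ N → 2 * n ≤ N →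
      |SE t' w2 (((m * R : ℕ) : ZMod M), ((n * R : ℕ) : ZMod M)) -
        a * EE (((m * R : ℕ) : ZMod M), ((n * R : ℕ) : ZMod M))| ≤
        (fun e => β * t' + γ * e + ζ * (e ^ 2 / t')) (2 * hh N m + 2 * hh N n) := by
    intro m n hm hn
    have hEM : EE (((m * R : ℕ) : ZMod M), ((n * R : ℕ) : ZMod M)) = 2 * hh N m + 2 * hh N n := by
      rw [EE_nat, hM, hh_mul hR, hh_mul hR]
    have hEN : EE ((m : ZMod N), (n : ZMod N)) = 2 * hh N m + 2 * hh N n := EE_nat m n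
    have hE0 : 0 ≤ 2 * hh N m + 2 * hh N n := by
      have := hh_nonneg N m
      have := hh_nonneg N n
      positivity
    by_cases h0 : m = 0 ∧ n = 0
    · obtain ⟨rfl, rfl⟩ := h0
      have h1 := hw2.zer
      simp only [hh_zero] at hEM ⊢
      rw [hEM]
      have e0 : (((0 * R : ℕ) : ZMod M), ((0 * R : ℕ) : ZMod M)) = (0 : ZMod M × ZMod M) := by
        simp
      rw [e0]
      simp only [mul_zero, add_zero, sub_zero]
      norm_num
      refine h1.trans ?_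
      rw [hβ]
      nlinarith [mul_nonneg (mul_nonneg hμ0.le hs0) ht'.le, mul_nonneg hT00 ht'.le]
    · have hk : ((m : ZMod N), (n : ZMod N)) ≠ (0 : ZMod N × ZMod N) := by
        intro h
        apply h0
        rw [Prod.ext_iff] at h
        exact ⟨nat_zero_of hm h.1, nat_zero_of hn h.2⟩
      have h1 := lat_bound ht' htt hμ hFL hs hd hk
      have t1 := htop1 ((m : ZMod N), (n : ZMod N)) hk
      have t2 := hw2.top (((m * R : ℕ) : ZMod M), ((n * R : ℕ) : ZMod M))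
      rw [hEM] at t2
      rw [hEN] at t1 h1
      have h2 := SE_comp ht' hE0 hC₀ (hpos1 _) (hw2.pos _) t1 t2 (hT m n hm hn hk)
      rw [hEM]
      have e1 : SE t' w2 (((m * R : ℕ) : ZMod M), ((n * R : ℕ) : ZMod M)) -
          a * (2 * hh N m + 2 * hh N n) =
          (SE t' w1 ((m : ZMod N), (n : ZMod N)) - a * (2 * hh N m + 2 * hh N n)) +
          (SE t' w2 (((m * R : ℕ) : ZMod M), ((n * R : ℕ) : ZMod M)) -
            SE t' w1 ((m : ZMod N), (n : ZMod N))) := by ring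
      rw [e1]
      refine (abs_add_le _ _).trans ((add_le_add h1 h2).trans ?_)
      rw [← hTd]
      generalize 2 * hh N m + 2 * hh N n = e at hE0
      have : 0 ≤ s' * t' := by positivity
      have e2 : (β * t' + γ * e + ζ * (e ^ 2 / t')) - (μ * s * t' + δ * e +
          (η / μ + δ) * (e ^ 2 / t') + T * (t' + 2 * e + e ^ 2 / t')) = s' * t' := by
        rw [hβ, hγ, hζ]
        ring
      simp only
      linarith
  -- all momenta
  have hB : ∀ x y : ℝ, 0 ≤ x → x ≤ y → (fun e => β * t' + γ * e + ζ * (e ^ 2 / t')) x ≤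
      (fun e => β * t' + γ * e + ζ * (e ^ 2 / t')) y := by
    intro x y hx hxy
    simp only
    have h1 : x ^ 2 / t' ≤ y ^ 2 / t' :=
      div_le_div_of_nonneg_right (pow_le_pow_left₀ hx hxy 2) ht'.le
    have h2 := mul_le_mul_of_nonneg_left h1 hζ0
    have h3 := mul_le_mul_of_nonneg_left hxy hγ0
    linarith
  have hall : ∀ k, |SE t' w2 k - a * EE k| ≤ (81 * (β + γ + 2 * ζ)) * t' + (324 * γ) * EE k +
      (2592 * ζ) * (EE k ^ 2 / t') := by
    intro k
    have h1 := interp_torus (Q := fun k => SE t' w2 k - a * EE k) hM hR hN4 hNe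
      (fun x y => by
        have hx : EE (-x, y) = EE (x, y) := by unfold EE; simp only [TM.H764.cN_neg]
        simp only [hx]
        unfold SE
        rw [Gh_neg1 hw2.refl])
      (fun x y => by
        have hx : EE (x, -y) = EE (x, y) := by unfold EE; simp only [TM.H764.cN_neg]
        simp only [hx]
        unfold SE
        rw [Gh_neg2 hw2.refl])
      (fun j hj => by
        have h2 := (hw2.conc j hj).sub (2 * a) (2 * a * hh M j)
        have e : (fun i : ℕ => SE t' w2 ((i : ZMod M), (j : ZMod M)) -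
            a * EE ((i : ZMod M), (j : ZMod M))) = fun i : ℕ =>
            SE t' w2 ((i : ZMod M), (j : ZMod M)) - (2 * a * hh M i + 2 * a * hh M j) := by
          funext i
          rw [EE_nat]
          ring
        simp only [e]
        exact h2)
      (fun i hi => by
        have h2 := (hw2.conc2 i hi).sub (2 * a) (2 * a * hh M i)
        have e : (fun j : ℕ => SE t' w2 ((i : ZMod M), (j : ZMod M)) -
            a * EE ((i : ZMod M), (j : ZMod M))) = fun j : ℕ =>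
            SE t' w2 ((i : ZMod M), (j : ZMod M)) - (2 * a * hh M j + 2 * a * hh M i) := by
          funext j
          rw [EE_nat]
          ring
        simp only [e]
        exact h2) hB hlat k
    have hN0 : (0 : ℝ) < N := by
      have : 0 < N := by omega
      exact_mod_cast this
    have h3 : 320 / (N : ℝ) ^ 2 ≤ t' := by
      rw [div_le_iff₀ (by positivity)]
      linarith
    have h4 := B_enlarge (β := β) (e := EE k) ht' hγ0 hζ0
      (by positivity : 0 ≤ 320 / (N : ℝ) ^ 2) h3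
    refine h1.trans ?_
    calc _ ≤ 81 * ((β + γ + 2 * ζ) * t' + 4 * γ * EE k + 32 * ζ * (EE k ^ 2 / t')) :=
          mul_le_mul_of_nonneg_left h4 (by norm_num)
      _ = _ := by ring
  have hN3 : 3 ≤ M := by
    have : N ≤ R * N := Nat.le_mul_of_pos_left N hR
    omega
  obtain ⟨a', ha, hF⟩ := small nn hw2.toKD ht' ht1 hc₁ hc hc2 hcc hκ hκ4 hN3 hMt
    (by positivity) (by positivity) (by positivity) hall
  have hX : 2 * (81 * (β + γ + 2 * ζ)) + 324 * γ + 2592 * ζ ≤ stepX μ s s' T δ η := by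
    have h1 : ζ ≤ η / μ + δ + T := le_of_eq hζ
    have h2 : 0 ≤ η / μ := by positivity
    have h3 : 0 ≤ μ * s := by positivity
    unfold stepX
    nlinarith
  have hmono := er_mono (n := nn) (κ := κ) (α := a) hX
  have hLam := (Lam_pos nn (v := κ * c₂) (by positivity)).le
  refine ⟨a', ha.trans (mul_le_mul_of_nonneg_left hmono hLam), fun k => (hF k).trans ?_⟩
  have : 0 ≤ EE k ^ 2 / t' := by positivity
  exact mul_le_mul_of_nonneg_right (mul_le_mul_of_nonneg_left hmono hLam) this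

end

end Vale.Agent.P159.H846
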