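import Vale.Agent.P159.H846.Prof4
import Vale.Agent.P159.H612.Nker3
import Vale.Agent.P159.H37.RPf

/-!
P159, module PROF (helper846), part 5: the kernel `gk = GA N b t 0` (average of the covariances in the
constant backgrounds, helper612) is an instance of `PMod`.

* `gk_refl`, `gk_swap`, `Gh_gk` (mixture), `gk_pos`.
* `gk_rp` : concavity of `1 / ĝ` in `1 - cos k₁` for the mixture (from helper37's `rp_final`).
* `ph1_abs_le` : `|d/dc log Z(c)| ≤ t N² yt`; `zero_mode` : the self energy at `k = 0` is of second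
  order in `yt`.
* `pmod` : the instance.
-/

set_option linter.unusedSectionVars false

namespace Vale.Agent.P159.H846

open Finset Matrix
open Vale.Agent.P159.TM.H104 (EM Ex Cv Lg li Gr)
open Vale.Agent.P159.TM.H764 (Gh Gh_zero Gh_prod cN sN dt EE EE_nonneg EE_zero)
open Vale.Agent.P159.TM.SpecC (wT)
open Vale.Agent.P159.H37
open Vale.Agent.P159.H37.RP (Gc rp_final Gh_pos Gc_refl)
open Vale.Agent.P159.H813 (r1 r2 LC LC_pos)
open Vale.Agent.P159.H612 (GA pv pav ZC ph1 ph2)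
open Vale.Agent.P159.H864 (yt sym)
open Vale.Agent.P159.H963 (Pin Gnh gw_wT mf_smul)

noncomputable section

variable {N : ℕ} [NeZero N] {b t : ℝ}

/-- the kernel of the averaged covariance -/
def gk (N : ℕ) [NeZero N] (b t : ℝ) (z : ZMod N × ZMod N) : ℝ := GA N b t 0 z

lemma gk_eq (z : ZMod N × ZMod N) : gk N b t z = pv N b t fun c => Gc N b t (t * c) z := rfl

lemma Gh_gk_sym (k : ZMod N × ZMod N) : Gh (gk N b t) k = sym (GA N b t) k := rfl

lemma gk_refl (z : ZMod N × ZMod N) : gk N b t (-z.1, z.2) = gk N b t z := by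
  rw [gk_eq, gk_eq]
  congr 1
  funext c
  exact Gc_refl b t (t * c) z

lemma Gc_swap (b t c : ℝ) (z : ZMod N × ZMod N) : Gc N b t c (z.2, z.1) = Gc N b t c z := by
  have h := H864.Cm_perm (H864.inv_wt_swp (N := N) (b := b) t) (fun _ => c) 0 z
  exact h.symm

lemma gk_swap (z : ZMod N × ZMod N) : gk N b t (z.2, z.1) = gk N b t z := by
  rw [gk_eq, gk_eq]
  congr 1
  funext c
  exact Gc_swap b t (t * c) z

lemma cont_Gc (hb : 0 ≤ b) (ht : 0 < t) (z : ZMod N × ZMod N) :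
    Continuous fun c : ℝ => Gc N b t (t * c) z :=
  H612.cont_Cmc (gw_wT hb) (mf_smul ht) 0 z

lemma cont_GhGc (hb : 0 ≤ b) (ht : 0 < t) (k : ZMod N × ZMod N) :
    Continuous fun c : ℝ => Gh (Gc N b t (t * c)) k := by
  unfold Gh
  exact continuous_finsetSum _ fun z _ => (cont_Gc hb ht z).mul_const _

/-- the symbol of the mixture -/
lemma Gh_gk (hb : 0 ≤ b) (ht : 0 < t) (k : ZMod N × ZMod N) :
    Gh (gk N b t) k = pv N b t fun c => Gh (Gc N b t (t * c)) k := by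
  unfold Gh
  have h := H612.pav_sum (gw_wT (N := N) hb) (mf_smul (N := N) ht) Finset.univ
    (f := fun (w : ZMod N × ZMod N) (c : ℝ) => Gc N b t (t * c) w *
      cN (k.1 * w.1 + k.2 * w.2)) fun w _ => (cont_Gc hb ht w).mul_const _
  refine Eq.trans ?_ h.symm
  refine Finset.sum_congr rfl fun w _ => ?_
  have e : (fun c : ℝ => Gc N b t (t * c) w * cN (k.1 * w.1 + k.2 * w.2)) =
      fun c => cN (k.1 * w.1 + k.2 * w.2) * Gc N b t (t * c) w := by
    funext c
    ring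
  rw [e, H612.pav_cmul, gk_eq]
  unfold pv
  ring

/-- the mixture is positive -/
lemma gk_pos (hb : 0 < b) (ht : 0 < t) (k : ZMod N × ZMod N) : 0 < Gh (gk N b t) k := by
  rw [Gh_gk hb.le ht]
  unfold pv pav
  refine div_pos ?_ (H612.int_Zc_pos (gw_wT hb.le) (mf_smul ht))
  have hc : Continuous fun c : ℝ => H963.Zc (wT b N) (t • (1 : Matrix _ _ ℝ)) t 0 c *
      Gh (Gc N b t (t * c)) k :=
    (H612.Zc_cont (gw_wT hb.le) (mf_smul ht)).mul (cont_GhGc hb.le ht k)
  exact intervalIntegral.intervalIntegral_pos_of_pos (hc.intervalIntegrable 0 1)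
    (fun c => mul_pos (H612.Zc_pos (gw_wT hb.le) (mf_smul ht) c) (Gh_pos hb ht _ _)) one_pos

/-- pointwise form of the harmonic mean inequality -/
lemma harm_pt {g1 g2 g3 α β l m : ℝ} (h1 : 0 < g1) (h2 : 0 < g2) (h3 : 0 < g3) (hα : 0 < α)
    (hβ : 0 < β) (h : α / g1 + β / g3 ≤ (α + β) / g2) (hlm : l + m = 1) :
    g2 ≤ (α + β) * (l ^ 2 / α) * g1 + (α + β) * (m ^ 2 / β) * g3 := by
  have hS : 0 < α / g1 + β / g3 := by positivity
  have a1 : g2 * (α / g1 + β / g3) ≤ α + β := by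
    calc g2 * (α / g1 + β / g3) ≤ g2 * ((α + β) / g2) := mul_le_mul_of_nonneg_left h h2.le
      _ = α + β := by field_simp
  have a2 : 1 ≤ (l ^ 2 / α * g1 + m ^ 2 / β * g3) * (α / g1 + β / g3) := by
    have e : (l ^ 2 / α * g1 + m ^ 2 / β * g3) * (α / g1 + β / g3) - (l + m) ^ 2 =
        (l * (β * g1) - m * (α * g3)) ^ 2 / (α * g3 * (β * g1)) := by
      field_simp
      ring
    have e2 : 0 ≤ (l * (β * g1) - m * (α * g3)) ^ 2 / (α * g3 * (β * g1)) := by positivity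
    rw [← e, hlm] at e2
    linarith
  have a3 : 0 ≤ l ^ 2 / α * g1 + m ^ 2 / β * g3 := by positivity
  have a4 : g2 * 1 ≤ g2 * ((l ^ 2 / α * g1 + m ^ 2 / β * g3) * (α / g1 + β / g3)) :=
    mul_le_mul_of_nonneg_left a2 h2.le
  have a5 : (l ^ 2 / α * g1 + m ^ 2 / β * g3) * (g2 * (α / g1 + β / g3)) ≤
      (l ^ 2 / α * g1 + m ^ 2 / β * g3) * (α + β) := mul_le_mul_of_nonneg_left a1 a3
  nlinarith

/-- **reflection positivity for the mixture** -/
theorem gk_rp (hb : 0 < b) (ht : 0 < t) {k₁ k₂ k₃ : ZMod N} (h12 : cN k₂ < cN k₁)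
    (h23 : cN k₃ < cN k₂) (q : ZMod N) :
    (cN k₂ - cN k₃) / Gh (gk N b t) (k₁, q) + (cN k₁ - cN k₂) / Gh (gk N b t) (k₃, q) ≤
      (cN k₁ - cN k₃) / Gh (gk N b t) (k₂, q) := by
  have hw := gw_wT (N := N) hb.le
  have hM := mf_smul (N := N) ht
  set α := cN k₂ - cN k₃ with hα
  set β := cN k₁ - cN k₂ with hβ
  have hα0 : 0 < α := by linarith
  have hβ0 : 0 < β := by linarith
  have hαβ : cN k₁ - cN k₃ = α + β := by rw [hα, hβ]; ring
  rw [hαβ]
  have p1 := gk_pos (N := N) hb ht (k₁, q)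
  have p2 := gk_pos (N := N) hb ht (k₂, q)
  have p3 := gk_pos (N := N) hb ht (k₃, q)
  set G1 := Gh (gk N b t) (k₁, q) with hG1
  set G2 := Gh (gk N b t) (k₂, q) with hG2
  set G3 := Gh (gk N b t) (k₃, q) with hG3
  set S := α / G1 + β / G3 with hS
  have hS0 : 0 < S := by positivity
  set l := α / G1 / S with hl
  set m := β / G3 / S with hm
  have hlm : l + m = 1 := by
    rw [hl, hm, ← add_div, ← hS, div_self hS0.ne']
  have hc1 := cont_GhGc (N := N) hb.le ht (k₁, q)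
  have hc2 := cont_GhGc (N := N) hb.le ht (k₂, q)
  have hc3 := cont_GhGc (N := N) hb.le ht (k₃, q)
  have hpt : ∀ c : ℝ, Gh (Gc N b t (t * c)) (k₂, q) ≤
      (α + β) * (l ^ 2 / α) * Gh (Gc N b t (t * c)) (k₁, q) +
        (α + β) * (m ^ 2 / β) * Gh (Gc N b t (t * c)) (k₃, q) := by
    intro c
    have h := rp_final (N := N) hb ht (t * c) h12 h23 q
    rw [hαβ] at h
    exact harm_pt (Gh_pos hb ht _ _) (Gh_pos hb ht _ _) (Gh_pos hb ht _ _) hα0 hβ0 h hlm
  have hav := H612.pav_mono hw hM hc2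
    ((hc1.const_mul ((α + β) * (l ^ 2 / α))).add (hc3.const_mul ((α + β) * (m ^ 2 / β)))) hpt
  have hadd := H612.pav_add hw hM (hc1.const_mul ((α + β) * (l ^ 2 / α)))
    (hc3.const_mul ((α + β) * (m ^ 2 / β)))
  rw [H612.pav_cmul, H612.pav_cmul] at hadd
  have e1 : pav (wT b N) (t • (1 : Matrix _ _ ℝ)) t (fun c => Gh (Gc N b t (t * c)) (k₁, q)) =
      G1 := (Gh_gk hb.le ht (k₁, q)).symm
  have e2 : pav (wT b N) (t • (1 : Matrix _ _ ℝ)) t (fun c => Gh (Gc N b t (t * c)) (k₂, q)) =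
      G2 := (Gh_gk hb.le ht (k₂, q)).symm
  have e3 : pav (wT b N) (t • (1 : Matrix _ _ ℝ)) t (fun c => Gh (Gc N b t (t * c)) (k₃, q)) =
      G3 := (Gh_gk hb.le ht (k₃, q)).symm
  rw [e1, e3] at hadd
  rw [e2] at hav
  have h4 : G2 ≤ (α + β) * (l ^ 2 / α) * G1 + (α + β) * (m ^ 2 / β) * G3 :=
    hav.trans (le_of_eq hadd)
  have h5 : (α + β) * (l ^ 2 / α) * G1 + (α + β) * (m ^ 2 / β) * G3 = (α + β) / S := by
    have f1 : l ^ 2 / α * G1 = l / S := by
      rw [hl]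
      field_simp
    have f2 : m ^ 2 / β * G3 = m / S := by
      rw [hm]
      field_simp
    calc (α + β) * (l ^ 2 / α) * G1 + (α + β) * (m ^ 2 / β) * G3
        = (α + β) * (l ^ 2 / α * G1 + m ^ 2 / β * G3) := by ring
      _ = (α + β) * ((l + m) / S) := by rw [f1, f2, add_div]
      _ = _ := by rw [hlm]; ring
  rw [h5, le_div_iff₀ hS0] at h4
  rw [le_div_iff₀ p2]
  linarith

/-- concavity of the self energy of the mixture -/
theorem gk_conc (hb : 0 < b) (ht : 0 < t) (j : ℕ) :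
    Conc N fun i => SE t (gk N b t) ((i : ZMod N), (j : ZMod N)) := by
  intro i₁ i₂ i₃ h12 h23 h3
  have g12 : hh N i₁ < hh N i₂ := hh_lt h12 (by omega)
  have g23 : hh N i₂ < hh N i₃ := hh_lt h23 h3
  have h := gk_rp (N := N) hb ht (k₁ := (i₁ : ZMod N)) (k₂ := (i₂ : ZMod N))
    (k₃ := (i₃ : ZMod N)) (by rw [cN_nat, cN_nat]; linarith) (by rw [cN_nat, cN_nat]; linarith)
    (j : ZMod N)
  rw [cN_nat, cN_nat, cN_nat] at h
  have e1 : 1 - hh N i₂ - (1 - hh N i₃) = hh N i₃ - hh N i₂ := by ring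
  have e2 : 1 - hh N i₁ - (1 - hh N i₂) = hh N i₂ - hh N i₁ := by ring
  have e3 : 1 - hh N i₁ - (1 - hh N i₃) = hh N i₃ - hh N i₁ := by ring
  rw [e1, e2, e3] at h
  simp only [div_eq_mul_inv] at h
  unfold SE
  linarith

/-! ### the zero mode -/

/-- the covariance of the total height -/
lemma Cv0_const (hb : 0 ≤ b) (ht : 0 < t) :
    Cv (wt N b t) 0 (li fun _ => t) (li fun _ => t) = t * (N : ℝ) ^ 2 * (1 - yt N b t) := by
  have hE := H789.em_wt (N := N) hb ht
  rw [← H789.qf_Gm hE]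
  have h2 : qf (Gm (wt N b t)) (fun _ => t) = t ^ 2 * ((N : ℝ) ^ 2 * ∑ z, Gm (wt N b t) 0 z) := by
    unfold qf
    have e : ∀ x : ZMod N × ZMod N, ∑ y, t * Gm (wt N b t) x y * t =
        t ^ 2 * ∑ z, Gm (wt N b t) 0 z := by
      intro x
      rw [Finset.mul_sum, ← Equiv.sum_comp (Equiv.addLeft x)]
      refine Finset.sum_congr rfl fun z _ => ?_
      rw [Equiv.coe_addLeft, (H864.ti_Gm_wt (N := N) (b := b) t).eq x (x + z),
        add_sub_cancel_left]
      ring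
    simp only [e]
    rw [Finset.sum_const, Finset.card_univ, nsmul_eq_mul, H612.card_tor]
    ring
  have h3 : Ght N b t 0 = ∑ z, Gm (wt N b t) 0 z := by
    rw [← H864.sym_Gm_wt, H612.sym_zero_arg]
  rw [h2, ← h3]
  unfold H864.yt
  ring

lemma ph2_ge (hb : 0 ≤ b) (ht : 0 < t) (c : ℝ) :
    -(t * (N : ℝ) ^ 2 * yt N b t) ≤ ph2 N b t c := by
  have h := H789.Cv_mono (H789.em_wt (N := N) hb ht) H789.ev_wt (H789.pk_wt hb ht)
    (fun _ => t * c) fun _ => t
  rw [Cv0_const hb ht] at h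
  unfold ph2
  linarith

/-- **the derivative of `log Z(c)`** -/
theorem ph1_abs_le (hb : 0 ≤ b) (ht : 0 < t) (c : ℝ) :
    |ph1 N b t c| ≤ t * (N : ℝ) ^ 2 * yt N b t := by
  set L := t * (N : ℝ) ^ 2 * yt N b t with hL
  have hyt := H864.yt_nonneg (N := N) hb ht
  have hL0 : 0 ≤ L := by positivity
  have hmono : Monotone fun c => ph1 N b t c + L * c := by
    apply monotone_of_deriv_nonneg
    · intro x
      exact ((H612.hasDerivAt_ph1 (N := N) hb ht x).add
        ((hasDerivAt_id x).const_mul L)).differentiableAt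
    · intro x
      have h := ((H612.hasDerivAt_ph1 (N := N) hb ht x).add
        ((hasDerivAt_id x).const_mul L)).deriv
      have e : (fun c => ph1 N b t c + L * c) = (ph1 N b t) + fun y => L * id y := rfl
      rw [e, h, mul_one]
      have := ph2_ge (N := N) hb ht x
      linarith
  have hroll : ∀ a : ℝ, ∃ z, a < z ∧ z < a + 1 ∧ ph1 N b t z = 0 := by
    intro a
    obtain ⟨z, hz, hz0⟩ := exists_hasDerivAt_eq_zero (f := fun c => Real.log (ZC N b t c))
      (f' := ph1 N b t) (a := a) (b := a + 1) (by linarith)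
      (fun x _ => (H612.hasDerivAt_log_ZC (N := N) hb ht x).continuousAt.continuousWithinAt)
      (by rw [H612.ZC_per hb ht a]) fun x _ => H612.hasDerivAt_log_ZC hb ht x
    exact ⟨z, hz.1, hz.2, hz0⟩
  rw [abs_le]
  constructor
  · obtain ⟨z, hz1, hz2, hz⟩ := hroll (c - 1)
    have h1 := hmono (show z ≤ c by linarith)
    simp only at h1
    rw [hz] at h1
    have h2 : L * (c - z) ≤ L * 1 := mul_le_mul_of_nonneg_left (by linarith) hL0
    nlinarith
  · obtain ⟨z, hz1, hz2, hz⟩ := hroll c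
    have h1 := hmono (show c ≤ z by linarith)
    simp only at h1
    rw [hz] at h1
    have h2 : L * (z - c) ≤ L * 1 := mul_le_mul_of_nonneg_left (by linarith) hL0
    nlinarith

/-- oscillation of `log Z(c)` -/
theorem osc_le (hb : 0 ≤ b) (ht : 0 < t) (c d : ℝ) :
    Real.log (ZC N b t c) - Real.log (ZC N b t d) ≤ t * (N : ℝ) ^ 2 * yt N b t := by
  set L := t * (N : ℝ) ^ 2 * yt N b t with hL
  have hyt := H864.yt_nonneg (N := N) hb ht
  have hL0 : 0 ≤ L := by positivity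
  have hper := H612.ZC_per (N := N) hb ht
  have e : ∀ a : ℝ, ZC N b t (Int.fract a) = ZC N b t a := by
    intro a
    have h3 := hper.int_mul ⌊a⌋ (Int.fract a)
    simp only [mul_one] at h3
    rw [← h3, Int.fract_add_floor]
  rw [← e c, ← e d]
  have h := Convex.norm_image_sub_le_of_norm_hasDerivWithin_le (s := Set.univ)
    (f := fun c => Real.log (ZC N b t c)) (f' := ph1 N b t) (C := L)
    (fun x _ => (H612.hasDerivAt_log_ZC (N := N) hb ht x).hasDerivWithinAt)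
    (fun x _ => by rw [Real.norm_eq_abs]; exact ph1_abs_le hb ht x) convex_univ
    (Set.mem_univ (Int.fract d)) (Set.mem_univ (Int.fract c))
  have h1 := (le_abs_self _).trans h
  refine h1.trans ?_
  have h2 : ‖Int.fract c - Int.fract d‖ ≤ 1 := by
    rw [Real.norm_eq_abs, abs_le]
    have a1 := Int.fract_nonneg c
    have a2 := (Int.fract_lt_one c).le
    have a3 := Int.fract_nonneg d
    have a4 := (Int.fract_lt_one d).le
    constructor <;> linarith
  calc L * ‖Int.fract c - Int.fract d‖ ≤ L * 1 := mul_le_mul_of_nonneg_left h2 hL0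
    _ = L := mul_one L

/-- **the zero mode of the mixture is of second order** -/
theorem zero_mode (hb : 0 ≤ b) (ht : 0 < t)
    (hL : t * (N : ℝ) ^ 2 * yt N b t ^ 2 ≤ 1 / 2) :
    1 / (2 * t) ≤ Gh (gk N b t) 0 ∧ 0 ≤ SE t (gk N b t) 0 ∧
      SE t (gk N b t) 0 ≤ 2 * (t * (N : ℝ) ^ 2 * yt N b t ^ 2) * t := by
  have hw := gw_wT (N := N) hb
  have hM := mf_smul (N := N) ht
  have hyt := H864.yt_nonneg (N := N) hb ht
  have hN := H864.N_pos (N := N)
  have hA : 0 < t * (N : ℝ) ^ 2 := by positivity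
  have h1c := H612.cont_ph1 (N := N) hb ht
  have hrow := H612.row_GA (N := N) hb ht
  have e0 : Gh (gk N b t) 0 = ∑ z, GA N b t 0 z := Gh_zero _
  rw [← e0] at hrow
  have h1 : 0 ≤ pv N b t fun c => ph1 N b t c ^ 2 := by
    have := H612.pav_mono hw hM (f := fun _ => 0) (g := fun c => ph1 N b t c ^ 2)
      continuous_const (h1c.pow 2) fun c => sq_nonneg _
    rw [H612.pav_const hw hM] at this
    exact this
  have h2 : (pv N b t fun c => ph1 N b t c ^ 2) ≤ (t * (N : ℝ) ^ 2 * yt N b t) ^ 2 := by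
    have := H612.pav_mono hw hM (f := fun c => ph1 N b t c ^ 2)
      (g := fun _ => (t * (N : ℝ) ^ 2 * yt N b t) ^ 2) (h1c.pow 2) continuous_const
      fun c => by
        rw [← sq_abs]
        exact pow_le_pow_left₀ (abs_nonneg _) (ph1_abs_le hb ht c) 2
    rw [H612.pav_const hw hM] at this
    exact this
  set q := (pv N b t fun c => ph1 N b t c ^ 2) / (t * (N : ℝ) ^ 2) with hq
  set Q := t * (N : ℝ) ^ 2 * yt N b t ^ 2 with hQ
  have hq0 : 0 ≤ q := div_nonneg h1 hA.le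
  have hqQ : q ≤ Q := by
    rw [hq, div_le_iff₀ hA]
    refine h2.trans (le_of_eq ?_)
    rw [hQ]
    ring
  have hG : Gh (gk N b t) 0 = (1 - q) / t := by
    rw [eq_div_iff ht.ne', mul_comm]
    exact hrow
  have hq1 : 0 < 1 - q := by linarith
  have hS : SE t (gk N b t) 0 = t * q / (1 - q) := by
    unfold SE
    rw [hG]
    field_simp
    ring
  refine ⟨?_, ?_, ?_⟩
  · rw [hG, div_le_div_iff₀ (by positivity) ht]
    nlinarith
  · rw [hS]
    positivity
  · rw [hS, div_le_iff₀ hq1]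
    have a1 : t * q ≤ t * Q := mul_le_mul_of_nonneg_left hqQ ht.le
    have a2 : Q * t ≤ 2 * Q * t * (1 - q) := by
      have : 0 ≤ Q * t := mul_nonneg (hq0.trans hqQ) ht.le
      nlinarith
    linarith

/-- for `k ≠ 0` the self energy of the mixture is the neutral self energy -/
lemma SE_gk (hb : 0 ≤ b) (ht : 0 < t) {k : ZMod N × ZMod N} (hk : k ≠ 0) :
    SE t (gk N b t) k = Pin N b t k := by
  unfold SE Pin
  rw [Gh_gk_sym, H612.sym_GA hb ht hk]

/-! ### the instance -/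

/-- **the instance of `PMod`** : mass `t = ξ⁻²`, torus of side `N` -/
theorem pmod {b1 : ℝ} (hb1 : 0 < b1) (b2 a : ℝ) :
    ∃ W₀ c C ys : ℝ, ∃ X : ℕ, 0 < c ∧ 1 ≤ C ∧ 0 < ys ∧ 1 ≤ X ∧ ∀ W : ℝ, W₀ ≤ W →
    ∀ (N : ℕ) [NeZero N] (b : ℝ) (ξ : ℕ) (y t C₀ : ℝ),
      TM.Spec.Rng b1 b2 a W ys X N b ξ y → (N : ℝ) * y ≤ c * ξ → t = 1 / (ξ : ℝ) ^ 2 →
      t * (N : ℝ) ^ 2 * yt N b t ≤ 1 / 2 → 1 ≤ C₀ →
      (∀ k : ZMod N × ZMod N, k ≠ 0 → Pin N b t k ≤ C₀ * (t + EE k)) →
      PMod (gk N b t) t (c / 2) C C₀ (2 * (t * (N : ℝ) ^ 2 * yt N b t ^ 2)) := by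
  obtain ⟨W₀, c, C, ys, X, hc, hC, hys, hX, h⟩ := H612.ga_exp hb1 b2 a
  refine ⟨W₀, c, C, ys, X, hc, hC, hys, hX, ?_⟩
  intro W hW N _ b ξ y t C₀ hR hNy htξ hL hC₀ htop
  have hb : 0 < b := hb1.trans_le hR.hb1
  have hξ : 0 < ξ := by
    have := hR.hX
    omega
  have hξR : (0 : ℝ) < ξ := by exact_mod_cast hξ
  have ht : 0 < t := by rw [htξ]; positivity
  have hyt := H864.yt_nonneg (N := N) hb.le ht
  have hyt1 := (H864.yt_lt_one (N := N) hb ht).le
  have hQ : t * (N : ℝ) ^ 2 * yt N b t ^ 2 ≤ 1 / 2 := by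
    have hN := H864.N_pos (N := N)
    have h0 : 0 ≤ t * (N : ℝ) ^ 2 * yt N b t := by positivity
    calc t * (N : ℝ) ^ 2 * yt N b t ^ 2 = t * (N : ℝ) ^ 2 * yt N b t * yt N b t := by ring
      _ ≤ t * (N : ℝ) ^ 2 * yt N b t * 1 := mul_le_mul_of_nonneg_left hyt1 h0
      _ ≤ 1 / 2 := by linarith
  obtain ⟨z1, z2, z3⟩ := zero_mode hb.le ht hQ
  have hsq : √t = 1 / ξ := by
    rw [htξ, Real.sqrt_div zero_le_one, Real.sqrt_one, Real.sqrt_sq hξR.le]
  have hmom := h W hW N b ξ y hR hNy t htξ.ge (by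
      rw [htξ]
      gcongr
      norm_num) fun c d => (osc_le hb.le ht c d).trans (by linarith)
  refine ⟨⟨gk_refl, gk_swap, ?_, z1⟩, gk_pos hb ht, ?_, ?_, fun j _ => gk_conc hb ht j⟩
  · rw [le_div_iff₀ ht, mul_comm]
    refine le_trans (mul_le_mul_of_nonneg_left (Finset.sum_le_sum fun x _ => ?_) ht.le) hmom
    unfold gk
    rw [abs_of_nonneg (H612.GA_nonneg hb.le ht 0 x)]
    refine mul_le_mul_of_nonneg_left (Real.exp_le_exp.2 ?_) (H612.GA_nonneg hb.le ht 0 x)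
    rw [hsq]
    have a1 : |r1 x| ≤ TM.H459.sn x := by
      unfold r1 TM.H459.sn
      have e : |((x.1.valMinAbs : ℤ) : ℝ)| = ((x.1.valMinAbs.natAbs : ℕ) : ℝ) := by
        rw [Nat.cast_natAbs, Int.cast_abs]
      rw [e]
      exact Nat.cast_le.2 (le_max_left _ _)
    have a2 : |r2 x| ≤ TM.H459.sn x := by
      unfold r2 TM.H459.sn
      have e : |((x.2.valMinAbs : ℤ) : ℝ)| = ((x.2.valMinAbs.natAbs : ℕ) : ℝ) := by
        rw [Nat.cast_natAbs, Int.cast_abs]
      rw [e]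
      exact Nat.cast_le.2 (le_max_right _ _)
    calc c / 2 * (1 / ξ) * (|r1 x| + |r2 x|) ≤ c / 2 * (1 / ξ) * (2 * TM.H459.sn x) := by
          refine mul_le_mul_of_nonneg_left (by linarith) (by positivity)
      _ = c * TM.H459.sn x / ξ := by ring
  · intro k
    by_cases hk : k = 0
    · subst hk
      rw [EE_zero, zero_add]
      refine z3.trans ?_
      refine mul_le_mul_of_nonneg_right ?_ ht.le
      linarith
    · rw [SE_gk hb.le ht hk, add_comm]
      exact htop k hk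
  · rw [abs_of_nonneg z2]
    exact z3

end

end Vale.Agent.P159.H846
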