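import Vale.Agent.P159.H375.Cm

/-!
P159, P6, item (R2) of helper462's row 7502 (helper846), abstract part: a function of a standard
Gaussian vector which is at most quadratic and typically at most `δ` is small in `L²` also after a
shift by a vector of length at most `1`.
-/

set_option linter.unusedSectionVars false

namespace Vale.Agent.P159.H846.Ra

open MeasureTheory ProbabilityTheory Finset
open Vale.Agent.P159.H37 (gau)
open Vale.Agent.P159.H375 (int_sum_pow mom_four cs_set)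

noncomputable section

variable {I : Type*} [Fintype I]

/-- `1 + |g|²` -/
def q (g : I → ℝ) : ℝ := 1 + ∑ i, g i ^ 2

lemma q_one (g : I → ℝ) : 1 ≤ q g := by
  unfold q
  have : 0 ≤ ∑ i, g i ^ 2 := Finset.sum_nonneg fun _ _ => sq_nonneg _
  linarith

lemma q_pos (g : I → ℝ) : 0 < q g := lt_of_lt_of_le one_pos (q_one g)

lemma measurable_q : Measurable (q : (I → ℝ) → ℝ) := by
  unfold q
  fun_prop

lemma int_q (k : ℕ) : Integrable (fun g : I → ℝ => q g ^ k) (gau I) := int_sum_pow k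

/-- `q` after a shift -/
lemma q_add_le {w : I → ℝ} {c : ℝ} (hw : ∑ i, w i ^ 2 ≤ c) (hc : 0 ≤ c) (g : I → ℝ) :
    q (g + w) ≤ (2 + 2 * c) * q g := by
  have h1 : ∑ i, (g + w) i ^ 2 ≤ 2 * ∑ i, g i ^ 2 + 2 * ∑ i, w i ^ 2 := by
    rw [Finset.mul_sum, Finset.mul_sum, ← Finset.sum_add_distrib]
    refine Finset.sum_le_sum fun i _ => ?_
    simp only [Pi.add_apply]
    nlinarith [sq_nonneg (g i - w i)]
  have h0 : 0 ≤ ∑ i, g i ^ 2 := Finset.sum_nonneg fun _ _ => sq_nonneg _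
  unfold q
  nlinarith

/-- the Cameron-Martin density -/
def dn (w g : I → ℝ) : ℝ := Real.exp ((∑ i, w i * g i) - (∑ i, w i ^ 2) / 2)

lemma dn_pos (w g : I → ℝ) : 0 < dn w g := Real.exp_pos _

lemma measurable_dn (w : I → ℝ) : Measurable (dn w) := by
  unfold dn
  fun_prop

lemma dn_eq (w g : I → ℝ) :
    dn w g = Real.exp (-((∑ i, w i ^ 2) / 2)) * Real.exp (∑ i, w i * g i) := by
  unfold dn
  rw [← Real.exp_add]
  congr 1
  ring

lemma int_dn (w : I → ℝ) : Integrable (dn w) (gau I) := by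
  have h : dn w = fun g => Real.exp (-((∑ i, w i ^ 2) / 2)) * Real.exp (∑ i, w i * g i) := by
    funext g
    exact dn_eq w g
  rw [h]
  exact (H37.integrable_exp_lin w).const_mul _

lemma dn_int (w : I → ℝ) : ∫ g, dn w g ∂(gau I) = 1 := by
  simp only [dn_eq]
  rw [integral_const_mul, H37.gau_exp, ← Real.exp_add]
  simp

/-- `dn w ^ 2 = e^{|w|²} dn (2 w)` -/
lemma dn_sq (w g : I → ℝ) :
    dn w g ^ 2 = Real.exp (∑ i, w i ^ 2) * dn ((2 : ℝ) • w) g := by
  unfold dn
  rw [← Real.exp_nat_mul, ← Real.exp_add]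
  congr 1
  have e1 : ∑ i, ((2 : ℝ) • w) i * g i = 2 * ∑ i, w i * g i := by
    rw [Finset.mul_sum]
    exact Finset.sum_congr rfl fun i _ => by simp only [Pi.smul_apply, smul_eq_mul]; ring
  have e2 : ∑ i, ((2 : ℝ) • w) i ^ 2 = 4 * ∑ i, w i ^ 2 := by
    rw [Finset.mul_sum]
    exact Finset.sum_congr rfl fun i _ => by simp only [Pi.smul_apply, smul_eq_mul]; ring
  rw [e1, e2]
  push_cast
  ring

lemma shift_eq (w : I → ℝ) (f : (I → ℝ) → ℝ) :
    ∫ g, f (g + w) ∂(gau I) = ∫ g, dn w g * f g ∂(gau I) := H37.gau_shift w f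

/-- `dn * q ^ k` is integrable -/
lemma int_dn_q (w : I → ℝ) (k : ℕ) : Integrable (fun g => dn w g * q g ^ k) (gau I) := by
  have h1 : Integrable (fun g : I → ℝ => dn w g ^ 2 + q g ^ (2 * k)) (gau I) := by
    refine Integrable.add ?_ (int_q (2 * k))
    simp only [dn_sq]
    exact (int_dn _).const_mul _
  refine h1.mono' ((measurable_dn w).mul (measurable_q.pow_const k)).aestronglyMeasurable
    (Filter.Eventually.of_forall fun g => ?_)
  have p1 := dn_pos w g
  have p2 : 0 < q g ^ k := pow_pos (q_pos g) k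
  rw [Real.norm_eq_abs, abs_of_pos (mul_pos p1 p2)]
  have e : q g ^ (2 * k) = (q g ^ k) ^ 2 := by rw [← pow_mul]; ring_nf
  rw [e]
  nlinarith [sq_nonneg (dn w g - q g ^ k)]

/-- **(R2), abstract form** -/
theorem shift_l2 {Φ : (I → ℝ) → ℝ} (hm : Measurable Φ) (h0 : ∀ g, 0 ≤ Φ g)
    (hq : ∀ g, Φ g ≤ q g / 2) {δ p : ℝ} (hδ : 0 ≤ δ) (hp : (gau I).real {g | δ < Φ g} ≤ p)
    {w : I → ℝ} (hw : ∑ i, w i ^ 2 ≤ 1) :
    Integrable (fun g => Φ (g + w) ^ 2) (gau I) ∧
      ∫ g, Φ (g + w) ^ 2 ∂(gau I) ≤ δ ^ 2 + 50000 * ((Fintype.card I : ℝ) + 1) ^ 2 * √p := by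
  have hp0 : 0 ≤ p := measureReal_nonneg.trans hp
  have hi : Integrable (fun g => Φ (g + w) ^ 2) (gau I) := by
    refine ((int_q 2).const_mul 4).mono' (((hm.comp (measurable_id.add_const w)).pow_const
      2)).aestronglyMeasurable (Filter.Eventually.of_forall fun g => ?_)
    rw [Real.norm_eq_abs, abs_of_nonneg (sq_nonneg _)]
    have h1 := hq (g + w)
    have h2 := q_add_le hw zero_le_one g
    have h3 := h0 (g + w)
    have h4 : Φ (g + w) ≤ 2 * q g := by linarith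
    calc Φ (g + w) ^ 2 ≤ (2 * q g) ^ 2 := pow_le_pow_left₀ h3 h4 2
      _ = 4 * q g ^ 2 := by ring
  refine ⟨hi, ?_⟩
  rw [shift_eq w fun g => Φ g ^ 2]
  set Bad : Set (I → ℝ) := {g | δ < Φ g} with hBad
  have mB : MeasurableSet Bad := hm measurableSet_Ioi
  set f : (I → ℝ) → ℝ := fun g => dn w g * q g ^ 2 with hf
  have if1 : Integrable f (gau I) := int_dn_q w 2
  have ef2 : ∀ g, f g ^ 2 = Real.exp (∑ i, w i ^ 2) * (dn ((2 : ℝ) • w) g * q g ^ 4) := by
    intro g
    simp only [hf]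
    rw [mul_pow, dn_sq]
    ring
  have if2 : Integrable (fun g => f g ^ 2) (gau I) := by
    simp only [ef2]
    exact (int_dn_q _ 4).const_mul _
  -- pointwise
  have hpt : ∀ g, dn w g * Φ g ^ 2 ≤ δ ^ 2 * dn w g + (1 / 4) * Bad.indicator f g := by
    intro g
    have p1 := dn_pos w g
    by_cases hg : g ∈ Bad
    · rw [Set.indicator_of_mem hg]
      have h1 : Φ g ^ 2 ≤ (q g / 2) ^ 2 := pow_le_pow_left₀ (h0 g) (hq g) 2
      have h2 : dn w g * Φ g ^ 2 ≤ dn w g * (q g / 2) ^ 2 := mul_le_mul_of_nonneg_left h1 p1.le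
      have h3 : 0 ≤ δ ^ 2 * dn w g := by positivity
      simp only [hf]
      linarith
    · rw [Set.indicator_of_notMem hg, mul_zero, add_zero, mul_comm (δ ^ 2)]
      exact mul_le_mul_of_nonneg_left (pow_le_pow_left₀ (h0 g) (not_lt.1 hg) 2) p1.le
  have i1 : Integrable (fun g => δ ^ 2 * dn w g + (1 / 4) * Bad.indicator f g) (gau I) :=
    ((int_dn w).const_mul _).add ((if1.indicator mB).const_mul _)
  have i0 : Integrable (fun g => dn w g * Φ g ^ 2) (gau I) := by
    refine (if1.const_mul (1 / 4)).mono' ((measurable_dn w).mul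
      (hm.pow_const 2)).aestronglyMeasurable (Filter.Eventually.of_forall fun g => ?_)
    have p1 := dn_pos w g
    rw [Real.norm_eq_abs, abs_of_nonneg (mul_nonneg p1.le (sq_nonneg _))]
    have h1 : Φ g ^ 2 ≤ (q g / 2) ^ 2 := pow_le_pow_left₀ (h0 g) (hq g) 2
    have h2 : dn w g * Φ g ^ 2 ≤ dn w g * (q g / 2) ^ 2 := mul_le_mul_of_nonneg_left h1 p1.le
    simp only [hf]
    linarith
  refine (integral_mono i0 i1 hpt).trans ?_
  rw [integral_add ((int_dn w).const_mul _) ((if1.indicator mB).const_mul _),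
    integral_const_mul, integral_const_mul, dn_int, mul_one, integral_indicator mB]
  have h1 := cs_set (S := Bad) if1 if2
  have hc1 : 0 ≤ ∑ i, w i ^ 2 := Finset.sum_nonneg fun _ _ => sq_nonneg _
  -- the second moment
  have h2 : ∫ g, f g ^ 2 ∂(gau I) ≤ 3 * (10 ^ 4 * (10 ^ 6 * ((Fintype.card I : ℝ) + 1) ^ 4)) := by
    simp only [ef2]
    rw [integral_const_mul, ← shift_eq ((2 : ℝ) • w) fun g => q g ^ 4]
    have hw4 : ∑ i, ((2 : ℝ) • w) i ^ 2 ≤ 4 := by
      have e2 : ∑ i, ((2 : ℝ) • w) i ^ 2 = 4 * ∑ i, w i ^ 2 := by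
        rw [Finset.mul_sum]
        exact Finset.sum_congr rfl fun i _ => by simp only [Pi.smul_apply, smul_eq_mul]; ring
      rw [e2]
      linarith
    have hle : ∀ g : I → ℝ, q (g + (2 : ℝ) • w) ^ 4 ≤ 10 ^ 4 * q g ^ 4 := fun g => by
      have h3 := q_add_le hw4 (by norm_num) g
      have h4 : q (g + (2 : ℝ) • w) ≤ 10 * q g := by linarith
      calc q (g + (2 : ℝ) • w) ^ 4 ≤ (10 * q g) ^ 4 := pow_le_pow_left₀ (q_pos _).le h4 4
        _ = _ := by ring
    have hi4 : Integrable (fun g : I → ℝ => q (g + (2 : ℝ) • w) ^ 4) (gau I) := by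
      refine ((int_q 4).const_mul (10 ^ 4)).mono' ((measurable_q.comp
        (measurable_id.add_const _)).pow_const 4).aestronglyMeasurable
        (Filter.Eventually.of_forall fun g => ?_)
      rw [Real.norm_eq_abs, abs_of_nonneg (pow_nonneg (q_pos _).le 4)]
      exact hle g
    have h5 : ∫ g, q (g + (2 : ℝ) • w) ^ 4 ∂(gau I) ≤
        10 ^ 4 * (10 ^ 6 * ((Fintype.card I : ℝ) + 1) ^ 4) := by
      refine (integral_mono hi4 ((int_q 4).const_mul (10 ^ 4)) hle).trans ?_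
      rw [integral_const_mul]
      exact mul_le_mul_of_nonneg_left mom_four (by norm_num)
    have h6 : Real.exp (∑ i, w i ^ 2) ≤ 3 := by
      refine (Real.exp_le_exp.2 hw).trans ?_
      linarith [Real.exp_one_lt_d9]
    exact mul_le_mul h6 h5 (integral_nonneg fun g => pow_nonneg (q_pos _).le 4) (by norm_num)
  have h3 : √(∫ g, f g ^ 2 ∂(gau I)) ≤ 2 * 10 ^ 5 * ((Fintype.card I : ℝ) + 1) ^ 2 := by
    refine Real.sqrt_le_iff.2 ⟨by positivity, h2.trans ?_⟩
    have : 0 ≤ ((Fintype.card I : ℝ) + 1) ^ 4 := by positivity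
    nlinarith
  have h4 : √((gau I).real Bad) ≤ √p := Real.sqrt_le_sqrt hp
  have h5 : ∫ g in Bad, f g ∂(gau I) ≤
      2 * 10 ^ 5 * ((Fintype.card I : ℝ) + 1) ^ 2 * √p :=
    h1.trans (mul_le_mul h3 h4 (Real.sqrt_nonneg _) (by positivity))
  linarith

end

end Vale.Agent.P159.H846.Ra
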