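import Vale.Agent.P159.H846.Ra0
import Vale.Agent.P159.H462.Q3

/-!
P159, P6, item (R2) of helper462's row 7502 (helper846): `R` is typically small, then its second
moment is small, also after adding a field `G` with `T l² |G|² ≤ 1`.
-/

set_option linter.unusedSectionVars false

namespace Vale.Agent.P159.H846.Ra

open Finset MeasureTheory Matrix
open Vale.Agent.P159.H37 (gau qf)
open Vale.Agent.P159.H363 (acl Rcl pin ti_pin sym_pin Nf)
open Vale.Agent.P159.TM.Spec (V)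
open Vale.Agent.P159.H864 (TI sym)
open Vale.Agent.P159.H963 (Pn)

noncomputable section

section mat

variable {n : ℕ} [NeZero n] {A : Matrix (V n) (V n) ℝ}

lemma root_mul (hA : Nf A) {k : V n} (hk : k ≠ 0) :
    √((sym A k)⁻¹) * (√((sym A k)⁻¹) * sym A k) = 1 := by
  rw [← mul_assoc, Real.mul_self_sqrt (inv_nonneg.2 (hA.nn k)), inv_mul_cancel₀ (hA.pos k hk).ne']

/-- `pin A (pin A A) = Pn` -/
lemma pin_pinA (hA : Nf A) : pin A * (pin A * A) = (Pn : Matrix (V n) (V n) ℝ) := by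
  have hC : TI (pin A) := ti_pin A
  refine H864.sym_inj (hC.mul (hC.mul hA.ti)) H963.ti_Pn fun k => ?_
  rw [H864.sym_mul hC (hC.mul hA.ti), H864.sym_mul hC hA.ti, sym_pin, H963.sym_Pn]
  by_cases hk : k = 0
  · rw [if_pos hk, hk, hA.zero, mul_zero, mul_zero]
  · rw [if_neg hk, root_mul hA hk]

/-- `(pin A A)ᵀ (pin A A) = A` -/
lemma tr_pinA (hA : Nf A) : (pin A * A)ᵀ * (pin A * A) = A := by
  have hC : TI (pin A) := ti_pin A
  rw [transpose_mul, hA.ti.transpose, hC.transpose]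
  refine H864.sym_inj ((hA.ti.mul hC).mul (hC.mul hA.ti)) hA.ti fun k => ?_
  rw [H864.sym_mul (hA.ti.mul hC) (hC.mul hA.ti), H864.sym_mul hA.ti hC, H864.sym_mul hC hA.ti,
    sym_pin]
  by_cases hk : k = 0
  · rw [hk, hA.zero]
    ring
  · have h := root_mul hA hk
    calc sym A k * √((sym A k)⁻¹) * (√((sym A k)⁻¹) * sym A k)
        = sym A k * (√((sym A k)⁻¹) * (√((sym A k)⁻¹) * sym A k)) := by ring
      _ = sym A k := by rw [h, mul_one]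

/-- `pin A A pin A = Pn` -/
lemma pin_A_pin (hA : Nf A) : (pin A)ᵀ * (A * pin A) = (Pn : Matrix (V n) (V n) ℝ) := by
  have hC : TI (pin A) := ti_pin A
  rw [hC.transpose]
  refine H864.sym_inj (hC.mul (hA.ti.mul hC)) H963.ti_Pn fun k => ?_
  rw [H864.sym_mul hC (hA.ti.mul hC), H864.sym_mul hA.ti hC, sym_pin, H963.sym_Pn]
  by_cases hk : k = 0
  · rw [if_pos hk, hk, hA.zero, zero_mul, mul_zero]
  · rw [if_neg hk, mul_comm (sym A k), root_mul hA hk]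

lemma qf_Pn_le (u : V n → ℝ) : qf (Pn : Matrix (V n) (V n) ℝ) u ≤ ∑ x, u x ^ 2 := by
  have h := (H864.qf_le_iff (H963.ti_Pn (N := n)) TI.one).2 (fun k => by
    rw [H963.sym_Pn, H864.sym_one]
    split_ifs <;> norm_num) u
  refine h.trans (le_of_eq ?_)
  rw [H37.qf_eq, one_mulVec]
  exact Finset.sum_congr rfl fun x _ => (pow_two _).symm

/-- `qf A (pin A g) ≤ |g|²` -/
lemma qf_pin_le (hA : Nf A) (g : V n → ℝ) : qf A (pin A *ᵥ g) ≤ ∑ x, g x ^ 2 := by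
  have e : qf A (pin A *ᵥ g) = qf (Pn : Matrix (V n) (V n) ℝ) g := by
    rw [H37.qf_eq, H37.qf_eq, ← pin_A_pin hA, ← mulVec_mulVec, ← mulVec_mulVec,
      dotProduct_mulVec g, vecMul_transpose]
  rw [e]
  exact qf_Pn_le g

/-- the direction of a field -/
lemma dir_norm (hA : Nf A) (G : V n → ℝ) : ∑ i, ((pin A * A) *ᵥ G) i ^ 2 = qf A G := by
  have h : ∑ i, ((pin A * A) *ᵥ G) i ^ 2 = ((pin A * A) *ᵥ G) ⬝ᵥ ((pin A * A) *ᵥ G) :=
    Finset.sum_congr rfl fun _ _ => pow_two _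
  rw [h, dotProduct_mulVec, ← mulVec_transpose, mulVec_mulVec, tr_pinA hA, H37.qf_eq,
    dotProduct_comm]

end mat

section inst

variable {N l : ℕ} [NeZero N] [NeZero (N / l)] {b T : ℝ}

lemma Rcl_shift (hl : l ∣ N) (hT : 0 < T) (hN : Nf (acl N l b T T)) (G g : V (N / l) → ℝ) :
    Rcl N l b T T (pin (acl N l b T T) *ᵥ g + G) =
      Rcl N l b T T (pin (acl N l b T T) *ᵥ (g + (pin (acl N l b T T) * acl N l b T T) *ᵥ G)) := by
  have e : pin (acl N l b T T) *ᵥ (g + (pin (acl N l b T T) * acl N l b T T) *ᵥ G) =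
      fun x => (pin (acl N l b T T) *ᵥ g + G) x +
        -((∑ y, G y) / Fintype.card (V (N / l))) := by
    rw [mulVec_add, mulVec_mulVec, pin_pinA hN, H963.Pn_mulVec]
    funext x
    simp only [Pi.add_apply]
    ring
  rw [e, H462.Rcl_cst hl hT]

/-- **(R2)** : second moment of `R` after a shift -/
theorem r2 (hb : 0 ≤ b) (hl : l ∣ N) (hT : 0 < T) (hN : Nf (acl N l b T T)) {δ p : ℝ}
    (hδ : 0 ≤ δ)
    (hp : (gau (V (N / l))).real {g | δ < Rcl N l b T T (pin (acl N l b T T) *ᵥ g)} ≤ p)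
    {G : V (N / l) → ℝ} (hG : T * (l : ℝ) ^ 2 * ∑ x, G x ^ 2 ≤ 1) :
    Integrable (fun g => Rcl N l b T T (pin (acl N l b T T) *ᵥ g + G) ^ 2) (gau (V (N / l))) ∧
      ∫ g, Rcl N l b T T (pin (acl N l b T T) *ᵥ g + G) ^ 2 ∂(gau (V (N / l))) ≤
        δ ^ 2 + 50000 * (((N / l : ℕ) : ℝ) ^ 2 + 1) ^ 2 * √p := by
  set A := acl N l b T T with hA
  have hc : (Fintype.card (V (N / l)) : ℝ) = ((N / l : ℕ) : ℝ) ^ 2 := H462.cardVr (N / l)
  have hm : Measurable fun g : V (N / l) → ℝ => Rcl N l b T T (pin A *ᵥ g) :=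
    (H363.continuous_Rcl hb hl hT (le_refl T)).measurable.comp (by
      refine measurable_pi_iff.2 fun j => ?_
      simp only [mulVec, dotProduct]
      fun_prop)
  have hw : ∑ i, ((pin A * A) *ᵥ G) i ^ 2 ≤ 1 := by
    rw [dir_norm hN]
    exact (H462.qf_acl_le hb hl hT G).trans hG
  have h := shift_l2 (Φ := fun g : V (N / l) → ℝ => Rcl N l b T T (pin A *ᵥ g)) hm
    (fun g => H363.Rcl_nonneg hb hl hT (le_refl T) _) (fun g => by
      have h1 := H462.Rcl_le_qf (N := N) (l := l) hb hl hT (pin A *ᵥ g)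
      have h2 := qf_pin_le hN g
      unfold q
      linarith) hδ hp hw
  rw [hc] at h
  have e : ∀ g, Rcl N l b T T (pin A *ᵥ g + G) =
      Rcl N l b T T (pin A *ᵥ (g + (pin A * A) *ᵥ G)) := fun g => Rcl_shift hl hT hN G g
  simp only [e]
  exact h

/-- the same with one number `W` -/
theorem r2W (hb : 0 ≤ b) (hl : l ∣ N) (hT : 0 < T) (hN : Nf (acl N l b T T)) {δ p W : ℝ}
    (hδ : 0 ≤ δ) (hW : 1 ≤ W) (hW2 : ((N / l : ℕ) : ℝ) ^ 2 ≤ W)
    (hp : (gau (V (N / l))).real {g | δ < Rcl N l b T T (pin (acl N l b T T) *ᵥ g)} ≤ p)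
    {G : V (N / l) → ℝ} (hG : T * (l : ℝ) ^ 2 * ∑ x, G x ^ 2 ≤ 1) :
    ∫ g, Rcl N l b T T (pin (acl N l b T T) *ᵥ g + G) ^ 2 ∂(gau (V (N / l))) ≤
      δ ^ 2 + 200000 * W ^ 2 * √p := by
  refine (r2 hb hl hT hN hδ hp hG).2.trans ?_
  have h1 : (((N / l : ℕ) : ℝ) ^ 2 + 1) ^ 2 ≤ 4 * W ^ 2 := by
    have h0 : 0 ≤ ((N / l : ℕ) : ℝ) ^ 2 := sq_nonneg _
    nlinarith
  have h2 := mul_le_mul_of_nonneg_right h1 (Real.sqrt_nonneg p)
  linarith

/-- **(R2) in the form of row 7502** -/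
theorem r2_typ (hb : 0 ≤ b) (hl : l ∣ N) (hT : 0 < T) (hN : Nf (acl N l b T T)) {δ p W : ℝ}
    (hδ : 0 ≤ δ) (hW : 1 ≤ W) (hW2 : ((N / l : ℕ) : ℝ) ^ 2 ≤ W)
    (hp : (gau (V (N / l))).real {g | δ < Rcl N l b T T (pin (acl N l b T T) *ᵥ g)} ≤ p)
    {G : V (N / l) → ℝ} (hG : T * (l : ℝ) ^ 2 * ∑ x, G x ^ 2 ≤ 1) :
    ∫ g, Rcl N l b T T (pin (acl N l b T T) *ᵥ g + G) ^ 2 ∂(gau (V (N / l))) ≤
      4 * δ ^ 2 + 200000 * W ^ 8 * √(√p) := by
  set P := (gau (V (N / l))).real {g | δ < Rcl N l b T T (pin (acl N l b T T) *ᵥ g)} with hP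
  have hP0 : 0 ≤ P := measureReal_nonneg
  have : IsProbabilityMeasure (gau (V (N / l))) := by unfold gau; infer_instance
  have hP1 : P ≤ 1 := measureReal_le_one
  have h1 := r2W hb hl hT hN hδ hW hW2 (le_refl P) hG
  refine h1.trans ?_
  have h2 : √P ≤ √(√p) := by
    have h3 : √P ≤ 1 := Real.sqrt_le_one.2 hP1
    have h4 : √P ≤ √(√P) := by
      refine Real.le_sqrt_of_sq_le ?_
      nlinarith [Real.sqrt_nonneg P]
    exact h4.trans (Real.sqrt_le_sqrt (Real.sqrt_le_sqrt hp))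
  have h5 : W ^ 2 ≤ W ^ 8 := pow_le_pow_right₀ hW (by norm_num)
  have h6 : 200000 * W ^ 2 * √P ≤ 200000 * W ^ 8 * √(√p) :=
    mul_le_mul (by linarith) h2 (Real.sqrt_nonneg _) (by positivity)
  nlinarith [sq_nonneg δ]

/-- the field `typ` of helper462's `P6h` -/
theorem typ_of (hb : 0 ≤ b) (hl : l ∣ N) (hT : 0 < T) (hN : Nf (acl N l b T T)) {δ δ' p W : ℝ}
    (hδ : 0 ≤ δ) (hW : 1 ≤ W) (hW2 : ((N / l : ℕ) : ℝ) ^ 2 ≤ W)
    (hp : (gau (V (N / l))).real {g | δ < Rcl N l b T T (pin (acl N l b T T) *ᵥ g)} ≤ p)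
    (hδ' : δ ^ 2 + 200000 * W ^ 2 * √p ≤ δ' ^ 2) :
    ∀ G : V (N / l) → ℝ, T * (l : ℝ) ^ 2 * ∑ x, G x ^ 2 ≤ 1 →
      ∫ g, Rcl N l b T T (pin (acl N l b T T) *ᵥ g + G) ^ 2 ∂(gau (V (N / l))) ≤ δ' ^ 2 :=
  fun _ hG => (r2W hb hl hT hN hδ hW hW2 hp hG).trans hδ'

end inst

end

end Vale.Agent.P159.H846.Ra
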