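import Vale.Agent.P159.H191.Ct6

/-!
P159, CUT (helper846): differences of means of a field on the torus against its Dirichlet energy.

* `dbl_s`   : `∑ ∑ (H x - H z)² ≤ 2 L⁴ E` over a box of side `L`;
* `wdiff`, `wone` : differences of weighted means;
* `mn_loc`, `mn_dif`, `mn_glob` : the mean `mn μ c H` with a profile at scale `l`: Poincare inequality
  on a box, far means (`E log²`), on the whole torus (`N² E log²`).
-/

set_option linter.unusedSectionVars false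

namespace Vale.Agent.P159.H846.Tp

open Finset
open Vale.Agent.P159.TM.Spec (V)
open Vale.Agent.P159.H817 (sz gr nrm e1 e2 gr_false gr_true sum_edges)
open Vale.Agent.P159.H191 (mn)

noncomputable section

/-! ### one dimension -/

lemma one_le (f : ℕ → ℝ) {L a b : ℕ} (hab : a ≤ b) (hb : b < L) :
    (f b - f a) ^ 2 ≤ L * ∑ k ∈ range L, (f (k + 1) - f k) ^ 2 := by
  have h1 : f b - f a = ∑ k ∈ Ico a b, (f (k + 1) - f k) := by
    rw [Finset.sum_Ico_eq_sub _ hab, Finset.sum_range_sub, Finset.sum_range_sub]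
    ring
  rw [h1]
  have h2 := sq_sum_le_card_mul_sum_sq (s := Ico a b) (f := fun k => f (k + 1) - f k)
  refine h2.trans ?_
  have h3 : ∑ k ∈ Ico a b, (f (k + 1) - f k) ^ 2 ≤ ∑ k ∈ range L, (f (k + 1) - f k) ^ 2 := by
    refine Finset.sum_le_sum_of_subset_of_nonneg (fun k hk => ?_) fun k _ _ => sq_nonneg _
    rw [Finset.mem_Ico] at hk
    rw [Finset.mem_range]
    omega
  have h4 : ((#(Ico a b) : ℕ) : ℝ) ≤ L := by
    rw [Nat.card_Ico]
    exact_mod_cast (by omega : b - a ≤ L)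
  exact mul_le_mul h4 h3 (Finset.sum_nonneg fun k _ => sq_nonneg _) (Nat.cast_nonneg _)

lemma one_d (f : ℕ → ℝ) {L a b : ℕ} (ha : a < L) (hb : b < L) :
    (f b - f a) ^ 2 ≤ L * ∑ k ∈ range L, (f (k + 1) - f k) ^ 2 := by
  rcases le_total a b with h | h
  · exact one_le f h hb
  · have h1 := one_le f h ha
    have e : (f b - f a) ^ 2 = (f a - f b) ^ 2 := by ring
    rw [e]
    exact h1

/-- weighted means -/
lemma jen {ι : Type*} [Fintype ι] {w f : ι → ℝ} (h0 : ∀ i, 0 ≤ w i) (h1 : ∑ i, w i = 1) :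
    (∑ i, w i * f i) ^ 2 ≤ ∑ i, w i * f i ^ 2 := by
  set m := ∑ i, w i * f i with hm
  have h2 : 0 ≤ ∑ i, w i * (f i - m) ^ 2 :=
    Finset.sum_nonneg fun i _ => mul_nonneg (h0 i) (sq_nonneg _)
  have h3 : ∑ i, w i * (f i - m) ^ 2 = ∑ i, w i * f i ^ 2 - 2 * m * m + m ^ 2 := by
    have e : ∀ i, w i * (f i - m) ^ 2 = w i * f i ^ 2 - 2 * m * (w i * f i) + m ^ 2 * w i :=
      fun i => by ring
    simp only [e]
    rw [Finset.sum_add_distrib, Finset.sum_sub_distrib, ← Finset.mul_sum, ← Finset.mul_sum, ← hm,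
      h1, mul_one]
  nlinarith

variable {N : ℕ} [NeZero N]

/-- the point `c + (i, j)` -/
def pt (c : V N) (i j : ℕ) : V N := c + ((i : ZMod N), (j : ZMod N))

lemma pt_e1 (c : V N) (i j : ℕ) : pt c i j + e1 = pt c (i + 1) j := by
  unfold pt e1
  rw [add_assoc]
  congr 1
  ext <;> simp

lemma pt_e2 (c : V N) (i j : ℕ) : pt c i j + e2 = pt c i (j + 1) := by
  unfold pt e2
  rw [add_assoc]
  congr 1
  ext <;> simp

lemma cast_inj' {i j : ℕ} (hi : i < N) (hj : j < N) (h : (i : ZMod N) = (j : ZMod N)) : i = j := by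
  have h1 := congrArg ZMod.val h
  rwa [ZMod.val_natCast, ZMod.val_natCast, Nat.mod_eq_of_lt hi, Nat.mod_eq_of_lt hj] at h1

lemma pt_inj (c : V N) {L : ℕ} (hL : L ≤ N) :
    Set.InjOn (fun p : ℕ × ℕ => pt c p.1 p.2) (↑(range L ×ˢ range L) : Set (ℕ × ℕ)) := by
  rintro ⟨i, j⟩ h ⟨i', j'⟩ h' he
  simp only [Finset.coe_product, Finset.coe_range, Set.mem_prod, Set.mem_Iio] at h h'
  have h1 : ((i : ZMod N), (j : ZMod N)) = ((i' : ZMod N), (j' : ZMod N)) :=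
    add_left_cancel (a := c) he
  have h2 := congrArg Prod.fst h1
  have h3 := congrArg Prod.snd h1
  rw [cast_inj' (by omega) (by omega) h2, cast_inj' (by omega) (by omega) h3]

/-- box of side `L` with lower left corner `c` -/
def bs (c : V N) (L : ℕ) : Finset (V N) :=
  (range L ×ˢ range L).image fun p => pt c p.1 p.2

lemma sum_bs (c : V N) {L : ℕ} (hL : L ≤ N) (g : V N → ℝ) :
    ∑ x ∈ bs c L, g x = ∑ i ∈ range L, ∑ j ∈ range L, g (pt c i j) := by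
  unfold bs
  rw [Finset.sum_image (pt_inj c hL), Finset.sum_product]

lemma card_bs (c : V N) {L : ℕ} (hL : L ≤ N) : #(bs c L) = L ^ 2 := by
  unfold bs
  rw [Finset.card_image_of_injOn (pt_inj c hL), Finset.card_product, Finset.card_range]
  ring

theorem dbl (H : V N → ℝ) (c : V N) {L : ℕ} (hL : L ≤ N) :
    ∑ x ∈ bs c L, ∑ z ∈ bs c L, (H x - H z) ^ 2 ≤ 2 * (L : ℝ) ^ 4 * nrm (gr H) := by
  rw [sum_bs c hL]
  simp only [sum_bs c hL]
  set R : ℕ → ℝ := fun j => ∑ k ∈ range L, gr H (pt c k j, false) ^ 2 with hR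
  set C : ℕ → ℝ := fun i => ∑ k ∈ range L, gr H (pt c i k, true) ^ 2 with hC
  have hp : ∀ i j i' j', i < L → j < L → i' < L → j' < L →
      (H (pt c i j) - H (pt c i' j')) ^ 2 ≤ 2 * L * R j + 2 * L * C i' := by
    intro i j i' j' hi hj hi' hj'
    have h1 := one_d (fun k => H (pt c k j)) hi' hi
    have h2 := one_d (fun k => H (pt c i' k)) hj' hj
    have e1' : ∀ k, (H (pt c (k + 1) j) - H (pt c k j)) ^ 2 = gr H (pt c k j, false) ^ 2 := by
      intro k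
      rw [gr_false, pt_e1]
    have e2' : ∀ k, (H (pt c i' (k + 1)) - H (pt c i' k)) ^ 2 = gr H (pt c i' k, true) ^ 2 := by
      intro k
      rw [gr_true, pt_e2]
    simp only [e1'] at h1
    simp only [e2'] at h2
    have h3 : (H (pt c i j) - H (pt c i' j')) ^ 2 ≤
        2 * (H (pt c i j) - H (pt c i' j)) ^ 2 + 2 * (H (pt c i' j) - H (pt c i' j')) ^ 2 := by
      nlinarith [sq_nonneg ((H (pt c i j) - H (pt c i' j)) - (H (pt c i' j) - H (pt c i' j')))]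
    simp only [hR, hC]
    linarith
  have hs : ∑ i ∈ range L, ∑ j ∈ range L, ∑ i' ∈ range L, ∑ j' ∈ range L,
      (H (pt c i j) - H (pt c i' j')) ^ 2 ≤
      ∑ i ∈ range L, ∑ j ∈ range L, ∑ i' ∈ range L, ∑ j' ∈ range L,
        (2 * L * R j + 2 * L * C i') := by
    refine Finset.sum_le_sum fun i hi => Finset.sum_le_sum fun j hj => Finset.sum_le_sum
      fun i' hi' => Finset.sum_le_sum fun j' hj' => hp i j i' j' ?_ ?_ ?_ ?_
    all_goals exact Finset.mem_range.1 (by assumption)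
  refine hs.trans ?_
  have e : ∑ i ∈ range L, ∑ j ∈ range L, ∑ i' ∈ range L, ∑ j' ∈ range L,
      (2 * (L : ℝ) * R j + 2 * L * C i') =
      2 * (L : ℝ) ^ 4 * (∑ j ∈ range L, R j + ∑ i ∈ range L, C i) := by
    simp only [Finset.sum_add_distrib, Finset.sum_const, Finset.card_range, nsmul_eq_mul,
      ← Finset.mul_sum]
    ring
  rw [e]
  refine mul_le_mul_of_nonneg_left ?_ (by positivity)
  have h1 : ∑ j ∈ range L, R j ≤ ∑ x, gr H (x, false) ^ 2 := by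
    simp only [hR]
    rw [Finset.sum_comm, ← sum_bs c hL fun x => gr H (x, false) ^ 2]
    exact Finset.sum_le_univ_sum_of_nonneg fun x => sq_nonneg _
  have h2 : ∑ i ∈ range L, C i ≤ ∑ x, gr H (x, true) ^ 2 := by
    simp only [hC]
    rw [← sum_bs c hL fun x => gr H (x, true) ^ 2]
    exact Finset.sum_le_univ_sum_of_nonneg fun x => sq_nonneg _
  unfold nrm
  rw [sum_edges]
  exact add_le_add h1 h2

theorem dbl_s (H : V N → ℝ) {c : V N} {L : ℕ} (hL : L ≤ N) {s : Finset (V N)} (hs : s ⊆ bs c L) :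
    ∑ x ∈ s, ∑ z ∈ s, (H x - H z) ^ 2 ≤ 2 * (L : ℝ) ^ 4 * nrm (gr H) := by
  refine le_trans ?_ (dbl H c hL)
  calc ∑ x ∈ s, ∑ z ∈ s, (H x - H z) ^ 2 ≤ ∑ x ∈ s, ∑ z ∈ bs c L, (H x - H z) ^ 2 :=
        Finset.sum_le_sum fun x _ => Finset.sum_le_sum_of_subset_of_nonneg hs
          fun z _ _ => sq_nonneg _
    _ ≤ _ := Finset.sum_le_sum_of_subset_of_nonneg hs fun x _ _ =>
        Finset.sum_nonneg fun z _ => sq_nonneg _

lemma univ_bs (c : V N) : (univ : Finset (V N)) ⊆ bs c N := by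
  intro x _
  unfold bs
  rw [Finset.mem_image]
  refine ⟨((x - c).1.val, (x - c).2.val), ?_, ?_⟩
  · rw [Finset.mem_product, Finset.mem_range, Finset.mem_range]
    exact ⟨ZMod.val_lt _, ZMod.val_lt _⟩
  · simp only [pt, ZMod.natCast_val, ZMod.cast_id', id_eq]
    exact add_sub_cancel c x

/-- centred box -/
def bx (c : V N) (R : ℕ) : Finset (V N) := bs (c - ((R : ZMod N), (R : ZMod N))) (2 * R + 1)

lemma bx_sub (c : V N) {R R' : ℕ} (h : R ≤ R') : bx c R ⊆ bx c R' := by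
  intro x hx
  unfold bx bs at hx ⊢
  rw [Finset.mem_image] at hx ⊢
  obtain ⟨p, hp, rfl⟩ := hx
  rw [Finset.mem_product, Finset.mem_range, Finset.mem_range] at hp
  refine ⟨(p.1 + (R' - R), p.2 + (R' - R)), ?_, ?_⟩
  · rw [Finset.mem_product, Finset.mem_range, Finset.mem_range]
    omega
  · unfold pt
    have e : ((R' - R : ℕ) : ZMod N) = (R' : ZMod N) - R := by push_cast [Nat.cast_sub h]; ring
    ext <;> simp only [Prod.fst_add, Prod.snd_add, Prod.fst_sub, Prod.snd_sub] <;> push_cast <;>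
      rw [e] <;> ring

lemma mem_bx {c x : V N} {R : ℕ} (h : sz (x - c) ≤ R) : x ∈ bx c R := by
  unfold bx bs
  rw [Finset.mem_image]
  have h1 : (x - c).1.valMinAbs.natAbs ≤ R ∧ (x - c).2.valMinAbs.natAbs ≤ R := by
    unfold sz at h
    exact max_le_iff.1 h
  refine ⟨(((x - c).1.valMinAbs + R).toNat, ((x - c).2.valMinAbs + R).toNat), ?_, ?_⟩
  · rw [Finset.mem_product, Finset.mem_range, Finset.mem_range]
    simp only
    omega
  · have e : ∀ a : ZMod N, a.valMinAbs.natAbs ≤ R →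
        (((a.valMinAbs + R).toNat : ℕ) : ZMod N) = a + R := by
      intro a ha
      have h3 : (0 : ℤ) ≤ a.valMinAbs + R := by omega
      have h4 : (((a.valMinAbs + R).toNat : ℕ) : ZMod N) = ((a.valMinAbs + R : ℤ) : ZMod N) := by
        have h5 : (((a.valMinAbs + R).toNat : ℕ) : ℤ) = a.valMinAbs + R := Int.toNat_of_nonneg h3
        exact_mod_cast congrArg (fun z : ℤ => (z : ZMod N)) h5
      rw [h4, Int.cast_add, ZMod.coe_valMinAbs, Int.cast_natCast]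
    unfold pt
    rw [e _ h1.1, e _ h1.2]
    ext <;> simp only [Prod.fst_add, Prod.snd_add, Prod.fst_sub, Prod.snd_sub] <;> ring

/-! ### weighted means -/

/-- probability weights with a bound, supported in `s` -/
structure Wt (α : V N → ℝ) (A : ℝ) (s : Finset (V N)) : Prop where
  nn : ∀ x, 0 ≤ α x
  one : ∑ x, α x = 1
  le : ∀ x, α x ≤ A
  sup : ∀ x, α x ≠ 0 → x ∈ s

lemma Wt.sum_le {α : V N → ℝ} {A : ℝ} {s : Finset (V N)} (h : Wt α A s) {g : V N → ℝ}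
    (hg : ∀ x, 0 ≤ g x) : ∑ x, α x * g x ≤ A * ∑ x ∈ s, g x := by
  have h1 : ∑ x, α x * g x = ∑ x ∈ s, α x * g x := by
    refine (Finset.sum_subset (Finset.subset_univ s) fun x _ hx => ?_).symm
    by_cases h0 : α x = 0
    · rw [h0, zero_mul]
    · exact absurd (h.sup x h0) hx
  rw [h1, Finset.mul_sum]
  exact Finset.sum_le_sum fun x _ => mul_le_mul_of_nonneg_right (h.le x) (hg x)

lemma Wt.A0 {α : V N → ℝ} {A : ℝ} {s : Finset (V N)} (h : Wt α A s) : 0 ≤ A :=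
  (h.nn 0).trans (h.le 0)

/-- a field against its mean -/
lemma Wt.dev {α : V N → ℝ} {A : ℝ} {s : Finset (V N)} (h : Wt α A s) (H : V N → ℝ) (x : V N) :
    (H x - ∑ z, α z * H z) ^ 2 ≤ A * ∑ z ∈ s, (H x - H z) ^ 2 := by
  have e : H x - ∑ z, α z * H z = ∑ z, α z * (H x - H z) := by
    simp only [mul_sub]
    rw [Finset.sum_sub_distrib, ← Finset.sum_mul, h.one, one_mul]
  rw [e]
  exact (jen h.nn h.one).trans (h.sum_le fun z => sq_nonneg _)

lemma wone {α : V N → ℝ} {A : ℝ} {s : Finset (V N)} (h : Wt α A s) (H : V N → ℝ) {c : V N} {L : ℕ}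
    (hL : L ≤ N) (hs : s ⊆ bs c L) {s' : Finset (V N)} (hs' : s' ⊆ bs c L) :
    ∑ x ∈ s', (H x - ∑ z, α z * H z) ^ 2 ≤ A * (2 * (L : ℝ) ^ 4 * nrm (gr H)) := by
  calc ∑ x ∈ s', (H x - ∑ z, α z * H z) ^ 2 ≤ ∑ x ∈ s', A * ∑ z ∈ s, (H x - H z) ^ 2 :=
        Finset.sum_le_sum fun x _ => h.dev H x
    _ = A * ∑ x ∈ s', ∑ z ∈ s, (H x - H z) ^ 2 := by rw [Finset.mul_sum]
    _ ≤ A * ∑ x ∈ bs c L, ∑ z ∈ bs c L, (H x - H z) ^ 2 := by
        refine mul_le_mul_of_nonneg_left ?_ h.A0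
        calc ∑ x ∈ s', ∑ z ∈ s, (H x - H z) ^ 2 ≤ ∑ x ∈ s', ∑ z ∈ bs c L, (H x - H z) ^ 2 :=
              Finset.sum_le_sum fun x _ => Finset.sum_le_sum_of_subset_of_nonneg hs
                fun z _ _ => sq_nonneg _
          _ ≤ _ := Finset.sum_le_sum_of_subset_of_nonneg hs' fun x _ _ =>
              Finset.sum_nonneg fun z _ => sq_nonneg _
    _ ≤ _ := mul_le_mul_of_nonneg_left (dbl H c hL) h.A0

lemma wdiff {α β : V N → ℝ} {A B : ℝ} {s s' : Finset (V N)} (h : Wt α A s) (h' : Wt β B s')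
    (H : V N → ℝ) {c : V N} {L : ℕ} (hL : L ≤ N) (hs : s ⊆ bs c L) (hs' : s' ⊆ bs c L) :
    (∑ z, β z * H z - ∑ z, α z * H z) ^ 2 ≤ B * A * (2 * (L : ℝ) ^ 4 * nrm (gr H)) := by
  set m := ∑ z, α z * H z with hm
  have e : ∑ z, β z * H z - m = ∑ z, β z * (H z - m) := by
    simp only [mul_sub]
    rw [Finset.sum_sub_distrib, ← Finset.sum_mul, h'.one, one_mul]
  rw [e]
  refine (jen h'.nn h'.one).trans ((h'.sum_le fun z => sq_nonneg _).trans ?_)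
  rw [mul_assoc B A]
  exact mul_le_mul_of_nonneg_left (wone h H hL hs hs') h'.A0

/-- uniform weights -/
def ub (c : V N) (R : ℕ) (x : V N) : ℝ := if x ∈ bx c R then (((2 * R + 1 : ℕ) : ℝ) ^ 2)⁻¹ else 0

lemma wt_ub (c : V N) {R : ℕ} (hR : 2 * R + 1 ≤ N) :
    Wt (ub c R) ((((2 * R + 1 : ℕ) : ℝ) ^ 2)⁻¹) (bx c R) := by
  have h0 : (0 : ℝ) < ((2 * R + 1 : ℕ) : ℝ) ^ 2 := by positivity
  refine ⟨fun x => ?_, ?_, fun x => ?_, fun x hx => ?_⟩
  · unfold ub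
    split_ifs
    · positivity
    · exact le_rfl
  · unfold ub
    rw [Finset.sum_ite_mem, Finset.univ_inter, Finset.sum_const, nsmul_eq_mul]
    unfold bx
    rw [card_bs _ hR]
    push_cast
    exact mul_inv_cancel₀ (by positivity)
  · unfold ub
    split_ifs
    · exact le_rfl
    · positivity
  · unfold ub at hx
    by_contra h
    rw [if_neg h] at hx
    exact hx rfl

/-! ### the profile -/

/-- the profile of the mean: at scale `l`, density at most `Cm / l²` -/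
structure Pf (l : ℕ) (μ : V N → ℝ) (Cm : ℝ) : Prop where
  nn : ∀ z, 0 ≤ μ z
  one : ∑ z, μ z = 1
  sup : ∀ z, μ z ≠ 0 → sz z ≤ l
  le : ∀ z, μ z ≤ Cm / (l : ℝ) ^ 2

variable {l : ℕ} {μ : V N → ℝ} {Cm : ℝ}

lemma Pf.wt (h : Pf l μ Cm) (c : V N) : Wt (fun y => μ (y - c)) (Cm / (l : ℝ) ^ 2) (bx c l) := by
  refine ⟨fun x => h.nn _, ?_, fun x => h.le _, fun x hx => mem_bx (h.sup _ hx)⟩
  rw [← h.one]
  exact Equiv.sum_comp (Equiv.subRight c) μ

/-- **Poincare inequality on a box** -/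
theorem mn_loc (h : Pf l μ Cm) (H : V N → ℝ) (c : V N) {R : ℕ} (hlR : l ≤ R) (hR : 2 * R + 1 ≤ N) :
    ∑ x ∈ bx c R, (H x - mn μ c H) ^ 2 ≤
      Cm / (l : ℝ) ^ 2 * (2 * ((2 * R + 1 : ℕ) : ℝ) ^ 4 * nrm (gr H)) :=
  wone (h.wt c) H hR (bx_sub c hlR) (Finset.Subset.refl _)

lemma nrm_nonneg (j : V N × Bool → ℝ) : 0 ≤ nrm j := Finset.sum_nonneg fun _ _ => sq_nonneg _

/-- first step -/
lemma mn_ub (h : Pf l μ Cm) (hl : 0 < l) (hCm : 1 ≤ Cm) (H : V N → ℝ) (c : V N)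
    (hR : 2 * l + 1 ≤ N) :
    |mn μ c H - ∑ z, ub c l z * H z| ≤ 5 * Cm * √(nrm (gr H)) := by
  have h1 := wdiff (wt_ub c hR) (h.wt c) H hR (Finset.Subset.refl _) (Finset.Subset.refl _)
  have hl1 : (1 : ℝ) ≤ l := by exact_mod_cast hl
  have hE := nrm_nonneg (gr H)
  have h2 : Cm / (l : ℝ) ^ 2 * (((2 * l + 1 : ℕ) : ℝ) ^ 2)⁻¹ *
      (2 * ((2 * l + 1 : ℕ) : ℝ) ^ 4 * nrm (gr H)) ≤ (5 * Cm) ^ 2 * nrm (gr H) := by
    have h3 : Cm / (l : ℝ) ^ 2 * (((2 * l + 1 : ℕ) : ℝ) ^ 2)⁻¹ *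
        (2 * ((2 * l + 1 : ℕ) : ℝ) ^ 4 * nrm (gr H)) =
        2 * Cm * ((2 * l + 1 : ℕ) : ℝ) ^ 2 / (l : ℝ) ^ 2 * nrm (gr H) := by
      field_simp
    rw [h3]
    refine mul_le_mul_of_nonneg_right ?_ hE
    rw [div_le_iff₀ (by positivity)]
    push_cast
    have h4 : (2 * (l : ℝ) + 1) ^ 2 ≤ 9 * (l : ℝ) ^ 2 := by nlinarith
    nlinarith [mul_le_mul_of_nonneg_left h4 (by linarith : 0 ≤ 2 * Cm),
      mul_nonneg (by linarith : 0 ≤ Cm - 1) (sq_nonneg (l : ℝ)),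
      mul_nonneg (mul_nonneg (by linarith : (0 : ℝ) ≤ Cm) (by linarith : 0 ≤ Cm - 1))
        (sq_nonneg (l : ℝ))]
  have h5 : (mn μ c H - ∑ z, ub c l z * H z) ^ 2 ≤ (5 * Cm) ^ 2 * nrm (gr H) := h1.trans h2
  refine abs_le_of_sq_le_sq ?_ (by positivity)
  rw [mul_pow, Real.sq_sqrt hE]
  exact h5

/-- doubling -/
lemma ub_two (H : V N → ℝ) (c : V N) {R : ℕ} (hR : 2 * (2 * R) + 1 ≤ N) :
    |∑ z, ub c R z * H z - ∑ z, ub c (2 * R) z * H z| ≤ 3 * √(nrm (gr H)) := by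
  have h1 := wdiff (wt_ub c hR) (wt_ub c (R := R) (by omega)) H hR (Finset.Subset.refl _)
    (bx_sub c (by omega))
  have hE := nrm_nonneg (gr H)
  have h2 : (((2 * R + 1 : ℕ) : ℝ) ^ 2)⁻¹ * (((2 * (2 * R) + 1 : ℕ) : ℝ) ^ 2)⁻¹ *
      (2 * ((2 * (2 * R) + 1 : ℕ) : ℝ) ^ 4 * nrm (gr H)) ≤ 3 ^ 2 * nrm (gr H) := by
    have h3 : (((2 * R + 1 : ℕ) : ℝ) ^ 2)⁻¹ * (((2 * (2 * R) + 1 : ℕ) : ℝ) ^ 2)⁻¹ *
      (2 * ((2 * (2 * R) + 1 : ℕ) : ℝ) ^ 4 * nrm (gr H)) =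
        2 * ((2 * (2 * R) + 1 : ℕ) : ℝ) ^ 2 / ((2 * R + 1 : ℕ) : ℝ) ^ 2 * nrm (gr H) := by
      field_simp
    rw [h3]
    refine mul_le_mul_of_nonneg_right ?_ hE
    rw [div_le_iff₀ (by positivity)]
    push_cast
    nlinarith [Nat.cast_nonneg (α := ℝ) R]
  refine abs_le_of_sq_le_sq ?_ (by positivity)
  rw [mul_pow, Real.sq_sqrt hE]
  exact h1.trans h2

lemma mn_chain (h : Pf l μ Cm) (hl : 0 < l) (hCm : 1 ≤ Cm) (H : V N → ℝ) (c : V N) (k : ℕ)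
    (hR : 2 * (2 ^ k * l) + 1 ≤ N) :
    |mn μ c H - ∑ z, ub c (2 ^ k * l) z * H z| ≤ (5 * Cm + 3 * k) * √(nrm (gr H)) := by
  induction k with
  | zero =>
    rw [pow_zero, one_mul] at hR ⊢
    refine (mn_ub h hl hCm H c hR).trans (le_of_eq ?_)
    push_cast
    ring
  | succ k ih =>
    have e : 2 ^ (k + 1) * l = 2 * (2 ^ k * l) := by ring
    have hR' : 2 * (2 * (2 ^ k * l)) + 1 ≤ N := by
      rw [← e]
      exact hR
    have h1 := ih (by omega)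
    have h2 := ub_two H c hR'
    rw [e]
    have h3 := abs_sub_le (mn μ c H) (∑ z, ub c (2 ^ k * l) z * H z)
      (∑ z, ub c (2 * (2 ^ k * l)) z * H z)
    push_cast
    linarith

/-- the largest box -/
lemma top_ex {k : ℕ} (hl : 0 < l) (hN : 2 * l + 1 ≤ N) (hk : N ≤ 2 ^ k * l) :
    ∃ K, K ≤ k ∧ 2 * (2 ^ K * l) + 1 ≤ N ∧ N ≤ 2 * (2 * (2 ^ K * l) + 1) := by
  have hex : ∃ m, N < 2 * (2 ^ m * l) + 1 := ⟨k, by omega⟩
  set m := Nat.find hex with hm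
  have h1 := Nat.find_spec hex
  rw [← hm] at h1
  have h2 : m ≠ 0 := by
    intro h0
    rw [h0, pow_zero, one_mul] at h1
    omega
  obtain ⟨K, hK⟩ := Nat.exists_eq_succ_of_ne_zero h2
  have h3 : ¬ N < 2 * (2 ^ K * l) + 1 := Nat.find_min hex (by omega)
  have h4 : m ≤ k := Nat.find_min' hex (by omega)
  refine ⟨K, by omega, by omega, ?_⟩
  rw [hK] at h1
  have e : 2 ^ (K + 1) * l = 2 * (2 ^ K * l) := by ring
  have h5 : 2 ^ (Nat.succ K) * l = 2 * (2 ^ K * l) := e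
  rw [h5] at h1
  omega

/-- **far means** -/
theorem mn_dif (h : Pf l μ Cm) (hl : 0 < l) (hCm : 1 ≤ Cm) (hN : 2 * l + 1 ≤ N) {k : ℕ}
    (hk : N ≤ 2 ^ k * l) (H : V N → ℝ) (p q : V N) :
    (mn μ q H - mn μ p H) ^ 2 ≤ (10 * Cm + 6 * k + 6) ^ 2 * nrm (gr H) := by
  obtain ⟨K, hKk, hK1, hK2⟩ := top_ex hl hN hk
  have hE := nrm_nonneg (gr H)
  have a1 := mn_chain h hl hCm H p K hK1
  have a2 := mn_chain h hl hCm H q K hK1
  have h1 := wdiff (wt_ub p hK1) (wt_ub q hK1) H (c := 0) le_rfl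
    ((Finset.subset_univ _).trans (univ_bs 0)) ((Finset.subset_univ _).trans (univ_bs 0))
  set R := 2 ^ K * l with hR
  have hRr : (N : ℝ) ≤ 2 * ((2 * R + 1 : ℕ) : ℝ) := by exact_mod_cast hK2
  have hp : (0 : ℝ) < ((2 * R + 1 : ℕ) : ℝ) := by positivity
  have a3 : |∑ z, ub q R z * H z - ∑ z, ub p R z * H z| ≤ 6 * √(nrm (gr H)) := by
    refine abs_le_of_sq_le_sq ?_ (by positivity)
    rw [mul_pow, Real.sq_sqrt hE]
    refine h1.trans ?_
    have h4 : (N : ℝ) ^ 4 ≤ 16 * ((2 * R + 1 : ℕ) : ℝ) ^ 4 := by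
      have := pow_le_pow_left₀ (Nat.cast_nonneg N) hRr 4
      rw [mul_pow] at this
      norm_num at this ⊢
      exact this
    have h5 : (((2 * R + 1 : ℕ) : ℝ) ^ 2)⁻¹ * (((2 * R + 1 : ℕ) : ℝ) ^ 2)⁻¹ * (2 * (N : ℝ) ^ 4) ≤
        36 := by
      rw [← mul_inv, ← pow_add, inv_mul_le_iff₀ (by positivity)]
      have hp4 : 0 < ((2 * R + 1 : ℕ) : ℝ) ^ 4 := pow_pos hp 4
      have e4 : ((2 * R + 1 : ℕ) : ℝ) ^ (2 + 2) = ((2 * R + 1 : ℕ) : ℝ) ^ 4 := by norm_num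
      rw [e4]
      linarith
    calc _ = (((2 * R + 1 : ℕ) : ℝ) ^ 2)⁻¹ * (((2 * R + 1 : ℕ) : ℝ) ^ 2)⁻¹ * (2 * (N : ℝ) ^ 4) *
          nrm (gr H) := by ring
      _ ≤ 36 * nrm (gr H) := mul_le_mul_of_nonneg_right h5 hE
      _ = 6 ^ 2 * nrm (gr H) := by norm_num
  have hKr : (K : ℝ) ≤ k := by exact_mod_cast hKk
  have hS := Real.sqrt_nonneg (nrm (gr H))
  have h6 : |mn μ q H - mn μ p H| ≤ (10 * Cm + 6 * k + 6) * √(nrm (gr H)) := by
    have e : mn μ q H - mn μ p H = (mn μ q H - ∑ z, ub q R z * H z) +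
        (∑ z, ub q R z * H z - ∑ z, ub p R z * H z) - (mn μ p H - ∑ z, ub p R z * H z) := by ring
    rw [e]
    refine (abs_sub _ _).trans ?_
    have h7 := abs_add_le (mn μ q H - ∑ z, ub q R z * H z)
      (∑ z, ub q R z * H z - ∑ z, ub p R z * H z)
    have h8 : (5 * Cm + 3 * K) * √(nrm (gr H)) ≤ (5 * Cm + 3 * k) * √(nrm (gr H)) :=
      mul_le_mul_of_nonneg_right (by linarith) hS
    linarith
  have h9 := pow_le_pow_left₀ (abs_nonneg _) h6 2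
  rwa [sq_abs, mul_pow, Real.sq_sqrt hE] at h9

/-- **Poincare inequality on the torus** -/
theorem mn_glob (h : Pf l μ Cm) (hl : 0 < l) (hCm : 1 ≤ Cm) (hN : 2 * l + 1 ≤ N) {k : ℕ}
    (hk : N ≤ 2 ^ k * l) (H : V N → ℝ) (p : V N) :
    ∑ x, (H x - mn μ p H) ^ 2 ≤ (16 + 2 * (5 * Cm + 3 * k) ^ 2) * (N : ℝ) ^ 2 * nrm (gr H) := by
  obtain ⟨K, hKk, hK1, hK2⟩ := top_ex hl hN hk
  have hE := nrm_nonneg (gr H)
  have a1 := mn_chain h hl hCm H p K hK1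
  set R := 2 ^ K * l with hR
  have hRr : (N : ℝ) ≤ 2 * ((2 * R + 1 : ℕ) : ℝ) := by exact_mod_cast hK2
  have hp : (0 : ℝ) < ((2 * R + 1 : ℕ) : ℝ) := by positivity
  have h1 := wone (wt_ub p hK1) H (c := 0) le_rfl ((Finset.subset_univ _).trans (univ_bs 0))
    (univ_bs 0)
  set m := ∑ z, ub p R z * H z with hm
  have h2 : ∑ x, (H x - m) ^ 2 ≤ 8 * (N : ℝ) ^ 2 * nrm (gr H) := by
    refine h1.trans ?_
    have h4 : (N : ℝ) ^ 2 ≤ 4 * ((2 * R + 1 : ℕ) : ℝ) ^ 2 := by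
      have := pow_le_pow_left₀ (Nat.cast_nonneg N) hRr 2
      rw [mul_pow] at this
      norm_num at this ⊢
      exact this
    have h5 : (((2 * R + 1 : ℕ) : ℝ) ^ 2)⁻¹ * (2 * (N : ℝ) ^ 4) ≤ 8 * (N : ℝ) ^ 2 := by
      rw [inv_mul_le_iff₀ (by positivity)]
      have h6 : 0 ≤ (N : ℝ) ^ 2 := by positivity
      nlinarith
    calc _ = (((2 * R + 1 : ℕ) : ℝ) ^ 2)⁻¹ * (2 * (N : ℝ) ^ 4) * nrm (gr H) := by ring
      _ ≤ _ := mul_le_mul_of_nonneg_right h5 hE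
  have hKr : (K : ℝ) ≤ k := by exact_mod_cast hKk
  have h3 : (mn μ p H - m) ^ 2 ≤ (5 * Cm + 3 * k) ^ 2 * nrm (gr H) := by
    have h4 := pow_le_pow_left₀ (abs_nonneg _) a1 2
    rw [sq_abs, mul_pow, Real.sq_sqrt hE] at h4
    refine h4.trans (mul_le_mul_of_nonneg_right ?_ hE)
    exact pow_le_pow_left₀ (by positivity) (by linarith) 2
  have h4 : ∀ x, (H x - mn μ p H) ^ 2 ≤ 2 * (H x - m) ^ 2 + 2 * (mn μ p H - m) ^ 2 := by
    intro x
    nlinarith [sq_nonneg ((H x - m) + (mn μ p H - m))]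
  calc ∑ x, (H x - mn μ p H) ^ 2 ≤ ∑ x, (2 * (H x - m) ^ 2 + 2 * (mn μ p H - m) ^ 2) :=
        Finset.sum_le_sum fun x _ => h4 x
    _ = 2 * ∑ x, (H x - m) ^ 2 + (N : ℝ) ^ 2 * (2 * (mn μ p H - m) ^ 2) := by
        rw [Finset.sum_add_distrib, ← Finset.mul_sum, Finset.sum_const, nsmul_eq_mul,
          Finset.card_univ, Fintype.card_prod, ZMod.card]
        push_cast
        ring
    _ ≤ _ := by
        have hN0 : 0 ≤ (N : ℝ) ^ 2 := by positivity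
        have := mul_le_mul_of_nonneg_left h3 hN0
        nlinarith

end

end Vale.Agent.P159.H846.Tp
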