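import Vale.Agent.P159.H846.Tp0

/-!
P159, CUT (helper846): **Dirichlet energy of helper191's partially cut field** `TP l pl μ p q θ`, for a
profile `θ` with gradient at most `A / N` (helper817's row 8972).

* `TPM`, `TPM1`, `TPM2` : the matrices, `TPM = TPM1 + TPM2`, `TPM_mul : TPM *ᵥ H = TP H`;
* `nrm_TP`   : `nrm (gr (TP H)) ≤ 2·10⁸ Cm² (1 + A² + Bp) (1 + k)² nrm (gr H)`, `N ≤ 2^k l`;
* `sq_TPM1`, `nrm_TPM2`, `sq_TPM`, `sq_TPMt` : the split and the operator norm.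
-/

set_option linter.unusedSectionVars false

namespace Vale.Agent.P159.H846.Tp

open Finset Matrix
open Vale.Agent.P159.TM.Spec (V)
open Vale.Agent.P159.H817 (sz gr nrm e1 e2 gr_eq eb GB U sum_edges)
open Vale.Agent.P159.H191 (mn chi a0 TP mn_const)

noncomputable section

variable {N : ℕ} [NeZero N] {l : ℕ} {μ pl θ : V N → ℝ} {Cm A Bp : ℝ}

/-! ### cut-off functions -/

lemma card_bx_le (c : V N) (R : ℕ) : ((#(bx c R) : ℕ) : ℝ) ≤ ((2 * R + 1 : ℕ) : ℝ) ^ 2 := by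
  have h : #(bx c R) ≤ (2 * R + 1) ^ 2 := by
    unfold bx bs
    refine Finset.card_image_le.trans ?_
    rw [Finset.card_product, Finset.card_range]
    exact le_of_eq (by ring)
  exact_mod_cast h

lemma gr_shift (f : V N → ℝ) (p x : V N) (b : Bool) :
    gr (fun y => f (y - p)) (x, b) = gr f (x - p, b) := by
  rw [gr_eq, gr_eq]
  have e : x + eb b - p = x - p + eb b := by abel
  rw [e]

lemma nrm_shift (f : V N → ℝ) (p : V N) : nrm (gr fun y => f (y - p)) = nrm (gr f) := by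
  unfold nrm
  rw [sum_edges, sum_edges]
  simp only [gr_shift]
  rw [H817.sum_shift_sub (fun x => gr f (x, false) ^ 2) p,
    H817.sum_shift_sub (fun x => gr f (x, true) ^ 2) p]

/-- the gradient of a cut-off function -/
lemma gr_U (m : ℕ) {l' : ℕ} (hl : 0 < l') (x : V N) (b : Bool) :
    gr (U m l') (x, b) ^ 2 ≤ if x ∈ bx (0 : V N) (m + l' + 1) then 1 / (l' : ℝ) ^ 2 else 0 := by
  have hl' : (0 : ℝ) < l' := by exact_mod_cast hl
  split_ifs with h
  · have h1 := H817.U_GB (N := N) m hl (x, b)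
    have h2 := pow_le_pow_left₀ (abs_nonneg _) h1 2
    rw [sq_abs] at h2
    refine h2.trans (le_of_eq ?_)
    ring
  · have h1 : m + l' + 1 < sz x := by
      by_contra h3
      exact h (mem_bx (by rw [sub_zero]; omega))
    have h2 := H817.sz_step x b
    rw [gr_eq, H817.U_zero (by omega), H817.U_zero (by omega), sub_zero]
    norm_num

/-- a gradient against a function -/
lemma sum_U (m : ℕ) {l' : ℕ} (hl : 0 < l') (p : V N) {g : V N → ℝ} (hg : ∀ x, 0 ≤ g x) (b : Bool) :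
    ∑ x, gr (fun y => U m l' (y - p)) (x, b) ^ 2 * g x ≤
      1 / (l' : ℝ) ^ 2 * ∑ x ∈ bx p (m + l' + 1), g x := by
  classical
  have hl' : (0 : ℝ) < l' := by exact_mod_cast hl
  have h1 : ∀ x : V N, gr (fun y => U m l' (y - p)) (x, b) ^ 2 * g x ≤
      if x ∈ bx p (m + l' + 1) then 1 / (l' : ℝ) ^ 2 * g x else 0 := by
    intro x
    rw [gr_shift]
    have h2 := gr_U m hl (x - p) b
    by_cases h : x ∈ bx p (m + l' + 1)
    · rw [if_pos h]
      refine mul_le_mul_of_nonneg_right (h2.trans ?_) (hg x)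
      split_ifs
      · exact le_rfl
      · positivity
    · rw [if_neg h]
      have h3 : x - p ∉ bx (0 : V N) (m + l' + 1) := by
        intro h4
        apply h
        unfold bx bs at h4 ⊢
        rw [Finset.mem_image] at h4 ⊢
        obtain ⟨r, hr, he⟩ := h4
        refine ⟨r, hr, ?_⟩
        have e : x = p + (x - p) := by abel
        rw [e, ← he]
        unfold pt
        abel
      rw [if_neg h3] at h2
      have h4 : gr (U m l') (x - p, b) ^ 2 = 0 := le_antisymm h2 (sq_nonneg _)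
      rw [h4, zero_mul]
  refine (Finset.sum_le_sum fun x _ => h1 x).trans ?_
  rw [Finset.sum_ite_mem, Finset.univ_inter, ← Finset.mul_sum]

lemma nrm_U (m : ℕ) {l' : ℕ} (hl : 0 < l') :
    nrm (gr (U (N := N) m l')) ≤
      2 / (l' : ℝ) ^ 2 * ((2 * (m + l' + 1) + 1 : ℕ) : ℝ) ^ 2 := by
  have hl' : (0 : ℝ) < l' := by exact_mod_cast hl
  have h : ∀ b : Bool, ∑ x : V N, gr (U m l') (x, b) ^ 2 ≤
      1 / (l' : ℝ) ^ 2 * ((2 * (m + l' + 1) + 1 : ℕ) : ℝ) ^ 2 := by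
    intro b
    have h1 := sum_U (N := N) m hl 0 (g := fun _ => 1) (fun _ => zero_le_one) b
    simp only [sub_zero, mul_one, Finset.sum_const, nsmul_eq_mul] at h1
    exact h1.trans (mul_le_mul_of_nonneg_left (card_bx_le _ _) (by positivity))
  unfold nrm
  rw [sum_edges]
  have h1 := h false
  have h2 := h true
  have e : 2 / (l' : ℝ) ^ 2 * ((2 * (m + l' + 1) + 1 : ℕ) : ℝ) ^ 2 =
      1 / (l' : ℝ) ^ 2 * ((2 * (m + l' + 1) + 1 : ℕ) : ℝ) ^ 2 +
      1 / (l' : ℝ) ^ 2 * ((2 * (m + l' + 1) + 1 : ℕ) : ℝ) ^ 2 := by ring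
  rw [e]
  exact add_le_add h1 h2

/-- the plateau `U (30 L) L` -/
lemma nrm_pla {L : ℕ} (hL : 0 < L) : nrm (gr (U (N := N) (30 * L) L)) ≤ 8450 := by
  have hL' : (1 : ℝ) ≤ L := by exact_mod_cast hL
  refine (nrm_U (30 * L) hL).trans ?_
  rw [div_mul_eq_mul_div, div_le_iff₀ (by positivity)]
  have h1 : ((2 * (30 * L + L + 1) + 1 : ℕ) : ℝ) ≤ 65 * L := by
    push_cast
    linarith
  have h2 := pow_le_pow_left₀ (Nat.cast_nonneg _) h1 2
  nlinarith

lemma nrm_chi (hl : 0 < l) : nrm (gr (chi (N := N) l)) ≤ 925 := by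
  have hl' : (1 : ℝ) ≤ l := by exact_mod_cast hl
  refine (nrm_U (18 * l) (l' := 2 * l) (by omega)).trans ?_
  rw [div_mul_eq_mul_div, div_le_iff₀ (by positivity)]
  have h1 : ((2 * (18 * l + 2 * l + 1) + 1 : ℕ) : ℝ) ≤ 43 * l := by
    push_cast
    linarith
  have h2 := pow_le_pow_left₀ (Nat.cast_nonneg _) h1 2
  push_cast at h2 ⊢
  nlinarith

/-! ### the factors -/

/-- the hypotheses on the profiles -/
structure TpH (N l : ℕ) [NeZero N] (pl μ θ : V N → ℝ) (Cm A Bp : ℝ) : Prop where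
  l0 : 0 < l
  lN : 64 * l ≤ N
  pf : Pf l μ Cm
  Cm1 : 1 ≤ Cm
  th0 : ∀ x, 0 ≤ θ x
  th1 : ∀ x, θ x ≤ 1
  A0 : 0 ≤ A
  thg : GB (A / N) θ
  pl0 : ∀ x, 0 ≤ pl x
  pl1 : ∀ x, pl x ≤ 1
  B0 : 0 ≤ Bp
  plg : nrm (gr pl) ≤ Bp

/-- the factor of the local field -/
def aa (l : ℕ) (p q : V N) (θ : V N → ℝ) (x : V N) : ℝ := 1 - θ x * a0 l p q x

/-- the plateau factor -/
def kk (l : ℕ) (pl : V N → ℝ) (q : V N) (θ : V N → ℝ) (x : V N) : ℝ :=
  θ x * (pl (x - q) - chi l (x - q))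

lemma chi01 (z : V N) : 0 ≤ chi l z ∧ chi l z ≤ 1 := ⟨H817.U_nonneg _ _ _, H817.U_le_one _ _ _⟩

lemma abs_a0 (p q x : V N) : |a0 l p q x| ≤ 1 := by
  unfold a0
  have h1 := chi01 (l := l) (x - p)
  have h2 := chi01 (l := l) (x - q)
  rw [abs_le]
  constructor <;> linarith

variable (h : TpH N l pl μ θ Cm A Bp) (p q : V N)
include h

lemma aa_sq (x : V N) : aa l p q θ x ^ 2 ≤ 4 := by
  have h1 := abs_le.1 (abs_a0 (l := l) p q x)
  have h2 := h.th0 x
  have h3 := h.th1 x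
  unfold aa
  have h4 : |1 - θ x * a0 l p q x| ≤ 2 := by
    rw [abs_le]
    constructor <;> nlinarith
  have h5 := pow_le_pow_left₀ (abs_nonneg _) h4 2
  rw [sq_abs] at h5
  linarith

lemma kk_sq (x : V N) : kk l pl q θ x ^ 2 ≤ 1 := by
  have h1 := chi01 (l := l) (x - q)
  have h2 := h.th0 x
  have h3 := h.th1 x
  have h4 := h.pl0 (x - q)
  have h5 := h.pl1 (x - q)
  unfold kk
  have h6 : |θ x * (pl (x - q) - chi l (x - q))| ≤ 1 := by
    rw [abs_mul, abs_of_nonneg h2]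
    have h7 : |pl (x - q) - chi l (x - q)| ≤ 1 := by
      rw [abs_le]
      constructor <;> linarith
    exact mul_le_one₀ h3 (abs_nonneg _) h7
  have h7 := pow_le_pow_left₀ (abs_nonneg _) h6 2
  rw [sq_abs] at h7
  linarith

lemma AN : (A / N) ^ 2 * (N : ℝ) ^ 2 = A ^ 2 := by
  have hN : (N : ℝ) ≠ 0 := Nat.cast_ne_zero.2 (NeZero.ne N)
  field_simp

/-- gradient of the first factor -/
lemma gr_aa (x : V N) (b : Bool) : gr (aa l p q θ) (x, b) ^ 2 ≤
    4 * gr (fun y => chi l (y - p)) (x, b) ^ 2 + 4 * gr (fun y => chi l (y - q)) (x, b) ^ 2 +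
      2 * (A / N) ^ 2 := by
  have e : gr (aa l p q θ) (x, b) = -(gr θ (x, b) * a0 l p q x) +
      θ (x + eb b) * (gr (fun y => chi l (y - p)) (x, b) + gr (fun y => chi l (y - q)) (x, b)) := by
    rw [gr_eq, gr_eq, gr_eq, gr_eq]
    unfold aa a0
    ring
  have h1 : (gr θ (x, b) * a0 l p q x) ^ 2 ≤ (A / N) ^ 2 := by
    have h2 := mul_le_mul (h.thg (x, b)) (abs_a0 (l := l) p q x) (abs_nonneg _)
      (div_nonneg h.A0 (Nat.cast_nonneg N))
    rw [← abs_mul, mul_one] at h2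
    have h3 := pow_le_pow_left₀ (abs_nonneg _) h2 2
    rwa [sq_abs] at h3
  have h2 : (θ (x + eb b) * (gr (fun y => chi l (y - p)) (x, b) +
      gr (fun y => chi l (y - q)) (x, b))) ^ 2 ≤
      2 * gr (fun y => chi l (y - p)) (x, b) ^ 2 + 2 * gr (fun y => chi l (y - q)) (x, b) ^ 2 := by
    rw [mul_pow]
    have h3 : θ (x + eb b) ^ 2 ≤ 1 := pow_le_one₀ (h.th0 _) (h.th1 _)
    have h4 : (gr (fun y => chi l (y - p)) (x, b) + gr (fun y => chi l (y - q)) (x, b)) ^ 2 ≤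
        2 * gr (fun y => chi l (y - p)) (x, b) ^ 2 + 2 * gr (fun y => chi l (y - q)) (x, b) ^ 2 := by
      nlinarith [sq_nonneg (gr (fun y => chi l (y - p)) (x, b) - gr (fun y => chi l (y - q)) (x, b))]
    calc _ ≤ 1 * (gr (fun y => chi l (y - p)) (x, b) + gr (fun y => chi l (y - q)) (x, b)) ^ 2 :=
          mul_le_mul_of_nonneg_right h3 (sq_nonneg _)
      _ ≤ _ := by rw [one_mul]; exact h4
  rw [e]
  nlinarith [sq_nonneg (gr θ (x, b) * a0 l p q x + θ (x + eb b) *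
    (gr (fun y => chi l (y - p)) (x, b) + gr (fun y => chi l (y - q)) (x, b)))]

/-- gradient of the second factor -/
lemma gr_kk (x : V N) (b : Bool) : gr (kk l pl q θ) (x, b) ^ 2 ≤
    4 * gr (fun y => pl (y - q)) (x, b) ^ 2 + 4 * gr (fun y => chi l (y - q)) (x, b) ^ 2 +
      2 * (A / N) ^ 2 := by
  have e : gr (kk l pl q θ) (x, b) = gr θ (x, b) * (pl (x - q) - chi l (x - q)) +
      θ (x + eb b) * (gr (fun y => pl (y - q)) (x, b) - gr (fun y => chi l (y - q)) (x, b)) := by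
    rw [gr_eq, gr_eq, gr_eq, gr_eq]
    unfold kk
    ring
  have hk : |pl (x - q) - chi l (x - q)| ≤ 1 := by
    have h1 := chi01 (l := l) (x - q)
    have h4 := h.pl0 (x - q)
    have h5 := h.pl1 (x - q)
    rw [abs_le]
    constructor <;> linarith
  have h1 : (gr θ (x, b) * (pl (x - q) - chi l (x - q))) ^ 2 ≤ (A / N) ^ 2 := by
    have h2 := mul_le_mul (h.thg (x, b)) hk (abs_nonneg _)
      (div_nonneg h.A0 (Nat.cast_nonneg N))
    rw [← abs_mul, mul_one] at h2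
    have h3 := pow_le_pow_left₀ (abs_nonneg _) h2 2
    rwa [sq_abs] at h3
  have h2 : (θ (x + eb b) * (gr (fun y => pl (y - q)) (x, b) -
      gr (fun y => chi l (y - q)) (x, b))) ^ 2 ≤
      2 * gr (fun y => pl (y - q)) (x, b) ^ 2 + 2 * gr (fun y => chi l (y - q)) (x, b) ^ 2 := by
    rw [mul_pow]
    have h3 : θ (x + eb b) ^ 2 ≤ 1 := pow_le_one₀ (h.th0 _) (h.th1 _)
    have h4 : (gr (fun y => pl (y - q)) (x, b) - gr (fun y => chi l (y - q)) (x, b)) ^ 2 ≤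
        2 * gr (fun y => pl (y - q)) (x, b) ^ 2 + 2 * gr (fun y => chi l (y - q)) (x, b) ^ 2 := by
      nlinarith [sq_nonneg (gr (fun y => pl (y - q)) (x, b) + gr (fun y => chi l (y - q)) (x, b))]
    calc _ ≤ 1 * (gr (fun y => pl (y - q)) (x, b) - gr (fun y => chi l (y - q)) (x, b)) ^ 2 :=
          mul_le_mul_of_nonneg_right h3 (sq_nonneg _)
      _ ≤ _ := by rw [one_mul]; exact h4
  rw [e]
  nlinarith [sq_nonneg (gr θ (x, b) * (pl (x - q) - chi l (x - q)) - θ (x + eb b) *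
    (gr (fun y => pl (y - q)) (x, b) - gr (fun y => chi l (y - q)) (x, b)))]

lemma sum_const' (c : ℝ) : ∑ _x : V N, c = (N : ℝ) ^ 2 * c := by
  rw [Finset.sum_const, nsmul_eq_mul, Finset.card_univ, Fintype.card_prod, ZMod.card]
  push_cast
  ring

lemma nrm_aa : nrm (gr (aa l p q θ)) ≤ 7400 + 4 * A ^ 2 := by
  have h1 : nrm (gr (aa l p q θ)) ≤ 4 * nrm (gr fun y => chi l (y - p)) +
      4 * nrm (gr fun y => chi l (y - q)) + 4 * A ^ 2 := by
    unfold nrm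
    rw [sum_edges, sum_edges, sum_edges]
    have h2 : ∀ b : Bool, ∑ x, gr (aa l p q θ) (x, b) ^ 2 ≤
        4 * ∑ x, gr (fun y => chi l (y - p)) (x, b) ^ 2 +
        4 * ∑ x, gr (fun y => chi l (y - q)) (x, b) ^ 2 + 2 * A ^ 2 := by
      intro b
      refine (Finset.sum_le_sum fun x _ => gr_aa h p q x b).trans (le_of_eq ?_)
      rw [Finset.sum_add_distrib, Finset.sum_add_distrib, ← Finset.mul_sum, ← Finset.mul_sum,
        sum_const' h, ← AN h]
      ring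
    have h3 := h2 false
    have h4 := h2 true
    linarith
  rw [nrm_shift, nrm_shift] at h1
  have h2 := nrm_chi (N := N) h.l0
  linarith

lemma nrm_kk : nrm (gr (kk l pl q θ)) ≤ 4 * Bp + 3700 + 4 * A ^ 2 := by
  have h1 : nrm (gr (kk l pl q θ)) ≤ 4 * nrm (gr fun y => pl (y - q)) +
      4 * nrm (gr fun y => chi l (y - q)) + 4 * A ^ 2 := by
    unfold nrm
    rw [sum_edges, sum_edges, sum_edges]
    have h2 : ∀ b : Bool, ∑ x, gr (kk l pl q θ) (x, b) ^ 2 ≤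
        4 * ∑ x, gr (fun y => pl (y - q)) (x, b) ^ 2 +
        4 * ∑ x, gr (fun y => chi l (y - q)) (x, b) ^ 2 + 2 * A ^ 2 := by
      intro b
      refine (Finset.sum_le_sum fun x _ => gr_kk h q x b).trans (le_of_eq ?_)
      rw [Finset.sum_add_distrib, Finset.sum_add_distrib, ← Finset.mul_sum, ← Finset.mul_sum,
        sum_const' h, ← AN h]
      ring
    have h3 := h2 false
    have h4 := h2 true
    linarith
  rw [nrm_shift, nrm_shift] at h1
  have h2 := nrm_chi (N := N) h.l0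
  have h3 := h.plg
  linarith

/-- the local sums -/
lemma loc_p (H : V N → ℝ) : ∑ x ∈ bx p (21 * l), (H x - mn μ p H) ^ 2 ≤
    6837602 * Cm * (l : ℝ) ^ 2 * nrm (gr H) := by
  have hl0 := h.l0
  have hlN := h.lN
  have hl1 : (1 : ℝ) ≤ l := by exact_mod_cast hl0
  have hCm := h.Cm1
  have hE := nrm_nonneg (gr H)
  refine (mn_loc h.pf H p (R := 21 * l) (by omega) (by omega)).trans ?_
  have h1 : ((2 * (21 * l) + 1 : ℕ) : ℝ) ≤ 43 * l := by
    push_cast
    linarith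
  have h2 := pow_le_pow_left₀ (Nat.cast_nonneg _) h1 4
  have h3 : Cm / (l : ℝ) ^ 2 * (2 * ((2 * (21 * l) + 1 : ℕ) : ℝ) ^ 4 * nrm (gr H)) ≤
      Cm / (l : ℝ) ^ 2 * (2 * (43 * (l : ℝ)) ^ 4 * nrm (gr H)) := by
    refine mul_le_mul_of_nonneg_left (mul_le_mul_of_nonneg_right ?_ hE) (by positivity)
    linarith
  refine h3.trans (le_of_eq ?_)
  field_simp
  norm_num
  ring

/-- the energy of the local part -/
lemma main_v {k : ℕ} (hk : N ≤ 2 ^ k * l) (H : V N → ℝ) :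
    ∑ e : V N × Bool, gr (aa l p q θ) e ^ 2 * (H e.1 - mn μ p H) ^ 2 ≤
      (41025612 * Cm + 4 * A ^ 2 * (16 + 2 * (5 * Cm + 3 * k) ^ 2)) * nrm (gr H) +
        7396 * (mn μ q H - mn μ p H) ^ 2 := by
  have hl0 := h.l0
  have hlN := h.lN
  have hl1 : (1 : ℝ) ≤ l := by exact_mod_cast hl0
  have hCm := h.Cm1
  have hE := nrm_nonneg (gr H)
  set f : V N → ℝ := fun x => (H x - mn μ p H) ^ 2 with hf
  have hf0 : ∀ x, 0 ≤ f x := fun x => sq_nonneg _
  set D := mn μ q H - mn μ p H with hD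
  have hb : ∀ b : Bool, ∑ x, gr (aa l p q θ) (x, b) ^ 2 * f x ≤
      1 / (l : ℝ) ^ 2 * (∑ x ∈ bx p (21 * l), f x + ∑ x ∈ bx q (21 * l), f x) +
        2 * (A / N) ^ 2 * ∑ x, f x := by
    intro b
    have h1 : ∀ x, gr (aa l p q θ) (x, b) ^ 2 * f x ≤
        4 * (gr (fun y => chi l (y - p)) (x, b) ^ 2 * f x) +
        4 * (gr (fun y => chi l (y - q)) (x, b) ^ 2 * f x) + 2 * (A / N) ^ 2 * f x := by
      intro x
      have := mul_le_mul_of_nonneg_right (gr_aa h p q x b) (hf0 x)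
      linarith
    refine (Finset.sum_le_sum fun x _ => h1 x).trans ?_
    rw [Finset.sum_add_distrib, Finset.sum_add_distrib, ← Finset.mul_sum, ← Finset.mul_sum,
      ← Finset.mul_sum]
    have h2 : ∀ c : V N, 4 * ∑ x, gr (fun y => chi l (y - c)) (x, b) ^ 2 * f x ≤
        1 / (l : ℝ) ^ 2 * ∑ x ∈ bx c (21 * l), f x := by
      intro c
      have h3 := sum_U (18 * l) (l' := 2 * l) (by omega) c hf0 b
      have h4 : ∑ x ∈ bx c (18 * l + 2 * l + 1), f x ≤ ∑ x ∈ bx c (21 * l), f x :=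
        Finset.sum_le_sum_of_subset_of_nonneg (bx_sub c (by omega)) fun x _ _ => hf0 x
      have h5 : 4 * (1 / ((2 * l : ℕ) : ℝ) ^ 2 * ∑ x ∈ bx c (18 * l + 2 * l + 1), f x) ≤
          1 / (l : ℝ) ^ 2 * ∑ x ∈ bx c (21 * l), f x := by
        have e : 4 * (1 / ((2 * l : ℕ) : ℝ) ^ 2 * ∑ x ∈ bx c (18 * l + 2 * l + 1), f x) =
            1 / (l : ℝ) ^ 2 * ∑ x ∈ bx c (18 * l + 2 * l + 1), f x := by
          push_cast
          field_simp
          norm_num
        rw [e]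
        exact mul_le_mul_of_nonneg_left h4 (by positivity)
      refine le_trans (mul_le_mul_of_nonneg_left h3 (by norm_num)) h5
    have h3 := h2 p
    have h4 := h2 q
    rw [mul_add]
    linarith
  have hp := loc_p h p H
  have hq := loc_p h q H
  have hq2 : ∑ x ∈ bx q (21 * l), f x ≤
      2 * (6837602 * Cm * (l : ℝ) ^ 2 * nrm (gr H)) + 3698 * (l : ℝ) ^ 2 * D ^ 2 := by
    have h1 : ∀ x, f x ≤ 2 * (H x - mn μ q H) ^ 2 + 2 * D ^ 2 := by
      intro x
      simp only [hf, hD]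
      nlinarith [sq_nonneg ((H x - mn μ q H) - (mn μ q H - mn μ p H))]
    refine (Finset.sum_le_sum fun x _ => h1 x).trans ?_
    rw [Finset.sum_add_distrib, ← Finset.mul_sum, Finset.sum_const, nsmul_eq_mul]
    have h2 : ((#(bx q (21 * l)) : ℕ) : ℝ) ≤ 1849 * (l : ℝ) ^ 2 := by
      refine (card_bx_le q (21 * l)).trans ?_
      have h3 : ((2 * (21 * l) + 1 : ℕ) : ℝ) ≤ 43 * l := by
        push_cast
        linarith
      have h4 := pow_le_pow_left₀ (Nat.cast_nonneg _) h3 2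
      nlinarith
    have h3 := mul_le_mul_of_nonneg_right h2 (by positivity : 0 ≤ 2 * D ^ 2)
    linarith
  have hg := mn_glob h.pf hl0 hCm (by omega) hk H p
  rw [sum_edges (fun e : V N × Bool => gr (aa l p q θ) e ^ 2 * (H e.1 - mn μ p H) ^ 2)]
  have h1 := hb false
  have h2 := hb true
  have h3 : 1 / (l : ℝ) ^ 2 * (∑ x ∈ bx p (21 * l), f x + ∑ x ∈ bx q (21 * l), f x) ≤
      20512806 * Cm * nrm (gr H) + 3698 * D ^ 2 := by
    rw [one_div, inv_mul_le_iff₀ (by positivity)]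
    have h4 : ∑ x ∈ bx p (21 * l), f x ≤ 6837602 * Cm * (l : ℝ) ^ 2 * nrm (gr H) := hp
    calc _ ≤ 6837602 * Cm * (l : ℝ) ^ 2 * nrm (gr H) +
          (2 * (6837602 * Cm * (l : ℝ) ^ 2 * nrm (gr H)) + 3698 * (l : ℝ) ^ 2 * D ^ 2) :=
          add_le_add h4 hq2
      _ = _ := by ring
  have h4 : 2 * (A / N) ^ 2 * ∑ x, f x ≤
      2 * A ^ 2 * (16 + 2 * (5 * Cm + 3 * k) ^ 2) * nrm (gr H) := by
    have h5 : ∑ x, f x ≤ (16 + 2 * (5 * Cm + 3 * k) ^ 2) * (N : ℝ) ^ 2 * nrm (gr H) := hg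
    have h6 := mul_le_mul_of_nonneg_left h5 (by positivity : 0 ≤ 2 * (A / (N : ℝ)) ^ 2)
    refine h6.trans (le_of_eq ?_)
    rw [← AN h]
    ring
  have h5 : ∀ b : Bool, ∑ x, gr (aa l p q θ) (x, b) ^ 2 * (H x - mn μ p H) ^ 2 =
      ∑ x, gr (aa l p q θ) (x, b) ^ 2 * f x := fun b => rfl
  rw [h5, h5]
  linarith

/-- **the Dirichlet energy of the partially cut field** -/
theorem nrm_TP {k : ℕ} (hk : N ≤ 2 ^ k * l) (H : V N → ℝ) :
    nrm (gr (TP l pl μ p q θ H)) ≤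
      2 * 10 ^ 8 * Cm ^ 2 * (1 + A ^ 2 + Bp) * (1 + k) ^ 2 * nrm (gr H) := by
  have hl0 := h.l0
  have hlN := h.lN
  have hCm := h.Cm1
  have hE := nrm_nonneg (gr H)
  set D := mn μ q H - mn μ p H with hD
  have hpt : ∀ e : V N × Bool, gr (TP l pl μ p q θ H) e ^ 2 ≤
      3 * (4 * gr H e ^ 2 + gr (aa l p q θ) e ^ 2 * (H e.1 - mn μ p H) ^ 2 +
        D ^ 2 * gr (kk l pl q θ) e ^ 2) := by
    rintro ⟨x, b⟩
    have e : gr (TP l pl μ p q θ H) (x, b) = aa l p q θ (x + eb b) * gr H (x, b) +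
        gr (aa l p q θ) (x, b) * (H x - mn μ p H) + D * gr (kk l pl q θ) (x, b) := by
      rw [gr_eq, gr_eq, gr_eq, gr_eq]
      unfold TP aa kk
      simp only [hD]
      ring
    rw [e]
    set u := aa l p q θ (x + eb b) * gr H (x, b) with hu
    set v := gr (aa l p q θ) (x, b) * (H x - mn μ p H) with hv
    set w := D * gr (kk l pl q θ) (x, b) with hw
    have h1 : (u + v + w) ^ 2 ≤ 3 * (u ^ 2 + v ^ 2 + w ^ 2) := by
      nlinarith [sq_nonneg (u - v), sq_nonneg (u - w), sq_nonneg (v - w)]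
    have h2 : u ^ 2 ≤ 4 * gr H (x, b) ^ 2 := by
      rw [hu, mul_pow]
      exact mul_le_mul_of_nonneg_right (aa_sq h p q _) (sq_nonneg _)
    have h3 : v ^ 2 = gr (aa l p q θ) (x, b) ^ 2 * (H x - mn μ p H) ^ 2 := by rw [hv, mul_pow]
    have h4 : w ^ 2 = D ^ 2 * gr (kk l pl q θ) (x, b) ^ 2 := by rw [hw, mul_pow]
    rw [← h3, ← h4]
    linarith
  have hv := main_v h p q hk H
  have hw := nrm_kk h q
  have hDD := mn_dif h.pf hl0 hCm (by omega) hk H p q
  have hsum : nrm (gr (TP l pl μ p q θ H)) ≤ 3 * (4 * nrm (gr H) +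
      ∑ e : V N × Bool, gr (aa l p q θ) e ^ 2 * (H e.1 - mn μ p H) ^ 2 +
      D ^ 2 * nrm (gr (kk l pl q θ))) := by
    unfold nrm
    refine (Finset.sum_le_sum fun e _ => hpt e).trans (le_of_eq ?_)
    rw [← Finset.mul_sum, Finset.sum_add_distrib, Finset.sum_add_distrib, ← Finset.mul_sum,
      ← Finset.mul_sum]
  set X : ℝ := Cm ^ 2 * (1 + k) ^ 2 with hX
  have hk0 : (0 : ℝ) ≤ k := Nat.cast_nonneg k
  have hX1 : 1 ≤ X := by
    rw [hX]
    exact one_le_mul_of_one_le_of_one_le (one_le_pow₀ hCm) (one_le_pow₀ (by linarith))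
  have hCX : Cm ≤ X := by
    rw [hX]
    have h1 : Cm ≤ Cm ^ 2 := by nlinarith
    have h2 : (1 : ℝ) ≤ (1 + k) ^ 2 := one_le_pow₀ (by linarith)
    nlinarith
  have hd : (10 * Cm + 6 * k + 6) ^ 2 ≤ 256 * X := by
    have h1 : 10 * Cm + 6 * k + 6 ≤ 16 * (Cm * (1 + k)) := by nlinarith
    have h2 := pow_le_pow_left₀ (by positivity) h1 2
    refine h2.trans (le_of_eq ?_)
    rw [hX]
    ring
  have hg : 16 + 2 * (5 * Cm + 3 * k) ^ 2 ≤ 66 * X := by
    have h1 : 5 * Cm + 3 * k ≤ 5 * (Cm * (1 + k)) := by nlinarith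
    have h2 := pow_le_pow_left₀ (by positivity) h1 2
    have h3 : (5 * (Cm * (1 + (k : ℝ)))) ^ 2 = 25 * X := by
      rw [hX]
      ring
    rw [h3] at h2
    linarith
  have hD1 : D ^ 2 ≤ 256 * X * nrm (gr H) :=
    hDD.trans (mul_le_mul_of_nonneg_right hd hE)
  have hA2 : 0 ≤ A ^ 2 := sq_nonneg _
  have hB := h.B0
  set E := nrm (gr H) with hEd
  have t1 : (41025612 * Cm + 4 * A ^ 2 * (16 + 2 * (5 * Cm + 3 * k) ^ 2)) * E ≤
      (41025612 * X + 264 * A ^ 2 * X) * E := by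
    refine mul_le_mul_of_nonneg_right ?_ hE
    have := mul_le_mul_of_nonneg_left hg (by positivity : 0 ≤ 4 * A ^ 2)
    linarith
  have t2 : D ^ 2 * nrm (gr (kk l pl q θ)) ≤ 256 * X * E * (4 * Bp + 3700 + 4 * A ^ 2) :=
    mul_le_mul hD1 hw (nrm_nonneg _) (by positivity)
  have t3 : 4 * E ≤ 4 * X * E := by nlinarith
  have t4 : nrm (gr (TP l pl μ p q θ H)) ≤
      3 * (4 * X * E + ((41025612 * X + 264 * A ^ 2 * X) * E + 7396 * (256 * X * E)) +
        256 * X * E * (4 * Bp + 3700 + 4 * A ^ 2)) := by linarith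
  refine t4.trans ?_
  have hXE : 0 ≤ X * E := by positivity
  have e1' : 2 * 10 ^ 8 * Cm ^ 2 * (1 + A ^ 2 + Bp) * (1 + (k : ℝ)) ^ 2 * E =
      2 * 10 ^ 8 * (1 + A ^ 2 + Bp) * (X * E) := by
    rw [hX]
    ring
  rw [e1']
  have hXA : 0 ≤ X * E * A ^ 2 := mul_nonneg hXE hA2
  have hXB : 0 ≤ X * E * Bp := mul_nonneg hXE hB
  nlinarith

end

end Vale.Agent.P159.H846.Tp
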